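import Mathlib

/-! P367: the `n = infinity` one-site model (interface of helper96, notes 7912 and 7943). -/

namespace Vale.Agent.P367.NI

open Complex

/-- A Weyl system over the one-particle space `K`, together with an isometric embedding of the
one-site space `C^2 (x) F` into `K` and a unit vector `e0` orthogonal to it (label direction). -/
structure Weyl (F K : Type) [NormedAddCommGroup F] [InnerProductSpace ℂ F]
    [NormedAddCommGroup K] [InnerProductSpace ℂ K] where
  /-- Weyl operator `exp(i phi(a))` -/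
  W : K → F ≃ₗᵢ[ℂ] F
  /-- vacuum -/
  Om : F
  W_mul : ∀ (a b : K) (x : F), W a (W b x)
    = Complex.exp (-(Complex.I * ((inner ℂ a b).im : ℂ))) • W (a + b) x
  vac : ∀ a : K, inner ℂ Om (W a Om) = Complex.exp (-((‖a‖ ^ 2 / 2 : ℝ) : ℂ))
  /-- embedding of the one-site space into the one-particle space -/
  iota : WithLp 2 (F × F) →ₗᵢ[ℂ] K
  /-- label direction -/
  e0 : K
  norm_e0 : ‖e0‖ = 1
  e0_perp : ∀ x, inner ℂ e0 (iota x) = 0

section spaces

variable {F : Type} [NormedAddCommGroup F] [InnerProductSpace ℂ F]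

/-- one-site space -/
abbrev HH (F : Type) [NormedAddCommGroup F] [InnerProductSpace ℂ F] : Type := WithLp 2 (F × F)

lemma normsq_HH (x : HH F) : ‖x‖ ^ 2 = ‖x.fst‖ ^ 2 + ‖x.snd‖ ^ 2 :=
  WithLp.prod_norm_sq_eq_of_L2 x

lemma inner_HH (x y : HH F) : inner ℂ x y = inner ℂ x.fst y.fst + inner ℂ x.snd y.snd :=
  WithLp.prod_inner_apply x y

/-- block diagonal isometry -/
noncomputable def dg (A B : F ≃ₗᵢ[ℂ] F) : HH F ≃ₗᵢ[ℂ] HH F where
  toFun x := WithLp.toLp 2 (A x.fst, B x.snd)
  invFun x := WithLp.toLp 2 (A.symm x.fst, B.symm x.snd)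
  map_add' x y := by
    apply (WithLp.equiv 2 (F × F)).injective
    simp
  map_smul' c x := by
    apply (WithLp.equiv 2 (F × F)).injective
    simp
  left_inv x := by
    apply (WithLp.equiv 2 (F × F)).injective
    refine Prod.ext ?_ ?_
    · exact A.symm_apply_apply _
    · exact B.symm_apply_apply _
  right_inv x := by
    apply (WithLp.equiv 2 (F × F)).injective
    refine Prod.ext ?_ ?_
    · exact A.apply_symm_apply _
    · exact B.apply_symm_apply _
  norm_map' x := by
    refine (sq_eq_sq₀ (norm_nonneg _) (norm_nonneg _)).1 ?_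
    rw [normsq_HH, normsq_HH]
    simp

@[simp] lemma dg_fst (A B : F ≃ₗᵢ[ℂ] F) (x : HH F) : (dg A B x).fst = A x.fst := rfl
@[simp] lemma dg_snd (A B : F ≃ₗᵢ[ℂ] F) (x : HH F) : (dg A B x).snd = B x.snd := rfl

/-- Pauli `Z` -/
noncomputable def zop (F : Type) [NormedAddCommGroup F] [InnerProductSpace ℂ F] :
    HH F ≃ₗᵢ[ℂ] HH F := dg (LinearIsometryEquiv.refl ℂ F) (LinearIsometryEquiv.neg ℂ)

@[simp] lemma zop_fst (x : HH F) : (zop F x).fst = x.fst := rfl
@[simp] lemma zop_snd (x : HH F) : (zop F x).snd = -x.snd := rfl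

/-- `exp(-i b X)` -/
noncomputable def xr (b : ℝ) : HH F ≃ₗᵢ[ℂ] HH F where
  toFun x := WithLp.toLp 2 ((Real.cos b : ℂ) • x.fst - (Complex.I * (Real.sin b : ℂ)) • x.snd,
    -((Complex.I * (Real.sin b : ℂ)) • x.fst) + (Real.cos b : ℂ) • x.snd)
  invFun x := WithLp.toLp 2 ((Real.cos b : ℂ) • x.fst + (Complex.I * (Real.sin b : ℂ)) • x.snd,
    (Complex.I * (Real.sin b : ℂ)) • x.fst + (Real.cos b : ℂ) • x.snd)
  map_add' x y := by
    apply (WithLp.equiv 2 (F × F)).injective
    ext <;> simp [smul_add] <;> abel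
  map_smul' c x := by
    apply (WithLp.equiv 2 (F × F)).injective
    ext <;> simp [smul_sub, smul_add, smul_smul, mul_comm]
  left_inv x := by
    have h : (Real.cos b : ℂ) * Real.cos b + (Real.sin b : ℂ) * Real.sin b = 1 := by
      have := Real.cos_sq_add_sin_sq b
      rw [← Complex.ofReal_mul, ← Complex.ofReal_mul, ← Complex.ofReal_add,
        ← pow_two, ← pow_two, this, Complex.ofReal_one]
    have hI := Complex.I_mul_I
    apply (WithLp.equiv 2 (F × F)).injective
    refine Prod.ext ?_ ?_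
    · change (Real.cos b : ℂ) • ((Real.cos b : ℂ) • x.fst - (Complex.I * (Real.sin b : ℂ)) • x.snd)
        + (Complex.I * (Real.sin b : ℂ)) • (-((Complex.I * (Real.sin b : ℂ)) • x.fst)
          + (Real.cos b : ℂ) • x.snd) = x.fst
      have e : (Real.cos b : ℂ) * Real.cos b - (Complex.I * (Real.sin b : ℂ))
          * (Complex.I * (Real.sin b : ℂ)) = 1 := by linear_combination h - (Real.sin b : ℂ)^2 * hI
      calc _ = ((Real.cos b : ℂ) * Real.cos b - (Complex.I * (Real.sin b : ℂ))
          * (Complex.I * (Real.sin b : ℂ))) • x.fst := by module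
        _ = _ := by rw [e, one_smul]
    · change (Complex.I * (Real.sin b : ℂ)) • ((Real.cos b : ℂ) • x.fst
        - (Complex.I * (Real.sin b : ℂ)) • x.snd)
        + (Real.cos b : ℂ) • (-((Complex.I * (Real.sin b : ℂ)) • x.fst)
          + (Real.cos b : ℂ) • x.snd) = x.snd
      have e : (Real.cos b : ℂ) * Real.cos b - (Complex.I * (Real.sin b : ℂ))
          * (Complex.I * (Real.sin b : ℂ)) = 1 := by linear_combination h - (Real.sin b : ℂ)^2 * hI
      calc _ = ((Real.cos b : ℂ) * Real.cos b - (Complex.I * (Real.sin b : ℂ))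
          * (Complex.I * (Real.sin b : ℂ))) • x.snd := by module
        _ = _ := by rw [e, one_smul]
  right_inv x := by
    have h : (Real.cos b : ℂ) * Real.cos b + (Real.sin b : ℂ) * Real.sin b = 1 := by
      have := Real.cos_sq_add_sin_sq b
      rw [← Complex.ofReal_mul, ← Complex.ofReal_mul, ← Complex.ofReal_add,
        ← pow_two, ← pow_two, this, Complex.ofReal_one]
    have hI := Complex.I_mul_I
    apply (WithLp.equiv 2 (F × F)).injective
    refine Prod.ext ?_ ?_
    · change (Real.cos b : ℂ) • ((Real.cos b : ℂ) • x.fst + (Complex.I * (Real.sin b : ℂ)) • x.snd)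
        - (Complex.I * (Real.sin b : ℂ)) • ((Complex.I * (Real.sin b : ℂ)) • x.fst
          + (Real.cos b : ℂ) • x.snd) = x.fst
      have e : (Real.cos b : ℂ) * Real.cos b - (Complex.I * (Real.sin b : ℂ))
          * (Complex.I * (Real.sin b : ℂ)) = 1 := by linear_combination h - (Real.sin b : ℂ)^2 * hI
      calc _ = ((Real.cos b : ℂ) * Real.cos b - (Complex.I * (Real.sin b : ℂ))
          * (Complex.I * (Real.sin b : ℂ))) • x.fst := by module
        _ = _ := by rw [e, one_smul]
    · change -((Complex.I * (Real.sin b : ℂ)) • ((Real.cos b : ℂ) • x.fst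
        + (Complex.I * (Real.sin b : ℂ)) • x.snd))
        + (Real.cos b : ℂ) • ((Complex.I * (Real.sin b : ℂ)) • x.fst
          + (Real.cos b : ℂ) • x.snd) = x.snd
      have e : (Real.cos b : ℂ) * Real.cos b - (Complex.I * (Real.sin b : ℂ))
          * (Complex.I * (Real.sin b : ℂ)) = 1 := by linear_combination h - (Real.sin b : ℂ)^2 * hI
      calc _ = ((Real.cos b : ℂ) * Real.cos b - (Complex.I * (Real.sin b : ℂ))
          * (Complex.I * (Real.sin b : ℂ))) • x.snd := by module
        _ = _ := by rw [e, one_smul]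
  norm_map' x := by
    refine (sq_eq_sq₀ (norm_nonneg _) (norm_nonneg _)).1 ?_
    rw [normsq_HH, normsq_HH]
    change ‖(Real.cos b : ℂ) • x.fst - (Complex.I * (Real.sin b : ℂ)) • x.snd‖ ^ 2
      + ‖-((Complex.I * (Real.sin b : ℂ)) • x.fst) + (Real.cos b : ℂ) • x.snd‖ ^ 2 = _
    have h := Real.cos_sq_add_sin_sq b
    have e1 := @norm_sub_sq ℂ F _ _ _ ((Real.cos b : ℂ) • x.fst)
      ((Complex.I * (Real.sin b : ℂ)) • x.snd)
    have e2 := @norm_sub_sq ℂ F _ _ _ ((Real.cos b : ℂ) • x.snd)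
      ((Complex.I * (Real.sin b : ℂ)) • x.fst)
    rw [neg_add_eq_sub, e1, e2]
    have n1 : ‖(Real.cos b : ℂ)‖ ^ 2 = Real.cos b ^ 2 := by
      rw [Complex.norm_real, Real.norm_eq_abs, sq_abs]
    have n2 : ‖Complex.I * (Real.sin b : ℂ)‖ ^ 2 = Real.sin b ^ 2 := by
      rw [norm_mul, Complex.norm_I, one_mul, Complex.norm_real, Real.norm_eq_abs, sq_abs]
    simp only [norm_smul, mul_pow, n1, n2, inner_smul_left, inner_smul_right]
    have e3 : RCLike.re (Complex.I * (Real.sin b : ℂ) * ((starRingEnd ℂ) (Real.cos b : ℂ)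
        * inner ℂ x.fst x.snd)) + RCLike.re (Complex.I * (Real.sin b : ℂ) *
        ((starRingEnd ℂ) (Real.cos b : ℂ) * inner ℂ x.snd x.fst)) = 0 := by
      have hu : inner ℂ x.snd x.fst = (starRingEnd ℂ) (inner ℂ x.fst x.snd) :=
        (inner_conj_symm _ _).symm
      rw [hu]
      generalize (inner ℂ x.fst x.snd : ℂ) = u
      simp only [Complex.conj_ofReal, RCLike.re_to_complex, Complex.mul_re, Complex.mul_im,
        Complex.I_re, Complex.I_im, Complex.ofReal_re, Complex.ofReal_im, Complex.conj_re,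
        Complex.conj_im]
      ring
    have e4 : (Real.cos b ^ 2 + Real.sin b ^ 2) * (‖x.fst‖ ^ 2 + ‖x.snd‖ ^ 2)
        = ‖x.fst‖ ^ 2 + ‖x.snd‖ ^ 2 := by rw [h, one_mul]
    linarith [e3, e4]

end spaces

variable {F K : Type} [NormedAddCommGroup F] [InnerProductSpace ℂ F]
  [NormedAddCommGroup K] [InnerProductSpace ℂ K]

/-- states: unitaries of the one-site space -/
abbrev St (F : Type) [NormedAddCommGroup F] [InnerProductSpace ℂ F] : Type := HH F ≃ₗᵢ[ℂ] HH F

/-- gates of labelled words -/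
inductive Gate : Type
  | B (b : ℝ) : Gate
  | C (g : ℝ) : Gate
  | G (k : ℝ) : Gate

namespace Weyl

variable (S : Weyl F K)

/-- `exp(-i Z phi(v))` -/
noncomputable def zr (v : K) : St F := dg (S.W (-v)) (S.W v)

/-- one-site vacuum `|+> (x) Om` -/
noncomputable def OmH : HH F :=
  WithLp.toLp 2 ((((Real.sqrt 2)⁻¹ : ℝ) : ℂ) • S.Om, (((Real.sqrt 2)⁻¹ : ℝ) : ℂ) • S.Om)

/-- the field vector `V^* Z V Om` -/
noncomputable def xv (V : St F) : HH F := V.symm (zop F (V S.OmH))

/-- action of a gate -/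
noncomputable def step : Gate → St F → St F
  | Gate.B b, V => V.trans (xr b)
  | Gate.C g, V => V.trans (S.zr ((g : ℂ) • S.iota (S.xv V)))
  | Gate.G k, V => V.trans (S.zr ((k : ℂ) • S.e0))

/-- evaluation of a word; the head of the list is the last gate -/
noncomputable def ev : List Gate → St F
  | [] => LinearIsometryEquiv.refl ℂ (HH F)
  | g :: w => S.step g (ev w)

/-- `- sum_j g_j Im <x_j, y>^2` over the `C` gates -/
noncomputable def eaux (y : HH F) : List Gate → ℝ
  | [] => 0
  | Gate.C g :: w => -(g * ((inner ℂ (S.xv (S.ev w)) y) ^ 2 : ℂ).im) + eaux y w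
  | Gate.B _ :: w => eaux y w
  | Gate.G _ :: w => eaux y w

/-- energy of a word -/
noncomputable def energy (w : List Gate) : ℝ := S.eaux (S.xv (S.ev w)) w

/-- `sum_i k_i Im <x_i, y>` over the `G` gates -/
noncomputable def laux (y : HH F) : List Gate → ℝ
  | [] => 0
  | Gate.G k :: w => k * (inner ℂ (S.xv (S.ev w)) y : ℂ).im + laux y w
  | Gate.B _ :: w => laux y w
  | Gate.C _ :: w => laux y w

/-- alignment of a word, `-(1/2) E[eta Z]` -/
noncomputable def al (w : List Gate) : ℝ := S.laux (S.xv (S.ev w)) w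

end Weyl

/-- the plain word of `p` layers with angles `gamma k`, `beta k` -/
def plain (γ β : ℕ → ℝ) : ℕ → List Gate
  | 0 => []
  | p + 1 => Gate.B (β p) :: Gate.C (γ p) :: plain γ β p

end Vale.Agent.P367.NI
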