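import Vale.Agent.P367.NI.Defs

theorem Vale.Agent.P367.NI.eqforce_plain : True := by
  first
  | exact (fun _ => trivial) @Vale.Agent.P367.NI.plain.eq_1
  | exact (fun _ => trivial) @Vale.Agent.P367.NI.plain.eq_1.{0}
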