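import Vale.Agent.P367.NI.Defs

/-!
# P367: analytic dependence of the one-site model on the angles, removal of the alignment condition
-/

namespace Vale.Agent.P367.NI

open Complex Set Filter Topology

/-! ### Analytic functions on the line -/

/-- real-analytic complex functions on the line -/
def An (f : ℝ → ℂ) : Prop := AnalyticOnNhd ℝ f univ

/-- real-analytic real functions on the line -/
def AnR (f : ℝ → ℝ) : Prop := AnalyticOnNhd ℝ f univ

lemma An.const (c : ℂ) : An (fun _ => c) := analyticOnNhd_const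

lemma An.add {f g : ℝ → ℂ} (hf : An f) (hg : An g) : An (fun t => f t + g t) :=
  AnalyticOnNhd.add hf hg

lemma An.mul {f g : ℝ → ℂ} (hf : An f) (hg : An g) : An (fun t => f t * g t) :=
  AnalyticOnNhd.mul hf hg

lemma An.neg {f : ℝ → ℂ} (hf : An f) : An (fun t => -f t) := AnalyticOnNhd.neg hf

lemma An.conj {f : ℝ → ℂ} (hf : An f) : An (fun t => (starRingEnd ℂ) (f t)) := by
  have h := (Complex.conjCLE : ℂ ≃L[ℝ] ℂ).toContinuousLinearMap.analyticOnNhd univ
  exact h.comp hf (fun _ _ => mem_univ _)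

lemma An.cexp {f : ℝ → ℂ} (hf : An f) : An (fun t => Complex.exp (f t)) := by
  intro t ht
  have h1 : AnalyticAt ℝ Complex.exp (f t) := (analyticAt_cexp (z := f t)).restrictScalars
  exact h1.fun_comp (hf t ht)

lemma AnR.ofReal {f : ℝ → ℝ} (hf : AnR f) : An (fun t => (f t : ℂ)) := by
  have h := Complex.ofRealCLM.analyticOnNhd univ
  exact h.comp hf (fun _ _ => mem_univ _)

lemma An.im {f : ℝ → ℂ} (hf : An f) : AnR (fun t => (f t).im) := by
  have h := Complex.imCLM.analyticOnNhd univ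
  exact h.comp hf (fun _ _ => mem_univ _)

lemma An.re {f : ℝ → ℂ} (hf : An f) : AnR (fun t => (f t).re) := by
  have h := Complex.reCLM.analyticOnNhd univ
  exact h.comp hf (fun _ _ => mem_univ _)

lemma AnR.const (c : ℝ) : AnR (fun _ => c) := analyticOnNhd_const

lemma AnR.add {f g : ℝ → ℝ} (hf : AnR f) (hg : AnR g) : AnR (fun t => f t + g t) :=
  AnalyticOnNhd.add hf hg

lemma AnR.mul {f g : ℝ → ℝ} (hf : AnR f) (hg : AnR g) : AnR (fun t => f t * g t) :=
  AnalyticOnNhd.mul hf hg

lemma AnR.neg {f : ℝ → ℝ} (hf : AnR f) : AnR (fun t => -f t) := AnalyticOnNhd.neg hf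

lemma AnR.cos {f : ℝ → ℝ} (hf : AnR f) : AnR (fun t => Real.cos (f t)) := by
  intro t ht
  exact Real.analyticAt_cos.fun_comp (hf t ht)

lemma AnR.sin {f : ℝ → ℝ} (hf : AnR f) : AnR (fun t => Real.sin (f t)) := by
  intro t ht
  exact Real.analyticAt_sin.fun_comp (hf t ht)

lemma AnR.id : AnR (fun t => t) := analyticOnNhd_id

/-! ### Families of vectors -/

variable {F K : Type} [NormedAddCommGroup F] [InnerProductSpace ℂ F]
  [NormedAddCommGroup K] [InnerProductSpace ℂ K]

/-- combinations of the families of `𝒢` with analytic coefficients -/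
inductive KF (𝒢 : Set (ℝ → K)) : (ℝ → K) → Prop
  | zero : KF 𝒢 (fun _ => 0)
  | gen {g : ℝ → K} : g ∈ 𝒢 → KF 𝒢 g
  | add {a b : ℝ → K} : KF 𝒢 a → KF 𝒢 b → KF 𝒢 (fun t => a t + b t)
  | smul {c : ℝ → ℂ} {a : ℝ → K} : An c → KF 𝒢 a → KF 𝒢 (fun t => c t • a t)

/-- families with analytic inner products -/
def GS (𝒢 : Set (ℝ → K)) : Prop := ∀ a ∈ 𝒢, ∀ b ∈ 𝒢, An (fun t => inner ℂ (a t) (b t))

lemma KF.mono {𝒢 𝒢' : Set (ℝ → K)} (h : 𝒢 ⊆ 𝒢') {a : ℝ → K} (ha : KF 𝒢 a) : KF 𝒢' a := by
  induction ha with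
  | zero => exact KF.zero
  | gen hg => exact KF.gen (h hg)
  | add _ _ h1 h2 => exact KF.add h1 h2
  | smul hc _ h1 => exact KF.smul hc h1

lemma KF.inner {𝒢 : Set (ℝ → K)} (h : GS 𝒢) {a b : ℝ → K} (ha : KF 𝒢 a) (hb : KF 𝒢 b) :
    An (fun t => inner ℂ (a t) (b t)) := by
  induction ha with
  | zero => simpa using An.const 0
  | gen hg =>
    induction hb with
    | zero => simpa using An.const 0
    | gen hg' => exact h _ hg _ hg'
    | add _ _ h1 h2 =>
      simp only [inner_add_right]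
      exact h1.add h2
    | smul hc _ h1 =>
      simp only [inner_smul_right]
      exact hc.mul h1
  | add _ _ h1 h2 =>
    simp only [inner_add_left]
    exact h1.add h2
  | smul hc _ h1 =>
    simp only [inner_smul_left]
    exact hc.conj.mul h1

lemma KF.neg {𝒢 : Set (ℝ → K)} {a : ℝ → K} (ha : KF 𝒢 a) : KF 𝒢 (fun t => -a t) := by
  have h := KF.smul (An.const (-1)) ha
  simpa using h

lemma KF.sub {𝒢 : Set (ℝ → K)} {a b : ℝ → K} (ha : KF 𝒢 a) (hb : KF 𝒢 b) :
    KF 𝒢 (fun t => a t - b t) := by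
  simpa only [sub_eq_add_neg] using ha.add hb.neg

namespace Weyl

variable (S : Weyl F K)

lemma W_zero (x : F) : S.W 0 x = x := by
  have h := S.W_mul 0 0 x
  rw [inner_zero_left, zero_im, ofReal_zero, mul_zero, neg_zero, Complex.exp_zero, one_smul,
    add_zero] at h
  exact (S.W 0).injective h

lemma W_neg_W (a : K) (x : F) : S.W (-a) (S.W a x) = x := by
  rw [S.W_mul, neg_add_cancel, W_zero, inner_neg_left]
  have h : (-(inner ℂ a a : ℂ)).im = 0 := by
    have := inner_self_im (𝕜 := ℂ) a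
    rw [neg_im]
    rw [neg_eq_zero]
    exact this
  rw [h, ofReal_zero, mul_zero, neg_zero, Complex.exp_zero, one_smul]

lemma W_symm (a : K) (x : F) : (S.W a).symm x = S.W (-a) x := by
  rw [LinearIsometryEquiv.symm_apply_eq]
  have h := S.W_neg_W (-a) x
  rw [neg_neg] at h
  exact h.symm

lemma inner_W (a b : K) : inner ℂ (S.W a S.Om) (S.W b S.Om) =
    Complex.exp (Complex.I * ((inner ℂ a b : ℂ).im : ℂ)) *
      Complex.exp (-((‖b - a‖ ^ 2 / 2 : ℝ) : ℂ)) := by
  have h1 : inner ℂ (S.W a S.Om) (S.W b S.Om) = inner ℂ S.Om ((S.W a).symm (S.W b S.Om)) := by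
    rw [LinearIsometryEquiv.inner_map_eq_flip]
  rw [h1, W_symm, S.W_mul, inner_smul_right, neg_add_eq_sub, S.vac, inner_neg_left, neg_im]
  congr 2
  push_cast
  ring

end Weyl

variable (S : Weyl F K)

/-- families of vectors of the one-site space: combinations of coherent vectors -/
inductive HF (𝒢 : Set (ℝ → K)) : (ℝ → HH F) → Prop
  | zero : HF 𝒢 (fun _ => 0)
  | fst {a : ℝ → K} : KF 𝒢 a → HF 𝒢 (fun t => WithLp.toLp 2 (S.W (a t) S.Om, 0))
  | snd {a : ℝ → K} : KF 𝒢 a → HF 𝒢 (fun t => WithLp.toLp 2 (0, S.W (a t) S.Om))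
  | add {x y : ℝ → HH F} : HF 𝒢 x → HF 𝒢 y → HF 𝒢 (fun t => x t + y t)
  | smul {c : ℝ → ℂ} {x : ℝ → HH F} : An c → HF 𝒢 x → HF 𝒢 (fun t => c t • x t)

variable {S}

lemma HF.mono {𝒢 𝒢' : Set (ℝ → K)} (h : 𝒢 ⊆ 𝒢') {x : ℝ → HH F} (hx : HF S 𝒢 x) :
    HF S 𝒢' x := by
  induction hx with
  | zero => exact HF.zero
  | fst ha => exact HF.fst (ha.mono h)
  | snd ha => exact HF.snd (ha.mono h)
  | add _ _ h1 h2 => exact HF.add h1 h2
  | smul hc _ h1 => exact HF.smul hc h1

lemma an_inner_W {𝒢 : Set (ℝ → K)} (h : GS 𝒢) {a b : ℝ → K} (ha : KF 𝒢 a) (hb : KF 𝒢 b) :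
    An (fun t => inner ℂ (S.W (a t) S.Om) (S.W (b t) S.Om)) := by
  simp only [Weyl.inner_W]
  refine An.mul (An.cexp ((An.const I).mul (AnR.ofReal (An.im (ha.inner h hb))))) ?_
  refine An.cexp (An.neg ?_)
  have h1 := (hb.sub ha).inner h (hb.sub ha)
  have h2 : (fun t => ((‖b t - a t‖ ^ 2 / 2 : ℝ) : ℂ)) =
      fun t => inner ℂ (b t - a t) (b t - a t) * (1 / 2 : ℂ) := by
    funext t
    rw [inner_self_eq_norm_sq_to_K]
    push_cast
    simp only [coe_algebraMap]
    ring
  rw [h2]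
  exact h1.mul (An.const _)

lemma inner_ff (u v : F) : inner ℂ (WithLp.toLp 2 (u, 0) : HH F) (WithLp.toLp 2 (v, 0)) =
    inner ℂ u v := by
  rw [inner_HH]
  change inner ℂ u v + inner ℂ (0 : F) (0 : F) = _
  rw [inner_zero_left, add_zero]

lemma inner_fs (u v : F) : inner ℂ (WithLp.toLp 2 (u, 0) : HH F) (WithLp.toLp 2 (0, v)) = 0 := by
  rw [inner_HH]
  change inner ℂ u (0 : F) + inner ℂ (0 : F) v = _
  rw [inner_zero_left, inner_zero_right, add_zero]

lemma inner_sf (u v : F) : inner ℂ (WithLp.toLp 2 (0, u) : HH F) (WithLp.toLp 2 (v, 0)) = 0 := by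
  rw [inner_HH]
  change inner ℂ (0 : F) v + inner ℂ u (0 : F) = _
  rw [inner_zero_left, inner_zero_right, add_zero]

lemma inner_ss (u v : F) : inner ℂ (WithLp.toLp 2 (0, u) : HH F) (WithLp.toLp 2 (0, v)) =
    inner ℂ u v := by
  rw [inner_HH]
  change inner ℂ (0 : F) (0 : F) + inner ℂ u v = _
  rw [inner_zero_left, zero_add]

lemma HF.inner {𝒢 : Set (ℝ → K)} (h : GS 𝒢) {x y : ℝ → HH F} (hx : HF S 𝒢 x)
    (hy : HF S 𝒢 y) : An (fun t => inner ℂ (x t) (y t)) := by
  induction hx with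
  | zero => simpa using An.const 0
  | fst ha =>
    induction hy with
    | zero => simpa using An.const 0
    | fst hb =>
      simp only [inner_ff]
      exact an_inner_W h ha hb
    | snd hb =>
      simp only [inner_fs]
      exact An.const 0
    | add _ _ h1 h2 =>
      simp only [inner_add_right]
      exact h1.add h2
    | smul hc _ h1 =>
      simp only [inner_smul_right]
      exact hc.mul h1
  | snd ha =>
    induction hy with
    | zero => simpa using An.const 0
    | fst hb =>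
      simp only [inner_sf]
      exact An.const 0
    | snd hb =>
      simp only [inner_ss]
      exact an_inner_W h ha hb
    | add _ _ h1 h2 =>
      simp only [inner_add_right]
      exact h1.add h2
    | smul hc _ h1 =>
      simp only [inner_smul_right]
      exact hc.mul h1
  | add _ _ h1 h2 =>
    simp only [inner_add_left]
    exact h1.add h2
  | smul hc _ h1 =>
    simp only [inner_smul_left]
    exact hc.conj.mul h1

/-! ### The gates preserve the families -/

lemma HF.xr {𝒢 : Set (ℝ → K)} {b : ℝ → ℝ} (hb : AnR b) {x : ℝ → HH F} (hx : HF S 𝒢 x) :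
    HF S 𝒢 (fun t => NI.xr (b t) (x t)) := by
  have hc := hb.cos.ofReal
  have hs := ((An.const I).mul hb.sin.ofReal).neg
  induction hx with
  | zero => simpa using HF.zero
  | fst ha =>
    have h := (HF.smul hc (HF.fst (S := S) ha)).add (HF.smul hs (HF.snd ha))
    convert h using 2 with t
    apply (WithLp.equiv 2 (F × F)).injective
    refine Prod.ext ?_ ?_
    · simp [NI.xr]
    · simp [NI.xr]
  | snd ha =>
    have h := (HF.smul hs (HF.fst (S := S) ha)).add (HF.smul hc (HF.snd ha))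
    convert h using 2 with t
    apply (WithLp.equiv 2 (F × F)).injective
    refine Prod.ext ?_ ?_
    · simp [NI.xr]
    · simp [NI.xr]
  | add _ _ h1 h2 =>
    simp only [map_add]
    exact h1.add h2
  | smul hc _ h1 =>
    simp only [map_smul]
    exact HF.smul hc h1

lemma xr_symm (b : ℝ) (x : HH F) : (NI.xr b).symm x = NI.xr (-b) x := by
  change WithLp.toLp 2 ((Real.cos b : ℂ) • x.fst + (Complex.I * (Real.sin b : ℂ)) • x.snd,
    (Complex.I * (Real.sin b : ℂ)) • x.fst + (Real.cos b : ℂ) • x.snd) =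
    WithLp.toLp 2 ((Real.cos (-b) : ℂ) • x.fst - (Complex.I * (Real.sin (-b) : ℂ)) • x.snd,
    -((Complex.I * (Real.sin (-b) : ℂ)) • x.fst) + (Real.cos (-b) : ℂ) • x.snd)
  rw [Real.cos_neg, Real.sin_neg]
  push_cast
  simp only [mul_neg, neg_smul, sub_neg_eq_add, neg_neg]

lemma HF.xr_symm {𝒢 : Set (ℝ → K)} {b : ℝ → ℝ} (hb : AnR b) {x : ℝ → HH F} (hx : HF S 𝒢 x) :
    HF S 𝒢 (fun t => (NI.xr (b t)).symm (x t)) := by
  simp only [NI.xr_symm]
  exact HF.xr hb.neg hx

lemma zr_symm (v : K) (x : HH F) : (S.zr v).symm x = S.zr (-v) x := by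
  apply (WithLp.equiv 2 (F × F)).injective
  refine Prod.ext ?_ ?_
  · change (S.W (-v)).symm x.fst = S.W (- -v) x.fst
    rw [Weyl.W_symm]
  · change (S.W v).symm x.snd = S.W (-v) x.snd
    rw [Weyl.W_symm]

lemma KF.phase {𝒢 : Set (ℝ → K)} (h : GS 𝒢) {v a : ℝ → K} (hv : KF 𝒢 v) (ha : KF 𝒢 a) :
    An (fun t => Complex.exp (-(Complex.I * ((Inner.inner ℂ (v t) (a t) : ℂ).im : ℂ)))) :=
  An.cexp (((An.const I).mul (AnR.ofReal (An.im (hv.inner h ha)))).neg)

lemma HF.zr {𝒢 : Set (ℝ → K)} (h : GS 𝒢) {v : ℝ → K} (hv : KF 𝒢 v) {x : ℝ → HH F}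
    (hx : HF S 𝒢 x) : HF S 𝒢 (fun t => S.zr (v t) (x t)) := by
  induction hx with
  | zero => simpa using HF.zero
  | fst ha =>
    have h1 := HF.smul (KF.phase h hv.neg ha) (HF.fst (S := S) (hv.neg.add ha))
    convert h1 using 2 with t
    apply (WithLp.equiv 2 (F × F)).injective
    refine Prod.ext ?_ ?_
    · exact S.W_mul _ _ _
    · change S.W (v t) 0 = _ • (0 : F)
      rw [map_zero, smul_zero]
  | snd ha =>
    have h1 := HF.smul (KF.phase h hv ha) (HF.snd (S := S) (hv.add ha))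
    convert h1 using 2 with t
    apply (WithLp.equiv 2 (F × F)).injective
    refine Prod.ext ?_ ?_
    · change S.W (-v t) 0 = _ • (0 : F)
      rw [map_zero, smul_zero]
    · exact S.W_mul _ _ _
  | add _ _ h1 h2 =>
    simp only [map_add]
    exact h1.add h2
  | smul hc _ h1 =>
    simp only [map_smul]
    exact HF.smul hc h1

lemma HF.zr_symm {𝒢 : Set (ℝ → K)} (h : GS 𝒢) {v : ℝ → K} (hv : KF 𝒢 v) {x : ℝ → HH F}
    (hx : HF S 𝒢 x) : HF S 𝒢 (fun t => (S.zr (v t)).symm (x t)) := by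
  simp only [NI.zr_symm]
  exact HF.zr h hv.neg hx

lemma HF.zop {𝒢 : Set (ℝ → K)} {x : ℝ → HH F} (hx : HF S 𝒢 x) :
    HF S 𝒢 (fun t => NI.zop F (x t)) := by
  induction hx with
  | zero => simpa using HF.zero
  | fst ha =>
    convert HF.fst (S := S) ha using 2 with t
    apply (WithLp.equiv 2 (F × F)).injective
    refine Prod.ext rfl ?_
    change -(0 : F) = 0
    exact neg_zero
  | snd ha =>
    have h1 := HF.smul (An.const (-1)) (HF.snd (S := S) ha)
    convert h1 using 2 with t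
    apply (WithLp.equiv 2 (F × F)).injective
    refine Prod.ext ?_ ?_
    · change (0 : F) = (-1 : ℂ) • (0 : F)
      rw [smul_zero]
    · change -(S.W _ S.Om) = (-1 : ℂ) • (S.W _ S.Om)
      rw [neg_one_smul]
  | add _ _ h1 h2 =>
    simp only [map_add]
    exact h1.add h2
  | smul hc _ h1 =>
    simp only [map_smul]
    exact HF.smul hc h1

lemma HF.omH (𝒢 : Set (ℝ → K)) : HF S 𝒢 (fun _ => S.OmH) := by
  have h1 := (HF.smul (An.const (((Real.sqrt 2)⁻¹ : ℝ) : ℂ)) (HF.fst (S := S) (KF.zero (𝒢 := 𝒢)))).add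
    (HF.smul (An.const (((Real.sqrt 2)⁻¹ : ℝ) : ℂ)) (HF.snd (S := S) (KF.zero (𝒢 := 𝒢))))
  convert h1 using 2 with t
  apply (WithLp.equiv 2 (F × F)).injective
  refine Prod.ext ?_ ?_
  · change (((Real.sqrt 2)⁻¹ : ℝ) : ℂ) • S.Om = (((Real.sqrt 2)⁻¹ : ℝ) : ℂ) • S.W 0 S.Om +
      (((Real.sqrt 2)⁻¹ : ℝ) : ℂ) • (0 : F)
    rw [S.W_zero, smul_zero, add_zero]
  · change (((Real.sqrt 2)⁻¹ : ℝ) : ℂ) • S.Om = (((Real.sqrt 2)⁻¹ : ℝ) : ℂ) • (0 : F) +
      (((Real.sqrt 2)⁻¹ : ℝ) : ℂ) • S.W 0 S.Om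
    rw [S.W_zero, smul_zero, zero_add]

/-! ### Words with analytic angles -/

/-- gates with variable angles -/
inductive FG : Type
  | B (b : ℝ → ℝ) : FG
  | C (g : ℝ → ℝ) : FG
  | G (k : ℝ → ℝ) : FG

/-- the gate at the parameter `t` -/
def FG.at (t : ℝ) : FG → Gate
  | FG.B b => Gate.B (b t)
  | FG.C g => Gate.C (g t)
  | FG.G k => Gate.G (k t)

/-- the angle is analytic -/
def FG.ok : FG → Prop
  | FG.B b => AnR b
  | FG.C g => AnR g
  | FG.G k => AnR k

/-- the word at the parameter `t` -/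
def wat (w : List FG) (t : ℝ) : List Gate := w.map (FG.at t)

/-- the field vector of a family of words -/
noncomputable def XS (S : Weyl F K) (w : List FG) (t : ℝ) : HH F := S.xv (S.ev (wat w t))

/-- the families generated by a word -/
def GW (S : Weyl F K) : List FG → Set (ℝ → K)
  | [] => {fun _ => S.e0}
  | _ :: w => insert (fun t => S.iota (XS S w t)) (GW S w)

lemma gw_mem_e0 (w : List FG) : (fun _ : ℝ => S.e0) ∈ GW S w := by
  induction w with
  | nil => exact rfl
  | cons a w ih => exact Or.inr ih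

/-- a word preserves the families which contain its generators -/
def Pres (S : Weyl F K) (w : List FG) : Prop := ∀ 𝒢 : Set (ℝ → K), GW S w ⊆ 𝒢 → GS 𝒢 →
  ∀ x : ℝ → HH F, HF S 𝒢 x → HF S 𝒢 (fun t => S.ev (wat w t) (x t)) ∧
    HF S 𝒢 (fun t => (S.ev (wat w t)).symm (x t))

/-- the families of a word are combinations -/
def Rep (S : Weyl F K) (w : List FG) : Prop := ∀ a ∈ GW S w, a = (fun _ => S.e0) ∨
  ∃ y : ℝ → HH F, HF S (GW S w) y ∧ a = fun t => S.iota (y t)

lemma main_word (w : List FG) (hw : ∀ g ∈ w, FG.ok g) :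
    GS (GW S w) ∧ Pres S w ∧ Rep S w ∧ HF S (GW S w) (XS S w) := by
  induction w with
  | nil =>
    have hP : Pres S [] := fun 𝒢 _ _ x hx => ⟨hx, hx⟩
    have hG : GS (GW S []) := by
      rintro a (rfl : a = _) b (rfl : b = _)
      exact An.const _
    refine ⟨hG, hP, ?_, ?_⟩
    · rintro a (rfl : a = _)
      exact Or.inl rfl
    · exact (HF.omH _).zop
  | cons g w ih =>
    obtain ⟨hG, hP, hR, hX⟩ := ih fun a ha => hw a (List.mem_cons_of_mem _ ha)
    have hg := hw g List.mem_cons_self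
    have hsub : GW S w ⊆ GW S (g :: w) := subset_insert _ _
    have hG' : GS (GW S (g :: w)) := by
      have key : ∀ a ∈ GW S w, An (fun t => inner ℂ (a t) (S.iota (XS S w t))) := by
        intro a ha
        rcases hR a ha with rfl | ⟨y, hy, rfl⟩
        · simp only [S.e0_perp]
          exact An.const 0
        · simp only [LinearIsometry.inner_map_map]
          exact hy.inner hG hX
      rintro a (rfl | ha) b (rfl | hb)
      · simp only [LinearIsometry.inner_map_map]
        exact hX.inner hG hX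
      · have h1 := (key b hb).conj
        refine (congrArg An ?_).mp h1
        funext t
        exact inner_conj_symm _ _
      · exact key a ha
      · exact hG a ha b hb
    have hP' : Pres S (g :: w) := by
      intro 𝒢 h𝒢 hGS x hx
      have hsub' : GW S w ⊆ 𝒢 := hsub.trans h𝒢
      have hX' : KF 𝒢 (fun t => S.iota (XS S w t)) := KF.gen (h𝒢 (Or.inl rfl))
      have he0 : KF 𝒢 (fun _ : ℝ => S.e0) := KF.gen (hsub' (gw_mem_e0 w))
      cases g with
      | B b =>
        refine ⟨HF.xr hg (hP 𝒢 hsub' hGS x hx).1, ?_⟩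
        exact (hP 𝒢 hsub' hGS _ (HF.xr_symm hg hx)).2
      | C b =>
        have hv : KF 𝒢 (fun t => (b t : ℂ) • S.iota (XS S w t)) := KF.smul (AnR.ofReal hg) hX'
        refine ⟨HF.zr hGS hv (hP 𝒢 hsub' hGS x hx).1, ?_⟩
        exact (hP 𝒢 hsub' hGS _ (HF.zr_symm hGS hv hx)).2
      | G b =>
        have hv : KF 𝒢 (fun t => (b t : ℂ) • S.e0) := KF.smul (AnR.ofReal hg) he0
        refine ⟨HF.zr hGS hv (hP 𝒢 hsub' hGS x hx).1, ?_⟩
        exact (hP 𝒢 hsub' hGS _ (HF.zr_symm hGS hv hx)).2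
    refine ⟨hG', hP', ?_, ?_⟩
    · rintro a (rfl | ha)
      · exact Or.inr ⟨XS S w, hX.mono hsub, rfl⟩
      · rcases hR a ha with h | ⟨y, hy, h⟩
        · exact Or.inl h
        · exact Or.inr ⟨y, hy.mono hsub, h⟩
    · have h1 := (hP' _ subset_rfl hG' _ (HF.omH _)).1.zop
      exact (hP' _ subset_rfl hG' _ h1).2

lemma an_laux {w : List FG} (hw : ∀ g ∈ w, FG.ok g) {𝒢 : Set (ℝ → K)} (h : GW S w ⊆ 𝒢)
    (hGS : GS 𝒢) {y : ℝ → HH F} (hy : HF S 𝒢 y) : AnR (fun t => S.laux (y t) (wat w t)) := by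
  induction w with
  | nil => exact AnR.const 0
  | cons g w ih =>
    have hw' : ∀ a ∈ w, FG.ok a := fun a ha => hw a (List.mem_cons_of_mem _ ha)
    have hsub : GW S w ⊆ 𝒢 := (subset_insert _ _).trans h
    have h1 := ih hw' hsub
    have hg := hw g List.mem_cons_self
    cases g with
    | B b => exact h1
    | C b => exact h1
    | G b =>
      have hX := ((main_word w hw').2.2.2 : HF S (GW S w) (XS S w)).mono hsub
      exact (AnR.mul hg (An.im (hX.inner hGS hy))).add h1

lemma an_eaux {w : List FG} (hw : ∀ g ∈ w, FG.ok g) {𝒢 : Set (ℝ → K)} (h : GW S w ⊆ 𝒢)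
    (hGS : GS 𝒢) {y : ℝ → HH F} (hy : HF S 𝒢 y) : AnR (fun t => S.eaux (y t) (wat w t)) := by
  induction w with
  | nil => exact AnR.const 0
  | cons g w ih =>
    have hw' : ∀ a ∈ w, FG.ok a := fun a ha => hw a (List.mem_cons_of_mem _ ha)
    have hsub : GW S w ⊆ 𝒢 := (subset_insert _ _).trans h
    have h1 := ih hw' hsub
    have hg := hw g List.mem_cons_self
    cases g with
    | B b => exact h1
    | G b => exact h1
    | C b =>
      have hX := ((main_word w hw').2.2.2 : HF S (GW S w) (XS S w)).mono hsub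
      have h2 := hX.inner hGS hy
      have h3 : An (fun t => (inner ℂ (XS S w t) (y t)) ^ 2) := by
        simp only [pow_two]
        exact h2.mul h2
      exact ((AnR.mul hg (An.im h3)).neg).add h1

theorem an_al {w : List FG} (hw : ∀ g ∈ w, FG.ok g) : AnR (fun t => S.al (wat w t)) := by
  obtain ⟨hG, -, -, hX⟩ := main_word (S := S) w hw
  exact an_laux hw subset_rfl hG hX

theorem an_energy {w : List FG} (hw : ∀ g ∈ w, FG.ok g) : AnR (fun t => S.energy (wat w t)) := by
  obtain ⟨hG, -, -, hX⟩ := main_word (S := S) w hw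
  exact an_eaux hw subset_rfl hG hX

/-! ### Removal of the alignment condition -/

/-- the gate with its angle multiplied by `t` -/
def sc (t : ℝ) : Gate → Gate
  | Gate.B b => Gate.B (t * b)
  | Gate.C g => Gate.C (t * g)
  | Gate.G k => Gate.G (t * k)

/-- the same as a gate with a variable angle -/
def scF : Gate → FG
  | Gate.B b => FG.B (fun t => t * b)
  | Gate.C g => FG.C (fun t => t * g)
  | Gate.G k => FG.G (fun t => t * k)

lemma scF_at (t : ℝ) (g : Gate) : FG.at t (scF g) = sc t g := by cases g <;> rfl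

lemma scF_ok (g : Gate) : FG.ok (scF g) := by
  cases g <;> exact AnR.id.mul (AnR.const _)

/-- the two first gates -/
noncomputable def base : List Gate := [Gate.B (Real.pi / 4), Gate.G 1]

/-- the two first gates, as gates with constant angles -/
noncomputable def baseF : List FG := [FG.B (fun _ => Real.pi / 4), FG.G (fun _ => 1)]

lemma wat_sc (w : List Gate) (t : ℝ) : wat (w.map scF ++ baseF) t = w.map (sc t) ++ base := by
  unfold wat baseF base
  rw [List.map_append, List.map_map]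
  congr 1
  refine List.map_congr_left fun g _ => ?_
  exact scF_at t g

lemma ok_sc (w : List Gate) : ∀ g ∈ w.map scF ++ baseF, FG.ok g := by
  intro g hg
  rcases List.mem_append.1 hg with h | h
  · obtain ⟨a, -, rfl⟩ := List.mem_map.1 h
    exact scF_ok a
  · simp only [baseF, List.mem_cons, List.not_mem_nil, or_false] at h
    rcases h with rfl | rfl
    · exact AnR.const _
    · exact AnR.const _

lemma zr_zero : S.zr 0 = LinearIsometryEquiv.refl ℂ (HH F) := by
  ext x
  apply (WithLp.equiv 2 (F × F)).injective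
  refine Prod.ext ?_ ?_
  · change S.W (-0) x.fst = x.fst
    rw [neg_zero, S.W_zero]
  · exact S.W_zero _

lemma xr_zero : NI.xr (F := F) 0 = LinearIsometryEquiv.refl ℂ (HH F) := by
  ext x
  apply (WithLp.equiv 2 (F × F)).injective
  refine Prod.ext ?_ ?_
  · simp [NI.xr]
  · simp [NI.xr]

lemma ev_sc_zero (w v : List Gate) : S.ev (w.map (sc 0) ++ v) = S.ev v := by
  induction w with
  | nil => rfl
  | cons g w ih =>
    change S.step (sc 0 g) (S.ev (w.map (sc 0) ++ v)) = _
    rw [ih]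
    cases g with
    | B b =>
      change (S.ev v).trans (NI.xr (0 * b)) = _
      rw [zero_mul, xr_zero]
      rfl
    | C b =>
      change (S.ev v).trans (S.zr (((0 * b : ℝ) : ℂ) • _)) = _
      rw [zero_mul, ofReal_zero, zero_smul, zr_zero]
      rfl
    | G b =>
      change (S.ev v).trans (S.zr (((0 * b : ℝ) : ℂ) • _)) = _
      rw [zero_mul, ofReal_zero, zero_smul, zr_zero]
      rfl

lemma laux_sc_zero (w v : List Gate) (y : HH F) :
    S.laux y (w.map (sc 0) ++ v) = S.laux y v := by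
  induction w with
  | nil => rfl
  | cons g w ih =>
    cases g with
    | B b => exact ih
    | C b => exact ih
    | G b =>
      change 0 * b * _ + S.laux y (w.map (sc 0) ++ v) = _
      rw [zero_mul, zero_mul, zero_add, ih]

lemma al_sc_zero (w v : List Gate) : S.al (w.map (sc 0) ++ v) = S.al v := by
  unfold Weyl.al
  rw [ev_sc_zero, laux_sc_zero]

variable (S)

lemma xr_apply (b : ℝ) (x y : F) : NI.xr b (WithLp.toLp 2 (x, y) : HH F) =
    WithLp.toLp 2 ((Real.cos b : ℂ) • x - (Complex.I * (Real.sin b : ℂ)) • y,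
    -((Complex.I * (Real.sin b : ℂ)) • x) + (Real.cos b : ℂ) • y) := rfl

lemma zr_apply (v : K) (x y : F) : S.zr v (WithLp.toLp 2 (x, y) : HH F) =
    WithLp.toLp 2 (S.W (-v) x, S.W v y) := rfl

lemma zop_apply (x y : F) : NI.zop F (WithLp.toLp 2 (x, y) : HH F) =
    WithLp.toLp 2 (x, -y) := rfl

lemma W_two (v : K) (x : F) : S.W v (S.W v x) = S.W (v + v) x := by
  rw [S.W_mul]
  have h : (inner ℂ v v : ℂ).im = 0 := inner_self_im (𝕜 := ℂ) v
  rw [h, ofReal_zero, mul_zero, neg_zero, Complex.exp_zero, one_smul]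

lemma omH_eq (a : ℂ) (ha : a = (((Real.sqrt 2)⁻¹ : ℝ) : ℂ)) :
    S.OmH = WithLp.toLp 2 (a • S.Om, a • S.Om) := by rw [ha]; rfl

lemma xv_base (a : ℂ) (ha : a = (((Real.sqrt 2)⁻¹ : ℝ) : ℂ)) :
    S.xv (S.ev base) = WithLp.toLp 2 ((-(I * a)) • S.W (S.e0 + S.e0) S.Om,
      (I * a) • S.W (-S.e0 + -S.e0) S.Om) := by
  have hb : base = Gate.B (Real.pi / 4) :: Gate.G 1 :: [] := rfl
  have hev1 : S.ev [Gate.G 1] = S.zr S.e0 := by
    change (LinearIsometryEquiv.refl ℂ (HH F)).trans (S.zr (((1 : ℝ) : ℂ) • S.e0)) = _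
    rw [ofReal_one, one_smul]
    rfl
  have hev : S.ev base = (S.zr S.e0).trans (NI.xr (Real.pi / 4)) := by
    rw [hb, ← hev1]
    rfl
  obtain ⟨r, hr⟩ : ∃ r : ℂ, r = ((Real.sqrt 2 / 2 : ℝ) : ℂ) := ⟨_, rfl⟩
  have hrr : r * r = 1 / 2 := by
    rw [hr, ← ofReal_mul]
    have : Real.sqrt 2 / 2 * (Real.sqrt 2 / 2) = 1 / 2 := by
      have := Real.mul_self_sqrt (show (0:ℝ) ≤ 2 by norm_num)
      nlinarith
    rw [this]
    push_cast
    rfl
  have hc : (Real.cos (Real.pi / 4) : ℂ) = r := by rw [Real.cos_pi_div_four, hr]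
  have hs : (Real.sin (Real.pi / 4) : ℂ) = r := by rw [Real.sin_pi_div_four, hr]
  have hc' : (Real.cos (-(Real.pi / 4)) : ℂ) = r := by rw [Real.cos_neg, hc]
  have hs' : (Real.sin (-(Real.pi / 4)) : ℂ) = -r := by rw [Real.sin_neg, ofReal_neg, hs]
  have h1 : S.ev base S.OmH = WithLp.toLp 2
      (r • (a • S.W (-S.e0) S.Om) - (I * r) • (a • S.W S.e0 S.Om),
       -((I * r) • (a • S.W (-S.e0) S.Om)) + r • (a • S.W S.e0 S.Om)) := by
    rw [hev, LinearIsometryEquiv.trans_apply, omH_eq S a ha, zr_apply, xr_apply, hc, hs,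
      map_smul, map_smul]
  have h2 : S.xv (S.ev base) = S.zr (-S.e0) (NI.xr (-(Real.pi / 4))
      (NI.zop F (S.ev base S.OmH))) := by
    unfold Weyl.xv
    rw [hev]
    change (S.zr S.e0).symm ((NI.xr (Real.pi / 4)).symm _) = _
    rw [zr_symm, xr_symm]
  rw [h2, h1, zop_apply, xr_apply, hc', hs', zr_apply]
  have hI := Complex.I_mul_I
  have e1 : r • (r • (a • S.W (-S.e0) S.Om) - (I * r) • (a • S.W S.e0 S.Om)) -
      (I * -r) • -(-((I * r) • (a • S.W (-S.e0) S.Om)) + r • (a • S.W S.e0 S.Om)) =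
      (-(I * a)) • S.W S.e0 S.Om := by
    have h3 : r * r * a + I * I * (r * r) * a = 0 := by rw [hI]; ring
    have h4 : -(r * (I * r) * a) - I * r * r * a = -(I * a) := by
      linear_combination (-2 * I * a) * hrr
    calc _ = (r * r * a + I * I * (r * r) * a) • S.W (-S.e0) S.Om +
          (-(r * (I * r) * a) - I * r * r * a) • S.W S.e0 S.Om := by module
      _ = _ := by rw [h3, h4, zero_smul, zero_add]
  have e2 : -((I * -r) • (r • (a • S.W (-S.e0) S.Om) - (I * r) • (a • S.W S.e0 S.Om))) +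
      r • -(-((I * r) • (a • S.W (-S.e0) S.Om)) + r • (a • S.W S.e0 S.Om)) =
      (I * a) • S.W (-S.e0) S.Om := by
    have h3 : I * r * r * a + r * (I * r) * a = I * a := by
      linear_combination (2 * I * a) * hrr
    have h4 : -(I * r * (I * r) * a) - r * r * a = 0 := by
      linear_combination (-r * r * a) * hI
    calc _ = (I * r * r * a + r * (I * r) * a) • S.W (-S.e0) S.Om +
          (-(I * r * (I * r) * a) - r * r * a) • S.W S.e0 S.Om := by module
      _ = _ := by rw [h3, h4, zero_smul, add_zero]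
  rw [e1, e2, map_smul, map_smul, neg_neg, W_two, W_two]

lemma al_base : S.al base = -Real.exp (-2) := by
  obtain ⟨a, ha⟩ : ∃ a : ℂ, a = (((Real.sqrt 2)⁻¹ : ℝ) : ℂ) := ⟨_, rfl⟩
  have haa : a * a = 1 / 2 := by
    rw [ha, ← ofReal_mul, ← mul_inv, Real.mul_self_sqrt (by norm_num)]
    push_cast
    norm_num
  have hca : (starRingEnd ℂ) a = a := by rw [ha, conj_ofReal]
  have h0 : S.xv (S.ev []) = WithLp.toLp 2 (a • S.Om, -(a • S.Om)) := by
    change NI.zop F S.OmH = _
    rw [omH_eq S a ha, zop_apply]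
  have hn : ∀ v : K, v = S.e0 + S.e0 ∨ v = -S.e0 + -S.e0 → ‖v‖ ^ 2 / 2 = 2 := by
    have : ‖S.e0 + S.e0‖ = 2 := by
      rw [← two_smul ℝ, norm_smul, S.norm_e0]
      norm_num
    rintro v (rfl | rfl)
    · rw [this]; norm_num
    · rw [← neg_add, norm_neg, this]; norm_num
  have hal : S.al base = (inner ℂ (S.xv (S.ev [])) (S.xv (S.ev base)) : ℂ).im := by
    change 1 * _ + 0 = _
    rw [one_mul, add_zero]
  rw [hal, h0, xv_base S a ha, inner_HH]
  change (inner ℂ (a • S.Om) ((-(I * a)) • S.W (S.e0 + S.e0) S.Om) +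
    inner ℂ (-(a • S.Om)) ((I * a) • S.W (-S.e0 + -S.e0) S.Om) : ℂ).im = _
  rw [inner_neg_left, inner_smul_left, inner_smul_right, inner_smul_left, inner_smul_right,
    S.vac, S.vac, hn _ (Or.inl rfl), hn _ (Or.inr rfl), hca]
  have h5 : a * (-(I * a) * Complex.exp (-((2 : ℝ) : ℂ))) +
      -(a * (I * a * Complex.exp (-((2 : ℝ) : ℂ)))) = -(I * ((Real.exp (-2) : ℝ) : ℂ)) := by
    rw [← ofReal_neg, ← ofReal_exp]
    linear_combination (-2 * I * ((Real.exp (-2) : ℝ) : ℂ)) * haa
  rw [h5, neg_im, I_mul_im, ofReal_re]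


/-- the inverse of the two first gates -/
noncomputable def undo : List Gate := [Gate.G (-1), Gate.B (-(Real.pi / 4))]

/-- reduction of the angle of a `B` gate modulo `2 pi` -/
noncomputable def red : Gate → Gate
  | Gate.B b => Gate.B (b - round (b / (2 * Real.pi)) * (2 * Real.pi))
  | Gate.C g => Gate.C g
  | Gate.G k => Gate.G k

lemma red_le (b : ℝ) : |b - round (b / (2 * Real.pi)) * (2 * Real.pi)| ≤ Real.pi := by
  have h := abs_sub_round (b / (2 * Real.pi))
  have hp : (0 : ℝ) < 2 * Real.pi := by positivity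
  have e : b - round (b / (2 * Real.pi)) * (2 * Real.pi) =
      (b / (2 * Real.pi) - round (b / (2 * Real.pi))) * (2 * Real.pi) := by
    field_simp
  rw [e, abs_mul, abs_of_pos hp]
  calc _ ≤ 1 / 2 * (2 * Real.pi) := mul_le_mul_of_nonneg_right h hp.le
    _ = _ := by ring

lemma xr_congr {b b' : ℝ} (hc : Real.cos b = Real.cos b') (hs : Real.sin b = Real.sin b') :
    NI.xr (F := F) b = NI.xr b' := by
  ext x
  obtain ⟨x1, x2⟩ := x
  rw [xr_apply, xr_apply, hc, hs]

lemma ev_red (w : List Gate) : S.ev (w.map red) = S.ev w := by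
  induction w with
  | nil => rfl
  | cons g w ih =>
    change S.step (red g) (S.ev (w.map red)) = S.step g (S.ev w)
    rw [ih]
    cases g with
    | B b =>
      change (S.ev w).trans (NI.xr _) = (S.ev w).trans (NI.xr _)
      rw [xr_congr (b' := b) (Real.cos_sub_int_mul_two_pi _ _) (Real.sin_sub_int_mul_two_pi _ _)]
    | C b => rfl
    | G b => rfl

lemma eaux_red (w : List Gate) (y : HH F) : S.eaux y (w.map red) = S.eaux y w := by
  induction w with
  | nil => rfl
  | cons g w ih =>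
    cases g with
    | B b => exact ih
    | G b => exact ih
    | C b =>
      change -(b * ((inner ℂ (S.xv (S.ev (w.map red))) y) ^ 2 : ℂ).im) + S.eaux y (w.map red) = _
      rw [ev_red, ih]
      rfl

lemma xr_neg_trans (b : ℝ) : (NI.xr (F := F) b).trans (NI.xr (-b)) =
    LinearIsometryEquiv.refl ℂ (HH F) := by
  ext x
  change NI.xr (-b) (NI.xr b x) = x
  rw [← xr_symm, LinearIsometryEquiv.symm_apply_apply]

lemma zr_neg_trans (v : K) : (S.zr v).trans (S.zr (-v)) =
    LinearIsometryEquiv.refl ℂ (HH F) := by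
  ext x
  change S.zr (-v) (S.zr v x) = x
  rw [← zr_symm, LinearIsometryEquiv.symm_apply_apply]

lemma ev_undo : S.ev (undo ++ base) = LinearIsometryEquiv.refl ℂ (HH F) := by
  ext x
  change S.zr (((-1 : ℝ) : ℂ) • S.e0) (NI.xr (-(Real.pi / 4)) (NI.xr (Real.pi / 4)
    (S.zr (((1 : ℝ) : ℂ) • S.e0) x))) = x
  rw [← xr_symm, LinearIsometryEquiv.symm_apply_apply, ofReal_neg, neg_smul, ← zr_symm,
    LinearIsometryEquiv.symm_apply_apply]

lemma ev_app_undo (w : List Gate) : S.ev (w ++ (undo ++ base)) = S.ev w := by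
  induction w with
  | nil => exact ev_undo S
  | cons g w ih =>
    change S.step g (S.ev (w ++ (undo ++ base))) = S.step g (S.ev w)
    rw [ih]

lemma eaux_app_undo (w : List Gate) (y : HH F) :
    S.eaux y (w ++ (undo ++ base)) = S.eaux y w := by
  induction w with
  | nil => rfl
  | cons g w ih =>
    cases g with
    | B b => exact ih
    | G b => exact ih
    | C b =>
      change -(b * ((inner ℂ (S.xv (S.ev (w ++ (undo ++ base)))) y) ^ 2 : ℂ).im) +
        S.eaux y (w ++ (undo ++ base)) = _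
      rw [ev_app_undo, ih]
      rfl

lemma energy_app_undo (w : List Gate) : S.energy (w ++ (undo ++ base)) = S.energy w := by
  unfold Weyl.energy
  rw [eaux_app_undo, ev_app_undo]

lemma energy_red (w : List Gate) : S.energy (w.map red) = S.energy w := by
  unfold Weyl.energy
  rw [eaux_red, ev_red]

lemma map_sc_one (w : List Gate) : w.map (sc 1) = w := by
  conv_rhs => rw [← List.map_id w]
  refine List.map_congr_left fun g _ => ?_
  cases g <;> simp [sc]

lemma AnR.prod_list {ι : Type} (l : List ι) (f : ι → ℝ → ℝ) (h : ∀ i ∈ l, AnR (f i)) :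
    AnR (fun t => (l.map fun i => f i t).prod) := by
  induction l with
  | nil => exact AnR.const 1
  | cons a l ih =>
    simp only [List.map_cons, List.prod_cons]
    exact (h a List.mem_cons_self).mul (ih fun i hi => h i (List.mem_cons_of_mem _ hi))

/-- **Removal of the alignment condition.** -/
theorem perturb (S : Weyl F K) (W : List Gate) {d : ℝ} (hd : 0 < d) :
    ∃ u : List Gate, (∀ b, Gate.B b ∈ u → |b| ≤ Real.pi) ∧
      (∀ v : List Gate, v <:+ u → S.al (v ++ [Gate.B (Real.pi / 4), Gate.G 1]) ≠ 0) ∧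
      |S.energy (u ++ [Gate.B (Real.pi / 4), Gate.G 1]) - S.energy W| < d := by
  set u1 : List Gate := W.map red ++ undo with hu1
  -- the product of the alignments
  set P : ℝ → ℝ := fun t => (u1.tails.map fun v => S.al (v.map (sc t) ++ base)).prod with hP
  have hPan : AnR P := by
    refine AnR.prod_list u1.tails (fun v t => S.al (v.map (sc t) ++ base)) fun v _ => ?_
    have h := an_al (S := S) (ok_sc v)
    simp only [wat_sc] at h
    exact h
  have hP0 : P 0 ≠ 0 := by
    rw [hP]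
    refine List.prod_ne_zero fun h => ?_
    obtain ⟨v, -, hv⟩ := List.mem_map.1 h
    rw [al_sc_zero, al_base] at hv
    exact (neg_ne_zero.2 (Real.exp_pos _).ne') hv
  have hfr : ∀ᶠ t in 𝓝[≠] (1 : ℝ), P t ≠ 0 := by
    by_contra hcon
    have h1 : ∃ᶠ t in 𝓝[≠] (1 : ℝ), P t = 0 :=
      (Filter.not_eventually.1 hcon).mono fun t ht => not_not.1 ht
    have h2 := AnalyticOnNhd.eqOn_zero_of_preconnected_of_frequently_eq_zero hPan
      isPreconnected_univ (mem_univ (1 : ℝ)) h1
    exact hP0 (h2 (mem_univ 0))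
  have hlt : ∀ᶠ t in 𝓝[<] (1 : ℝ), P t ≠ 0 :=
    hfr.filter_mono (nhdsWithin_mono _ fun t ht => ne_of_lt ht)
  have hen : ∀ᶠ t in 𝓝[<] (1 : ℝ), |S.energy (u1.map (sc t) ++ base) - S.energy W| < d := by
    have h := an_energy (S := S) (ok_sc u1)
    simp only [wat_sc] at h
    have hc : ContinuousAt (fun t => S.energy (u1.map (sc t) ++ base)) 1 :=
      (h 1 (mem_univ _)).continuousAt
    have h1 : S.energy (u1.map (sc 1) ++ base) = S.energy W := by
      rw [map_sc_one, hu1, List.append_assoc, energy_app_undo, energy_red]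
    have h2 : Tendsto (fun t => |S.energy (u1.map (sc t) ++ base) - S.energy W|) (𝓝 1)
        (𝓝 0) := by
      have h3 := (hc.sub_const (S.energy W)).abs
      have h4 : Tendsto (fun t => |S.energy (u1.map (sc t) ++ base) - S.energy W|) (𝓝 1)
        (𝓝 |S.energy (u1.map (sc 1) ++ base) - S.energy W|) := h3
      rw [h1, sub_self, abs_zero] at h4
      exact h4
    exact (h2.eventually (gt_mem_nhds hd)).filter_mono nhdsWithin_le_nhds
  have hpos : ∀ᶠ t in 𝓝[<] (1 : ℝ), 0 < t :=
    (lt_mem_nhds (show (0 : ℝ) < 1 by norm_num)).filter_mono nhdsWithin_le_nhds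
  have hlt1 : ∀ᶠ t in 𝓝[<] (1 : ℝ), t < 1 := self_mem_nhdsWithin
  obtain ⟨t, ht1, ht2, ht3, ht4⟩ := (hlt.and (hen.and (hpos.and hlt1))).exists
  refine ⟨u1.map (sc t), ?_, ?_, ht2⟩
  · intro b hb
    obtain ⟨g, hg, hgb⟩ := List.mem_map.1 hb
    cases g with
    | C g => simp [sc] at hgb
    | G g => simp [sc] at hgb
    | B b' =>
      simp only [sc, Gate.B.injEq] at hgb
      have hb' : |b'| ≤ Real.pi := by
        rw [hu1] at hg
        rcases List.mem_append.1 hg with h | h
        · obtain ⟨g', -, hg'⟩ := List.mem_map.1 h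
          cases g' with
          | C g => simp [red] at hg'
          | G g => simp [red] at hg'
          | B c =>
            simp only [red, Gate.B.injEq] at hg'
            rw [← hg']
            exact red_le c
        · simp only [undo, List.mem_cons, List.not_mem_nil, or_false, reduceCtorEq,
            false_or, Gate.B.injEq] at h
          rw [h, abs_neg, abs_of_pos (by positivity)]
          linarith [Real.pi_pos]
      rw [← hgb, abs_mul, abs_of_pos ht3]
      nlinarith [abs_nonneg b']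
  · intro v hv
    obtain ⟨v', hv', rfl⟩ := List.suffix_map_iff.1 hv
    intro h0
    refine ht1 ?_
    rw [hP]
    refine List.prod_eq_zero (List.mem_map.2 ⟨v', (List.mem_tails v' u1).2 hv', h0⟩)

end Vale.Agent.P367.NI
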