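import Vale.Agent.P367.NI.Soft

/-! P367: the energy of a labelled word as a continuous function of its field vector. -/

namespace Vale.Agent.P367.NI

open Filter Topology ComplexConjugate

variable {F K : Type} [NormedAddCommGroup F] [InnerProductSpace ℂ F]
  [NormedAddCommGroup K] [InnerProductSpace ℂ K]

lemma tendsto_ek (z : ℂ) : Tendsto (fun x : ℝ => ((x⁻¹ : ℝ) : ℂ) * (Complex.exp ((x : ℂ) * z) - 1))
    (𝓝[≠] 0) (𝓝 z) := by
  have h : HasDerivAt (fun x : ℝ => Complex.exp ((x : ℂ) * z)) z 0 := by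
    have h1 : HasDerivAt (fun x : ℂ => Complex.exp (x * z)) z ((0 : ℝ) : ℂ) := by
      have := ((hasDerivAt_id ((0 : ℝ) : ℂ)).mul_const z).cexp
      simpa using this
    exact h1.comp_ofReal
  refine (hasDerivAt_iff_tendsto_slope.1 h).congr fun x => ?_
  simp [slope]

/-- the sequence of small times -/
noncomputable def tau (n : ℕ) : ℝ := 1 / ((n : ℝ) + 1)

lemma tau_pos (n : ℕ) : 0 < tau n := by
  unfold tau
  positivity

lemma tendsto_tau : Tendsto tau atTop (𝓝 0) := tendsto_one_div_add_atTop_nhds_zero_nat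

lemma tendsto_tau_ne : Tendsto tau atTop (𝓝[≠] 0) :=
  tendsto_nhdsWithin_iff.2 ⟨tendsto_tau, Eventually.of_forall fun n => (tau_pos n).ne'⟩

lemma tendsto_tau2 : Tendsto (fun p : ℕ × ℕ => tau p.1 * tau p.2) atTop (𝓝[≠] 0) := by
  refine tendsto_nhdsWithin_iff.2 ⟨?_, Eventually.of_forall fun p =>
    (mul_pos (tau_pos _) (tau_pos _)).ne'⟩
  rw [← prod_atTop_atTop_eq]
  have h1 : Tendsto (fun p : ℕ × ℕ => tau p.1) (atTop ×ˢ atTop) (𝓝 0) :=
    tendsto_tau.comp Filter.tendsto_fst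
  have h2 : Tendsto (fun p : ℕ × ℕ => tau p.2) (atTop ×ˢ atTop) (𝓝 0) :=
    tendsto_tau.comp Filter.tendsto_snd
  simpa using h1.mul h2

namespace Weyl

variable (S : Weyl F K)

/-- coherent vectors with kernel `exp <u, v>` -/
noncomputable def cv (u : K) : F := ((Real.exp (‖u‖ ^ 2 / 2) : ℝ) : ℂ) • S.W u S.Om

lemma inner_cv (u v : K) : inner ℂ (S.cv u) (S.cv v) = Complex.exp (inner ℂ u v) := by
  unfold cv
  rw [inner_smul_left, inner_smul_right, S.inner_W_W, Complex.conj_ofReal, Complex.ofReal_exp,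
    Complex.ofReal_exp, ← Complex.exp_add, ← Complex.exp_add]
  congr 1
  have h1 := @norm_sub_sq ℂ K _ _ _ v u
  have h2 : (inner ℂ v u : ℂ).re = (inner ℂ u v : ℂ).re := by
    rw [← inner_conj_symm, Complex.conj_re]
  rw [RCLike.re_to_complex, h2] at h1
  rw [h1]
  conv_rhs => rw [← Complex.re_add_im (inner ℂ u v)]
  push_cast
  ring

lemma cv_zero : S.cv 0 = S.Om := by
  unfold cv
  simp [S.W_zero]

/-- difference quotients of the coherent vectors -/
noncomputable def dq (u : K) (t : ℝ) : F := ((t⁻¹ : ℝ) : ℂ) • (S.cv ((t : ℂ) • u) - S.Om)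

lemma inner_dq (u v : K) (t s : ℝ) : inner ℂ (S.dq u t) (S.dq v s)
    = (((t * s)⁻¹ : ℝ) : ℂ) * (Complex.exp (((t * s : ℝ) : ℂ) * inner ℂ u v) - 1) := by
  unfold dq
  rw [inner_smul_left, inner_smul_right, inner_sub_left, inner_sub_right, inner_sub_right,
    ← S.cv_zero, S.inner_cv, S.inner_cv, S.inner_cv, S.inner_cv]
  simp only [inner_zero_left, inner_zero_right, mul_zero, Complex.exp_zero,
    Complex.conj_ofReal, inner_smul_left, inner_smul_right]
  rw [mul_inv, Complex.ofReal_mul, Complex.ofReal_mul]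
  ring_nf

lemma cauchy_dq (u : K) : CauchySeq (fun n : ℕ => S.dq u (tau n)) := by
  rw [cauchySeq_iff_tendsto_dist_atTop_0]
  have h1 : ∀ p : ℕ × ℕ, dist (S.dq u (tau p.1)) (S.dq u (tau p.2)) = Real.sqrt
      ((inner ℂ (S.dq u (tau p.1)) (S.dq u (tau p.1)) - inner ℂ (S.dq u (tau p.1)) (S.dq u (tau p.2))
        - (inner ℂ (S.dq u (tau p.2)) (S.dq u (tau p.1))
          - inner ℂ (S.dq u (tau p.2)) (S.dq u (tau p.2))) : ℂ).re) := by
    intro p
    rw [dist_eq_norm, ← inner_sub_right, ← inner_sub_right, ← inner_sub_left]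
    rw [inner_self_eq_norm_sq_to_K]
    have : ((‖S.dq u (tau p.1) - S.dq u (tau p.2)‖ : ℂ) ^ 2).re
        = ‖S.dq u (tau p.1) - S.dq u (tau p.2)‖ ^ 2 := by
      rw [← Complex.ofReal_pow, Complex.ofReal_re]
    have h2 := Real.sqrt_sq (norm_nonneg (S.dq u (tau p.1) - S.dq u (tau p.2)))
    rw [← this] at h2
    exact h2.symm
  simp_rw [h1, S.inner_dq]
  have h11 : Tendsto (fun p : ℕ × ℕ => (((tau p.1 * tau p.1)⁻¹ : ℝ) : ℂ) *
      (Complex.exp (((tau p.1 * tau p.1 : ℝ) : ℂ) * inner ℂ u u) - 1)) atTop (𝓝 (inner ℂ u u)) := by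
    refine (tendsto_ek (inner ℂ u u)).comp (tendsto_tau2.comp
      (f := fun p : ℕ × ℕ => (p.1, p.1)) ?_)
    rw [← prod_atTop_atTop_eq]
    exact Filter.tendsto_fst.prodMk Filter.tendsto_fst
  have h22 : Tendsto (fun p : ℕ × ℕ => (((tau p.2 * tau p.2)⁻¹ : ℝ) : ℂ) *
      (Complex.exp (((tau p.2 * tau p.2 : ℝ) : ℂ) * inner ℂ u u) - 1)) atTop (𝓝 (inner ℂ u u)) := by
    refine (tendsto_ek (inner ℂ u u)).comp (tendsto_tau2.comp
      (f := fun p : ℕ × ℕ => (p.2, p.2)) ?_)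
    rw [← prod_atTop_atTop_eq]
    exact Filter.tendsto_snd.prodMk Filter.tendsto_snd
  have h12 : Tendsto (fun p : ℕ × ℕ => (((tau p.1 * tau p.2)⁻¹ : ℝ) : ℂ) *
      (Complex.exp (((tau p.1 * tau p.2 : ℝ) : ℂ) * inner ℂ u u) - 1)) atTop (𝓝 (inner ℂ u u)) :=
    (tendsto_ek (inner ℂ u u)).comp tendsto_tau2
  have h21 : Tendsto (fun p : ℕ × ℕ => (((tau p.2 * tau p.1)⁻¹ : ℝ) : ℂ) *
      (Complex.exp (((tau p.2 * tau p.1 : ℝ) : ℂ) * inner ℂ u u) - 1)) atTop (𝓝 (inner ℂ u u)) := by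
    refine h12.congr fun p => ?_
    rw [mul_comm (tau p.1)]
  have h3 := (h11.sub h12).sub (h21.sub h22)
  have h4 := (Real.continuous_sqrt.tendsto _).comp ((Complex.continuous_re.tendsto _).comp h3)
  refine h4.trans (le_of_eq ?_)
  simp

variable [CompleteSpace F]

/-- the one-particle vector: derivative of the coherent vectors at the vacuum -/
noncomputable def Jc (u : K) : F :=
  Classical.choose (cauchySeq_tendsto_of_complete (S.cauchy_dq u))

lemma tendsto_dq (u : K) : Tendsto (fun n : ℕ => S.dq u (tau n)) atTop (𝓝 (S.Jc u)) :=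
  Classical.choose_spec (cauchySeq_tendsto_of_complete (S.cauchy_dq u))

lemma inner_Jc (u v : K) : inner ℂ (S.Jc u) (S.Jc v) = (inner ℂ u v : ℂ) := by
  have h1 : Tendsto (fun n : ℕ => (inner ℂ (S.dq u (tau n)) (S.dq v (tau n)) : ℂ)) atTop
      (𝓝 (inner ℂ (S.Jc u) (S.Jc v))) := (S.tendsto_dq u).inner (S.tendsto_dq v)
  have h2 : Tendsto (fun n : ℕ => (inner ℂ (S.dq u (tau n)) (S.dq v (tau n)) : ℂ)) atTop
      (𝓝 (inner ℂ u v)) := by
    simp_rw [S.inner_dq]
    refine (tendsto_ek (inner ℂ u v)).comp (tendsto_tau2.comp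
      (f := fun n : ℕ => (n, n)) ?_)
    rw [← prod_atTop_atTop_eq]
    exact tendsto_id.prodMk tendsto_id
  exact tendsto_nhds_unique h1 h2

lemma Jc_add (u v : K) : S.Jc (u + v) = S.Jc u + S.Jc v := by
  rw [← sub_eq_zero, ← inner_self_eq_zero (𝕜 := ℂ)]
  simp only [inner_sub_left, inner_sub_right, inner_add_left, inner_add_right, S.inner_Jc]
  ring

lemma Jc_smul (c : ℂ) (u : K) : S.Jc (c • u) = c • S.Jc u := by
  rw [← sub_eq_zero, ← inner_self_eq_zero (𝕜 := ℂ)]
  simp only [inner_sub_left, inner_sub_right, inner_smul_left, inner_smul_right, S.inner_Jc]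
  ring

lemma norm_Jc (u : K) : ‖S.Jc u‖ = ‖u‖ := by
  have h := S.inner_Jc u u
  rw [inner_self_eq_norm_sq_to_K, inner_self_eq_norm_sq_to_K] at h
  have h2 : ‖S.Jc u‖ ^ 2 = ‖u‖ ^ 2 := by
    have h3 : ((‖S.Jc u‖ ^ 2 : ℝ) : ℂ) = ((‖u‖ ^ 2 : ℝ) : ℂ) := by
      rw [Complex.ofReal_pow, Complex.ofReal_pow]
      exact h
    exact Complex.ofReal_injective h3
  exact (sq_eq_sq₀ (norm_nonneg _) (norm_nonneg _)).1 h2

/-- overlap of the one-particle vectors with Weyl vectors -/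
lemma inner_Jc_W (u v : K) : inner ℂ (S.Jc u) (S.W v S.Om)
    = inner ℂ u v * Complex.exp (-((‖v‖ ^ 2 / 2 : ℝ) : ℂ)) := by
  have h1 : Tendsto (fun n : ℕ => (inner ℂ (S.dq u (tau n)) (S.cv v) : ℂ)) atTop
      (𝓝 (inner ℂ (S.Jc u) (S.cv v))) := (S.tendsto_dq u).inner tendsto_const_nhds
  have h2 : Tendsto (fun n : ℕ => (inner ℂ (S.dq u (tau n)) (S.cv v) : ℂ)) atTop
      (𝓝 (inner ℂ u v)) := by
    have h3 : ∀ n : ℕ, inner ℂ (S.dq u (tau n)) (S.cv v)
        = (((tau n)⁻¹ : ℝ) : ℂ) * (Complex.exp (((tau n : ℝ) : ℂ) * inner ℂ u v) - 1) := by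
      intro n
      unfold dq
      rw [inner_smul_left, inner_sub_left, ← S.cv_zero, S.inner_cv, S.inner_cv, inner_smul_left,
        inner_zero_left, Complex.exp_zero, Complex.conj_ofReal, Complex.conj_ofReal]
    simp_rw [h3]
    exact (tendsto_ek (inner ℂ u v)).comp tendsto_tau_ne
  have h3 := tendsto_nhds_unique h1 h2
  have h4 : S.W v S.Om = Complex.exp (-((‖v‖ ^ 2 / 2 : ℝ) : ℂ)) • S.cv v := by
    unfold cv
    rw [smul_smul, Complex.ofReal_exp, ← Complex.exp_add, neg_add_cancel, Complex.exp_zero,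
      one_smul]
  rw [h4, inner_smul_right, h3, mul_comm]

/-- derivative of the Weyl vectors at the vacuum -/
lemma tendsto_W_quot (u : K) : Tendsto (fun n : ℕ => (((tau n)⁻¹ : ℝ) : ℂ) •
    (S.W (((tau n : ℝ) : ℂ) • u) S.Om - S.Om)) atTop (𝓝 (S.Jc u)) := by
  have h1 : ∀ n : ℕ, (((tau n)⁻¹ : ℝ) : ℂ) • (S.W (((tau n : ℝ) : ℂ) • u) S.Om - S.Om)
      = Complex.exp (((tau n ^ 2 : ℝ) : ℂ) * (-((‖u‖ ^ 2 / 2 : ℝ) : ℂ))) • S.dq u (tau n)
        + (((tau n : ℝ) : ℂ) * ((((tau n ^ 2)⁻¹ : ℝ) : ℂ) *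
          (Complex.exp (((tau n ^ 2 : ℝ) : ℂ) * (-((‖u‖ ^ 2 / 2 : ℝ) : ℂ))) - 1))) • S.Om := by
    intro n
    have h2 : S.W (((tau n : ℝ) : ℂ) • u) S.Om
        = Complex.exp (((tau n ^ 2 : ℝ) : ℂ) * (-((‖u‖ ^ 2 / 2 : ℝ) : ℂ))) •
          S.cv (((tau n : ℝ) : ℂ) • u) := by
      unfold cv
      rw [smul_smul, Complex.ofReal_exp, ← Complex.exp_add]
      have : ((tau n ^ 2 : ℝ) : ℂ) * (-((‖u‖ ^ 2 / 2 : ℝ) : ℂ))
          + (((‖((tau n : ℝ) : ℂ) • u‖ ^ 2 / 2 : ℝ)) : ℂ) = 0 := by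
        rw [norm_smul, Complex.norm_real, Real.norm_eq_abs, mul_pow, sq_abs]
        push_cast
        ring
      rw [this, Complex.exp_zero, one_smul]
    rw [h2]
    unfold dq
    set E := Complex.exp (((tau n ^ 2 : ℝ) : ℂ) * (-((‖u‖ ^ 2 / 2 : ℝ) : ℂ)))
    have h3 : ((tau n : ℝ) : ℂ) * ((((tau n ^ 2)⁻¹ : ℝ) : ℂ) * (E - 1))
        = (((tau n)⁻¹ : ℝ) : ℂ) * (E - 1) := by
      have h4 : ((tau n : ℝ) : ℂ) ≠ 0 := Complex.ofReal_ne_zero.2 (tau_pos n).ne'
      push_cast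
      field_simp
    rw [h3]
    module
  simp_rw [h1]
  have hE : Tendsto (fun n : ℕ => Complex.exp (((tau n ^ 2 : ℝ) : ℂ) *
      (-((‖u‖ ^ 2 / 2 : ℝ) : ℂ)))) atTop (𝓝 1) := by
    have h2 : Tendsto (fun n : ℕ => ((tau n ^ 2 : ℝ) : ℂ) * (-((‖u‖ ^ 2 / 2 : ℝ) : ℂ))) atTop
        (𝓝 ((((0 : ℝ) ^ 2 : ℝ) : ℂ) * (-((‖u‖ ^ 2 / 2 : ℝ) : ℂ)))) := by
      refine Tendsto.mul_const _ ?_
      exact (Complex.continuous_ofReal.tendsto _).comp (tendsto_tau.pow 2)
    have h3 := (Complex.continuous_exp.tendsto _).comp h2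
    refine h3.trans (le_of_eq ?_)
    simp
  have hq : Tendsto (fun n : ℕ => (((tau n : ℝ) : ℂ) * ((((tau n ^ 2)⁻¹ : ℝ) : ℂ) *
          (Complex.exp (((tau n ^ 2 : ℝ) : ℂ) * (-((‖u‖ ^ 2 / 2 : ℝ) : ℂ))) - 1)))) atTop (𝓝 0) := by
    have h2 : Tendsto (fun n : ℕ => ((((tau n ^ 2)⁻¹ : ℝ) : ℂ) *
          (Complex.exp (((tau n ^ 2 : ℝ) : ℂ) * (-((‖u‖ ^ 2 / 2 : ℝ) : ℂ))) - 1))) atTop
          (𝓝 (-((‖u‖ ^ 2 / 2 : ℝ) : ℂ))) := by
      refine (tendsto_ek (-((‖u‖ ^ 2 / 2 : ℝ) : ℂ))).comp (f := fun n : ℕ => tau n ^ 2) ?_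
      refine tendsto_nhdsWithin_iff.2 ⟨?_, Eventually.of_forall fun n =>
        (pow_pos (tau_pos n) 2).ne'⟩
      simpa using tendsto_tau.pow 2
    have h3 : Tendsto (fun n : ℕ => ((tau n : ℝ) : ℂ)) atTop (𝓝 ((0 : ℝ) : ℂ)) :=
      (Complex.continuous_ofReal.tendsto _).comp tendsto_tau
    simpa using h3.mul h2
  have h4 := (hE.smul (S.tendsto_dq u)).add (hq.smul_const S.Om)
  simpa using h4

omit [CompleteSpace F] in
/-- the field vector of a gate -/
lemma norm_xv1 (V : St F) : ‖S.xv V‖ = ‖S.OmH‖ := by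
  unfold xv
  rw [LinearIsometryEquiv.norm_map, LinearIsometryEquiv.norm_map, LinearIsometryEquiv.norm_map]

/-- derivative of `W(t u)` on the one-site vacuum -/
noncomputable def Psi (u : K) : HH F :=
  WithLp.toLp 2 ((((Real.sqrt 2)⁻¹ : ℝ) : ℂ) • S.Jc u, (((Real.sqrt 2)⁻¹ : ℝ) : ℂ) • S.Jc u)

lemma Psi_smul (c : ℂ) (u : K) : S.Psi (c • u) = c • S.Psi u := by
  unfold Psi
  rw [S.Jc_smul, smul_comm, ← WithLp.toLp_smul]
  rfl

lemma Psi_add (u v : K) : S.Psi (u + v) = S.Psi u + S.Psi v := by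
  unfold Psi
  rw [S.Jc_add, smul_add, ← WithLp.toLp_add]
  rfl

lemma inner_Psi (u v : K) : inner ℂ (S.Psi u) (S.Psi v) = (inner ℂ u v : ℂ) := by
  rw [inner_HH]
  have e1 : ∀ u, (S.Psi u).fst = (((Real.sqrt 2)⁻¹ : ℝ) : ℂ) • S.Jc u := fun _ => rfl
  have e2 : ∀ u, (S.Psi u).snd = (((Real.sqrt 2)⁻¹ : ℝ) : ℂ) • S.Jc u := fun _ => rfl
  rw [e1, e1, e2, e2, inner_smul_left, inner_smul_right, S.inner_Jc, Complex.conj_ofReal]
  have h : (((Real.sqrt 2)⁻¹ : ℝ) : ℂ) * (((Real.sqrt 2)⁻¹ : ℝ) : ℂ) = 1 / 2 := by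
    rw [← Complex.ofReal_mul, ← mul_inv, Real.mul_self_sqrt (by norm_num)]
    norm_num
  linear_combination (2 * (inner ℂ u v : ℂ)) * h

/-- the field operator applied to the one-site vacuum -/
noncomputable def Phi : K →ₗᵢ[ℂ] HH F where
  toFun u := (-Complex.I) • S.Psi u
  map_add' u v := by rw [S.Psi_add, smul_add]
  map_smul' c u := by
    rw [S.Psi_smul, smul_comm]
    rfl
  norm_map' u := by
    change ‖(-Complex.I) • S.Psi u‖ = ‖u‖
    have h : ‖S.Psi u‖ ^ 2 = ‖u‖ ^ 2 := by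
      have h := S.inner_Psi u u
      rw [inner_self_eq_norm_sq_to_K, inner_self_eq_norm_sq_to_K] at h
      have h3 : ((‖S.Psi u‖ ^ 2 : ℝ) : ℂ) = ((‖u‖ ^ 2 : ℝ) : ℂ) := by
        rw [Complex.ofReal_pow, Complex.ofReal_pow]
        exact h
      exact Complex.ofReal_injective h3
    rw [norm_smul, norm_neg, Complex.norm_I, one_mul]
    exact (sq_eq_sq₀ (norm_nonneg _) (norm_nonneg _)).1 h

lemma Phi_apply (u : K) : S.Phi u = (-Complex.I) • S.Psi u := rfl

end Weyl

/-- difference quotients along `tau` -/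
def DQ {E : Type} [NormedAddCommGroup E] [InnerProductSpace ℂ E] (f : ℕ → E) (f0 L : E) : Prop :=
  Tendsto (fun n => (((tau n)⁻¹ : ℝ) : ℂ) • (f n - f0)) atTop (𝓝 L)

section DQ

variable {E : Type} [NormedAddCommGroup E] [InnerProductSpace ℂ E] {f g : ℕ → E} {f0 g0 L M : E}

lemma tendsto_tauC : Tendsto (fun n : ℕ => ((tau n : ℝ) : ℂ)) atTop (𝓝 0) := by
  have := (Complex.continuous_ofReal.tendsto _).comp tendsto_tau
  simpa [Function.comp_def] using this

lemma DQ.tendsto (h : DQ f f0 L) : Tendsto f atTop (𝓝 f0) := by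
  have h1 := (tendsto_tauC.smul h).add_const f0
  rw [zero_smul, zero_add] at h1
  refine h1.congr fun n => ?_
  have : ((tau n : ℝ) : ℂ) ≠ 0 := Complex.ofReal_ne_zero.2 (tau_pos n).ne'
  rw [smul_smul, Complex.ofReal_inv, mul_inv_cancel₀ this, one_smul, sub_add_cancel]

lemma DQ.const : DQ (fun _ => f0) f0 0 := by
  unfold DQ
  simp

lemma DQ.map (A : E ≃ₗᵢ[ℂ] E) (h : DQ f f0 L) : DQ (fun n => A (f n)) (A f0) (A L) := by
  have h1 := (A.continuous.tendsto _).comp h
  refine h1.congr fun n => ?_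
  simp

lemma DQ.inner (hf : DQ f f0 L) (hg : DQ g g0 M) :
    Tendsto (fun n => (((tau n)⁻¹ : ℝ) : ℂ) * (inner ℂ (f n) (g n) - inner ℂ f0 g0)) atTop
      (𝓝 (inner ℂ L g0 + inner ℂ f0 M)) := by
  have h1 := (Filter.Tendsto.inner (𝕜 := ℂ) hf hg.tendsto).add
    (Filter.Tendsto.inner (𝕜 := ℂ) (tendsto_const_nhds (x := f0)) hg)
  refine h1.congr fun n => ?_
  rw [inner_smul_left, inner_smul_right, inner_sub_left, inner_sub_right, Complex.conj_ofReal]
  ring

end DQ

/-- the rotation `exp(i s Z)` -/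
noncomputable def ph (s : ℝ) (x : HH F) : HH F :=
  ((Real.cos s : ℝ) : ℂ) • x + (Complex.I * ((Real.sin s : ℝ) : ℂ)) • zop F x

lemma ph_fst (s : ℝ) (x : HH F) : (ph s x).fst = Complex.exp (Complex.I * (s : ℂ)) • x.fst := by
  have h : (ph s x).fst = ((Real.cos s : ℝ) : ℂ) • x.fst
      + (Complex.I * ((Real.sin s : ℝ) : ℂ)) • x.fst := rfl
  rw [h, ← add_smul]
  congr 1
  rw [mul_comm Complex.I (s : ℂ), Complex.exp_mul_I, Complex.ofReal_cos, Complex.ofReal_sin]
  ring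

lemma ph_snd (s : ℝ) (x : HH F) : (ph s x).snd = Complex.exp (-(Complex.I * (s : ℂ))) • x.snd := by
  have h : (ph s x).snd = ((Real.cos s : ℝ) : ℂ) • x.snd
      + (Complex.I * ((Real.sin s : ℝ) : ℂ)) • (-x.snd) := rfl
  rw [h, smul_neg, ← sub_eq_add_neg, ← sub_smul]
  congr 1
  have : -(Complex.I * (s : ℂ)) = (-(s : ℂ)) * Complex.I := by ring
  rw [this, Complex.exp_mul_I, Complex.cos_neg, Complex.sin_neg, Complex.ofReal_cos,
    Complex.ofReal_sin]
  ring

lemma DQ_ph (c : ℝ) {f : ℕ → HH F} {f0 L : HH F} (h : DQ f f0 L) :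
    DQ (fun n => ph (c * tau n) (f n)) f0 (L + (Complex.I * (c : ℂ)) • zop F f0) := by
  have hsin : Tendsto (fun n => (((tau n)⁻¹ * Real.sin (c * tau n) : ℝ) : ℂ)) atTop
      (𝓝 ((c : ℝ) : ℂ)) := by
    refine (Complex.continuous_ofReal.tendsto _).comp ?_
    have h1 : HasDerivAt (fun x : ℝ => Real.sin (c * x)) c 0 := by
      have := ((hasDerivAt_id (0 : ℝ)).const_mul c).sin
      simpa using this
    have h2 := (hasDerivAt_iff_tendsto_slope.1 h1).comp tendsto_tau_ne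
    refine h2.congr fun n => ?_
    simp [slope]
  have hcos : Tendsto (fun n => (((tau n)⁻¹ * (Real.cos (c * tau n) - 1) : ℝ) : ℂ)) atTop
      (𝓝 0) := by
    have h0 : Tendsto (fun n => (tau n)⁻¹ * (Real.cos (c * tau n) - 1)) atTop (𝓝 0) := by
      have h1 : HasDerivAt (fun x : ℝ => Real.cos (c * x)) 0 0 := by
        have := ((hasDerivAt_id (0 : ℝ)).const_mul c).cos
        simpa using this
      have h2 := (hasDerivAt_iff_tendsto_slope.1 h1).comp tendsto_tau_ne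
      refine h2.congr fun n => ?_
      simp [slope]
    have := (Complex.continuous_ofReal.tendsto _).comp h0
    simpa [Function.comp_def] using this
  have hc1 : Tendsto (fun n => ((Real.cos (c * tau n) : ℝ) : ℂ)) atTop (𝓝 1) := by
    have h0 : Tendsto (fun n => Real.cos (c * tau n)) atTop (𝓝 (Real.cos (c * 0))) :=
      (Real.continuous_cos.tendsto _).comp (tendsto_tau.const_mul c)
    have := (Complex.continuous_ofReal.tendsto _).comp h0
    simpa [Function.comp_def] using this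
  have hz : Tendsto (fun n => zop F (f n)) atTop (𝓝 (zop F f0)) :=
    ((zop F).continuous.tendsto _).comp h.tendsto
  have h5 := ((hc1.smul h).add (hcos.smul_const f0)).add
    ((hsin.const_mul Complex.I).smul hz)
  rw [one_smul, zero_smul, add_zero] at h5
  refine h5.congr fun n => ?_
  unfold ph
  push_cast
  module

namespace Weyl

variable (S : Weyl F K)

/-- the Weyl operator acting on the field only -/
noncomputable def Mt (u : K) : St F := dg (S.W u) (S.W u)

lemma Mt_fst (u : K) (x : HH F) : (S.Mt u x).fst = S.W u x.fst := rfl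
lemma Mt_snd (u : K) (x : HH F) : (S.Mt u x).snd = S.W u x.snd := rfl

lemma HH_ext {x y : HH F} (h1 : x.fst = y.fst) (h2 : x.snd = y.snd) : x = y := by
  apply (WithLp.equiv 2 (F × F)).injective
  exact Prod.ext h1 h2

lemma Mt_neg_Mt (u : K) (x : HH F) : S.Mt (-u) (S.Mt u x) = x :=
  HH_ext (S.W_neg_W u x.fst) (S.W_neg_W u x.snd)

lemma Mt_zop (u : K) (x : HH F) : S.Mt u (zop F x) = zop F (S.Mt u x) := by
  refine HH_ext rfl ?_
  rw [Mt_snd, zop_snd, zop_snd, Mt_snd, map_neg]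

lemma Mt_xr (u : K) (b : ℝ) (x : HH F) : S.Mt u (xr b x) = xr b (S.Mt u x) := by
  refine HH_ext ?_ ?_
  · have h1 : (xr b x).fst = (Real.cos b : ℂ) • x.fst - (Complex.I * (Real.sin b : ℂ)) • x.snd := rfl
    have h2 : (xr b (S.Mt u x)).fst = (Real.cos b : ℂ) • (S.Mt u x).fst
      - (Complex.I * (Real.sin b : ℂ)) • (S.Mt u x).snd := rfl
    rw [Mt_fst, h1, h2, map_sub, map_smul, map_smul, Mt_fst, Mt_snd]
  · have h1 : (xr b x).snd = -((Complex.I * (Real.sin b : ℂ)) • x.fst)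
      + (Real.cos b : ℂ) • x.snd := rfl
    have h2 : (xr b (S.Mt u x)).snd = -((Complex.I * (Real.sin b : ℂ)) • (S.Mt u x).fst)
      + (Real.cos b : ℂ) • (S.Mt u x).snd := rfl
    rw [Mt_snd, h1, h2, map_add, map_neg, map_smul, map_smul, Mt_fst, Mt_snd]

lemma W_W_comm (a b : K) (x : F) : S.W a (S.W b x)
    = Complex.exp (-(Complex.I * ((2 * (inner ℂ a b).im : ℝ) : ℂ))) • S.W b (S.W a x) := by
  rw [S.W_mul, S.W_mul b a, smul_smul, ← Complex.exp_add, add_comm b a]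
  congr 2
  have h : (inner ℂ b a : ℂ).im = -(inner ℂ a b : ℂ).im := by
    rw [← inner_conj_symm, Complex.conj_im]
  rw [h]
  push_cast
  ring

lemma Mt_zr (u a : K) (x : HH F) :
    S.Mt u (S.zr a x) = S.zr a (ph (2 * (inner ℂ u a).im) (S.Mt u x)) := by
  refine HH_ext ?_ ?_
  · have h1 : (S.zr a x).fst = S.W (-a) x.fst := rfl
    have h2 : ∀ y : HH F, (S.zr a y).fst = S.W (-a) y.fst := fun _ => rfl
    rw [Mt_fst, h1, h2, ph_fst, Mt_fst, S.W_W_comm, map_smul]
    congr 2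
    rw [inner_neg_right, Complex.neg_im]
    push_cast
    ring
  · have h2 : ∀ y : HH F, (S.zr a y).snd = S.W a y.snd := fun _ => rfl
    rw [Mt_snd, h2, h2, ph_snd, Mt_snd, S.W_W_comm, map_smul]

/-- conjugated evolution -/
noncomputable def evp (u : K) : List Gate → HH F → HH F
  | [], x => x
  | Gate.B b :: w, x => xr b (evp u w x)
  | Gate.C g :: w, x => S.zr ((g : ℂ) • S.iota (S.xv (S.ev w)))
      (ph (2 * (inner ℂ u ((g : ℂ) • S.iota (S.xv (S.ev w)))).im) (evp u w x))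
  | Gate.G k :: w, x => S.zr ((k : ℂ) • S.e0)
      (ph (2 * (inner ℂ u ((k : ℂ) • S.e0)).im) (evp u w x))

lemma Mt_ev (u : K) (w : List Gate) (x : HH F) : S.Mt u (S.ev w x) = S.evp u w (S.Mt u x) := by
  induction w with
  | nil => rfl
  | cons g w ih =>
    cases g with
    | B b =>
      have h : S.ev (Gate.B b :: w) x = xr b (S.ev w x) := rfl
      rw [h, Mt_xr, ih]
      rfl
    | C g =>
      have h : S.ev (Gate.C g :: w) x
          = S.zr ((g : ℂ) • S.iota (S.xv (S.ev w))) (S.ev w x) := rfl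
      rw [h, Mt_zr, ih]
      rfl
    | G k =>
      have h : S.ev (Gate.G k :: w) x = S.zr ((k : ℂ) • S.e0) (S.ev w x) := rfl
      rw [h, Mt_zr, ih]
      rfl

/-- logarithmic derivative of the conjugated evolution -/
noncomputable def LL (u : K) (x : HH F) : List Gate → HH F
  | [] => 0
  | Gate.B _ :: w => LL u x w
  | Gate.C g :: w => LL u x w + (Complex.I *
      ((2 * (inner ℂ u ((g : ℂ) • S.iota (S.xv (S.ev w)))).im : ℝ) : ℂ)) •
        (S.ev w).symm (zop F (S.ev w x))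
  | Gate.G k :: w => LL u x w + (Complex.I *
      ((2 * (inner ℂ u ((k : ℂ) • S.e0)).im : ℝ) : ℂ)) • (S.ev w).symm (zop F (S.ev w x))

lemma im_smul_tau (u a : K) (n : ℕ) : 2 * (inner ℂ (((tau n : ℝ) : ℂ) • u) a).im
    = 2 * (inner ℂ u a : ℂ).im * tau n := by
  rw [inner_smul_left, Complex.conj_ofReal, Complex.mul_im, Complex.ofReal_re, Complex.ofReal_im]
  ring

lemma DQ_evp (u : K) (w : List Gate) {f : ℕ → HH F} {f0 L : HH F} (h : DQ f f0 L) :
    DQ (fun n => S.evp (((tau n : ℝ) : ℂ) • u) w (f n)) (S.ev w f0) (S.ev w (L + S.LL u f0 w)) := by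
  induction w with
  | nil =>
    simp only [LL, add_zero]
    exact h
  | cons g w ih =>
    cases g with
    | B b =>
      have h1 := ih.map (xr b)
      exact h1
    | C g =>
      set a : K := (g : ℂ) • S.iota (S.xv (S.ev w)) with ha
      have h1 := (DQ_ph (2 * (inner ℂ u a).im) ih).map (S.zr a)
      have h2 : S.ev (Gate.C g :: w) (L + S.LL u f0 (Gate.C g :: w))
          = S.zr a (S.ev w (L + S.LL u f0 w) + (Complex.I * ((2 * (inner ℂ u a).im : ℝ) : ℂ)) •
            zop F (S.ev w f0)) := by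
        have h3 : ∀ y, S.ev (Gate.C g :: w) y = S.zr a (S.ev w y) := fun _ => rfl
        rw [h3]
        congr 1
        simp only [LL]
        rw [← add_assoc, map_add (S.ev w) (L + S.LL u f0 w), map_smul,
          LinearIsometryEquiv.apply_symm_apply, ← ha]
      rw [h2]
      have h4 : ∀ n, S.evp (((tau n : ℝ) : ℂ) • u) (Gate.C g :: w) (f n)
          = S.zr a (ph (2 * (inner ℂ u a).im * tau n)
            (S.evp (((tau n : ℝ) : ℂ) • u) w (f n))) := by
        intro n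
        rw [← im_smul_tau]
        rfl
      simp_rw [h4]
      exact h1
    | G k =>
      set a : K := (k : ℂ) • S.e0 with ha
      have h1 := (DQ_ph (2 * (inner ℂ u a).im) ih).map (S.zr a)
      have h2 : S.ev (Gate.G k :: w) (L + S.LL u f0 (Gate.G k :: w))
          = S.zr a (S.ev w (L + S.LL u f0 w) + (Complex.I * ((2 * (inner ℂ u a).im : ℝ) : ℂ)) •
            zop F (S.ev w f0)) := by
        have h3 : ∀ y, S.ev (Gate.G k :: w) y = S.zr a (S.ev w y) := fun _ => rfl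
        rw [h3]
        congr 1
        simp only [LL]
        rw [← add_assoc, map_add (S.ev w) (L + S.LL u f0 w), map_smul,
          LinearIsometryEquiv.apply_symm_apply, ← ha]
      rw [h2]
      have h4 : ∀ n, S.evp (((tau n : ℝ) : ℂ) • u) (Gate.G k :: w) (f n)
          = S.zr a (ph (2 * (inner ℂ u a).im * tau n)
            (S.evp (((tau n : ℝ) : ℂ) • u) w (f n))) := by
        intro n
        rw [← im_smul_tau]
        rfl
      simp_rw [h4]
      exact h1

/-- response vector of a word -/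
noncomputable def resp (y : HH F) : List Gate → K
  | [] => 0
  | Gate.B _ :: w => resp y w
  | Gate.C g :: w => resp y w + ((-(2 * (inner ℂ (S.xv (S.ev w)) y : ℂ).im) : ℝ) : ℂ) •
      ((g : ℂ) • S.iota (S.xv (S.ev w)))
  | Gate.G k :: w => resp y w + ((-(2 * (inner ℂ (S.xv (S.ev w)) y : ℂ).im) : ℝ) : ℂ) •
      ((k : ℂ) • S.e0)

lemma re_LL (u : K) (y : HH F) (w : List Gate) :
    (inner ℂ (S.LL u S.OmH w) y : ℂ).re = -(inner ℂ u (S.resp y w) : ℂ).im := by
  have key : ∀ (c d : ℝ) (z m : ℂ), (conj (Complex.I * ((2 * m.im : ℝ) : ℂ)) * z).re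
      = -(((-(2 * z.im) : ℝ) : ℂ) * m).im := by
    intro c d z m
    simp only [map_mul, Complex.conj_I, Complex.conj_ofReal, Complex.mul_re, Complex.mul_im,
      Complex.neg_re, Complex.neg_im, Complex.I_re, Complex.I_im, Complex.ofReal_re,
      Complex.ofReal_im]
    ring
  induction w with
  | nil => simp [LL, resp]
  | cons g w ih =>
    cases g with
    | B b => exact ih
    | C g =>
      simp only [LL, resp]
      generalize ((g : ℂ) • S.iota (S.xv (S.ev w))) = a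
      rw [inner_add_left, inner_add_right, Complex.add_re, Complex.add_im, ih, inner_smul_left,
        inner_smul_right u]
      have h := key 0 0 (inner ℂ (S.xv (S.ev w)) y) (inner ℂ u a)
      have h2 : (S.ev w).symm (zop F (S.ev w S.OmH)) = S.xv (S.ev w) := rfl
      rw [h2, h]
      ring
    | G k =>
      simp only [LL, resp]
      generalize ((k : ℂ) • S.e0) = a
      rw [inner_add_left, inner_add_right, Complex.add_re, Complex.add_im, ih, inner_smul_left,
        inner_smul_right u]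
      have h := key 0 0 (inner ℂ (S.xv (S.ev w)) y) (inner ℂ u a)
      have h2 : (S.ev w).symm (zop F (S.ev w S.OmH)) = S.xv (S.ev w) := rfl
      rw [h2, h]
      ring

lemma re_resp_iota (y : HH F) (w : List Gate) :
    (inner ℂ (S.iota y) (S.resp y w) : ℂ).re = S.eaux y w := by
  induction w with
  | nil => simp [resp, eaux]
  | cons g w ih =>
    cases g with
    | B b => exact ih
    | C g =>
      simp only [resp, eaux]
      rw [inner_add_right, Complex.add_re, ih, inner_smul_right, inner_smul_right,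
        LinearIsometry.inner_map_map]
      have h : (inner ℂ y (S.xv (S.ev w)) : ℂ) = conj (inner ℂ (S.xv (S.ev w)) y) :=
        (inner_conj_symm _ _).symm
      rw [h]
      generalize (inner ℂ (S.xv (S.ev w)) y : ℂ) = z
      rw [pow_two]
      simp only [Complex.mul_re, Complex.mul_im, Complex.ofReal_re, Complex.ofReal_im,
        Complex.conj_re, Complex.conj_im]
      ring
    | G k =>
      simp only [resp, eaux]
      have h : (inner ℂ (S.iota y) S.e0 : ℂ) = 0 := by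
        rw [← inner_conj_symm, S.e0_perp, map_zero]
      rw [inner_add_right, Complex.add_re, ih, inner_smul_right, inner_smul_right, h]
      simp

lemma inner_e0_e0 : (inner ℂ S.e0 S.e0 : ℂ) = 1 := by
  rw [inner_self_eq_norm_sq_to_K, S.norm_e0]
  simp

lemma re_resp_e0 (y : HH F) (w : List Gate) :
    (inner ℂ S.e0 (S.resp y w) : ℂ).re = -(2 * S.laux y w) := by
  induction w with
  | nil => simp [resp, laux]
  | cons g w ih =>
    cases g with
    | B b => exact ih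
    | C g =>
      simp only [resp, laux]
      rw [inner_add_right, Complex.add_re, ih, inner_smul_right, inner_smul_right, S.e0_perp]
      simp
    | G k =>
      simp only [resp, laux]
      rw [inner_add_right, Complex.add_re, ih, inner_smul_right, inner_smul_right, S.inner_e0_e0,
        mul_one, ← Complex.ofReal_mul, Complex.ofReal_re]
      ring

variable [CompleteSpace F]

lemma DQ_Mt (u : K) : DQ (fun n => S.Mt (((tau n : ℝ) : ℂ) • u) S.OmH) S.OmH (S.Psi u) := by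
  unfold DQ
  have h := (S.tendsto_W_quot u).const_smul (((Real.sqrt 2)⁻¹ : ℝ) : ℂ)
  refine tendsto_HH ?_ ?_
  · refine h.congr fun n => ?_
    have e1 : ((((tau n)⁻¹ : ℝ) : ℂ) • (S.Mt (((tau n : ℝ) : ℂ) • u) S.OmH - S.OmH)).fst
        = (((tau n)⁻¹ : ℝ) : ℂ) • (S.W (((tau n : ℝ) : ℂ) • u)
          ((((Real.sqrt 2)⁻¹ : ℝ) : ℂ) • S.Om) - (((Real.sqrt 2)⁻¹ : ℝ) : ℂ) • S.Om) := rfl
    rw [e1, map_smul, ← smul_sub, smul_comm]
  · refine h.congr fun n => ?_
    have e1 : ((((tau n)⁻¹ : ℝ) : ℂ) • (S.Mt (((tau n : ℝ) : ℂ) • u) S.OmH - S.OmH)).snd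
        = (((tau n)⁻¹ : ℝ) : ℂ) • (S.W (((tau n : ℝ) : ℂ) • u)
          ((((Real.sqrt 2)⁻¹ : ℝ) : ℂ) • S.Om) - (((Real.sqrt 2)⁻¹ : ℝ) : ℂ) • S.Om) := rfl
    rw [e1, map_smul, ← smul_sub, smul_comm]

omit [CompleteSpace F] in
lemma inner_Mt (u : K) (x y : HH F) : inner ℂ (S.Mt u x) (S.Mt u y) = (inner ℂ x y : ℂ) :=
  LinearIsometryEquiv.inner_map_map _ _ _

omit [CompleteSpace F] in
lemma Mt_Mt_neg (u : K) (x : HH F) : S.Mt u (S.Mt (-u) x) = x := by
  have := S.Mt_neg_Mt (-u) x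
  rwa [neg_neg] at this

omit [CompleteSpace F] in
lemma pair_eq (u : K) (w : List Gate) :
    (inner ℂ (S.Mt (-u) S.OmH) (S.xv (S.ev w)) : ℂ)
      = inner ℂ (S.evp u w S.OmH) (zop F (S.evp u w (S.Mt u S.OmH))) := by
  have h1 : (inner ℂ (S.Mt (-u) S.OmH) (S.xv (S.ev w)) : ℂ)
      = inner ℂ (S.ev w (S.Mt (-u) S.OmH)) (zop F (S.ev w S.OmH)) := by
    rw [← LinearIsometryEquiv.inner_map_map (S.ev w)]
    congr 1
    unfold xv
    rw [LinearIsometryEquiv.apply_symm_apply]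
  rw [h1, ← LinearIsometryEquiv.inner_map_map (S.Mt u), S.Mt_ev, S.Mt_Mt_neg, S.Mt_zop, S.Mt_ev]

lemma re_inner_Psi (u : K) (w : List Gate) : (inner ℂ (S.Psi u) (S.xv (S.ev w)) : ℂ).re
    = (inner ℂ u (S.resp (S.xv (S.ev w)) w) : ℂ).im := by
  have hx : S.ev w (S.xv (S.ev w)) = zop F (S.ev w S.OmH) := by
    unfold xv
    rw [LinearIsometryEquiv.apply_symm_apply]
  have hzz : ∀ a b : HH F, inner ℂ a (zop F b) = (inner ℂ (zop F a) b : ℂ) := by
    intro a b
    rw [inner_HH, inner_HH]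
    simp
  have hL := (S.DQ_Mt (-u)).inner (DQ.const (f0 := S.xv (S.ev w)))
  have hA := S.DQ_evp u w (DQ.const (f0 := S.OmH))
  have hB := (S.DQ_evp u w (S.DQ_Mt u)).map (zop F)
  have hR := hA.inner hB
  have h0 : (inner ℂ S.OmH (S.xv (S.ev w)) : ℂ) = inner ℂ (S.ev w S.OmH) (zop F (S.ev w S.OmH)) := by
    rw [← LinearIsometryEquiv.inner_map_map (S.ev w), hx]
  have heq : ∀ n, (((tau n)⁻¹ : ℝ) : ℂ) * (inner ℂ (S.Mt (((tau n : ℝ) : ℂ) • -u) S.OmH)
      (S.xv (S.ev w)) - inner ℂ S.OmH (S.xv (S.ev w)))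
      = (((tau n)⁻¹ : ℝ) : ℂ) * (inner ℂ (S.evp (((tau n : ℝ) : ℂ) • u) w S.OmH)
        (zop F (S.evp (((tau n : ℝ) : ℂ) • u) w (S.Mt (((tau n : ℝ) : ℂ) • u) S.OmH)))
        - inner ℂ (S.ev w S.OmH) (zop F (S.ev w S.OmH))) := by
    intro n
    rw [smul_neg, S.pair_eq, h0]
  simp_rw [heq] at hL
  have h1 := tendsto_nhds_unique hL hR
  rw [inner_zero_right, add_zero, zero_add, hzz (S.ev w S.OmH), ← hx,
    LinearIsometryEquiv.inner_map_map, LinearIsometryEquiv.inner_map_map, inner_add_right] at h1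
  have h2 : S.Psi (-u) = -S.Psi u := by
    have := S.Psi_smul (-1) u
    simpa using this
  rw [h2, inner_neg_left] at h1
  have h3 := congrArg Complex.re h1
  rw [Complex.neg_re, Complex.add_re, Complex.add_re] at h3
  have h4 : (inner ℂ (S.xv (S.ev w)) (S.Psi u) : ℂ).re
      = (inner ℂ (S.Psi u) (S.xv (S.ev w)) : ℂ).re := by
    rw [← inner_conj_symm, Complex.conj_re]
  have h5 : (inner ℂ (S.xv (S.ev w)) (S.LL u S.OmH w) : ℂ).re
      = (inner ℂ (S.LL u S.OmH w) (S.xv (S.ev w)) : ℂ).re := by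
    rw [← inner_conj_symm, Complex.conj_re]
  rw [h4, h5, S.re_LL] at h3
  linarith

/-- overlap of `phi(u)` on the vacuum with the field vector of a word -/
theorem inner_Phi (u : K) (w : List Gate) :
    (inner ℂ (S.Phi u) (S.xv (S.ev w)) : ℂ) = inner ℂ u (S.resp (S.xv (S.ev w)) w) := by
  have h1 := S.re_inner_Psi u w
  have h2 := S.re_inner_Psi (Complex.I • u) w
  rw [S.Psi_smul, inner_smul_left, inner_smul_left] at h2
  rw [S.Phi_apply, inner_smul_left]
  generalize (inner ℂ (S.Psi u) (S.xv (S.ev w)) : ℂ) = z at *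
  generalize (inner ℂ u (S.resp (S.xv (S.ev w)) w) : ℂ) = r at *
  simp only [Complex.conj_I, Complex.mul_re, Complex.mul_im, Complex.neg_re, Complex.neg_im,
    Complex.I_re, Complex.I_im] at h2
  apply Complex.ext
  · simp only [map_neg, Complex.conj_I, Complex.mul_re, Complex.neg_re, Complex.neg_im,
      Complex.I_re, Complex.I_im]
    linarith
  · simp only [map_neg, Complex.conj_I, Complex.mul_im, Complex.neg_re, Complex.neg_im,
      Complex.I_re, Complex.I_im]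
    linarith

/-- the energy functional of a field vector -/
noncomputable def Ef (x : HH F) : ℝ := (inner ℂ (S.Phi (S.iota x)) x : ℂ).re

/-- **energy formula** -/
theorem energy_eq (w : List Gate) : S.energy w = S.Ef (S.xv (S.ev w)) := by
  unfold energy Ef
  rw [S.inner_Phi, S.re_resp_iota]

/-- **alignment formula** -/
theorem al_eq (w : List Gate) :
    S.al w = -(1 / 2) * (inner ℂ (S.Phi S.e0) (S.xv (S.ev w)) : ℂ).re := by
  unfold al
  rw [S.inner_Phi, S.re_resp_e0]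
  ring

lemma continuous_Ef : Continuous S.Ef := by
  unfold Ef
  exact Complex.continuous_re.comp
    ((S.Phi.continuous.comp S.iota.continuous).inner continuous_id)

lemma abs_Ef_sub_le (x y : HH F) : |S.Ef x - S.Ef y| ≤ (‖x‖ + ‖y‖) * ‖x - y‖ := by
  have h1 : S.Ef x - S.Ef y = ((inner ℂ (S.Phi (S.iota (x - y))) x : ℂ)
      + inner ℂ (S.Phi (S.iota y)) (x - y)).re := by
    unfold Ef
    rw [map_sub, map_sub, inner_sub_left, inner_sub_right, Complex.add_re, Complex.sub_re,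
      Complex.sub_re]
    ring
  rw [h1]
  refine (Complex.abs_re_le_norm _).trans ((norm_add_le _ _).trans ?_)
  have h2 := norm_inner_le_norm (𝕜 := ℂ) (S.Phi (S.iota (x - y))) x
  have h3 := norm_inner_le_norm (𝕜 := ℂ) (S.Phi (S.iota y)) (x - y)
  rw [LinearIsometry.norm_map, LinearIsometry.norm_map] at h2 h3
  nlinarith

/-- energies converge along strongly convergent (or merely field-convergent) words -/
theorem tendsto_energy {α : Type*} {l : Filter α} {w : α → List Gate} {x : HH F}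
    (h : Tendsto (fun i => S.xv (S.ev (w i))) l (𝓝 x)) :
    Tendsto (fun i => S.energy (w i)) l (𝓝 (S.Ef x)) := by
  simp_rw [S.energy_eq]
  exact (S.continuous_Ef.tendsto x).comp h

/-- the energy of every state in the closure of the words is approximated by words -/
theorem exists_word_of_mem_Cl {V : St F} (hV : V ∈ S.Cl) {d : ℝ} (hd : 0 < d) :
    ∃ w : List Gate, |S.energy w - S.Ef (S.xv V)| < d := by
  have hc : Continuous fun V : St F => S.Ef (S.xv V) :=
    continuous_iff_continuousAt.2 fun V0 =>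
      (S.continuous_Ef.tendsto _).comp (S.tendsto_xv (tendsto_id (x := 𝓝 V0)))
  have h1 := (Metric.continuous_iff'.1 hc) V d hd
  obtain ⟨V', hV', w, hw⟩ := mem_closure_iff_nhds.1 hV _ h1
  refine ⟨w, ?_⟩
  rw [S.energy_eq, hw, ← Real.dist_eq]
  exact hV'

end Weyl

end Vale.Agent.P367.NI
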