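import Vale.Agent.P367.NI.Link
import Vale.Agent.P367.Gap.Values
import Vale.Agent.P367.NI.EnJ
import Vale.Agent.P367.NI.EqP

/-! P367: the infinite-size QAOA value is the energy of the plain word in any Weyl system. -/

namespace Vale.Agent.P367.NI

open Finset ComplexConjugate Filter Topology
open Vale.Agent.P367.Gap Vale.Agent.P367.Lim

/-- append the last time -/
def snc {p : ℕ} (x : CP p) (c : Bool × Bool) : CP (p + 1) :=
  (Fin.snoc (α := fun _ => Bool) x.1 c.1, Fin.snoc (α := fun _ => Bool) x.2 c.2)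

lemma ini_snc {p : ℕ} (x : CP p) (c : Bool × Bool) : ini (snc x c) = x := by
  unfold ini snc
  simp only [Fin.init_snoc]

/-- split off the last time of a contour path -/
def splitP (p : ℕ) : CP (p + 1) ≃ CP p × (Bool × Bool) where
  toFun x := (ini x, (x.1 (Fin.last (p + 1)), x.2 (Fin.last (p + 1))))
  invFun b := snc b.1 b.2
  left_inv x := by
    refine Prod.ext ?_ ?_
    · exact Fin.snoc_init_self x.1
    · exact Fin.snoc_init_self x.2
  right_inv b := by
    refine Prod.ext ?_ ?_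
    · exact ini_snc b.1 b.2
    · simp only [snc, Fin.snoc_last]

lemma causal_sum_of (γ β : ℕ → ℝ) (p : ℕ)
    (h : ∀ x : CP p, ∑ c : Bool × Bool, gg γ β (p + 1) (snc x c) = gg γ β p x)
    (f : CP p → ℂ) : ∑ y : CP (p + 1), gg γ β (p + 1) y * f (ini y) = ∑ y : CP p, gg γ β p y * f y := by
  rw [← (splitP p).symm.sum_comp, Fintype.sum_prod_type]
  refine sum_congr rfl fun x _ => ?_
  rw [← h x, sum_mul]
  refine sum_congr rfl fun c _ => ?_
  have e : (splitP p).symm (x, c) = snc x c := rfl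
  rw [e, ini_snc]

lemma sum_gg_qh_closed (γ β : ℕ → ℝ) (p : ℕ) (x : CP p)
    (hx : x.1 (Fin.last p) = x.2 (Fin.last p)) :
    ∑ y : CP p, gg γ β p y * ((qh γ p x y ^ 2 : ℝ) : ℂ)
      = ∑ y : CP p, gg γ β p y * ((qq γ p x y ^ 2 : ℝ) : ℂ) := by
  refine sum_congr rfl fun y _ => ?_
  by_cases hy : y.1 (Fin.last p) = y.2 (Fin.last p)
  · rw [qh_eq_of_closed γ p x y hx hy]
  · rw [gg_open γ β p y hy, zero_mul, zero_mul]

/-- causality of the limiting weights -/
lemma gg_causal (γ β : ℕ → ℝ) (p : ℕ) (x : CP p) :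
    ∑ c : Bool × Bool, gg γ β (p + 1) (snc x c) = gg γ β p x := by
  induction p with
  | zero =>
    have h1 : ∀ c : Bool × Bool, gg γ β (0 + 1) (snc x c) = wgt β (0 + 1) (snc x c) *
        Complex.exp (-(1 / 2 * ∑ y : CP 0, gg γ β 0 y * ((qh γ 0 x y ^ 2 : ℝ) : ℂ))) := by
      intro c
      simp only [gg, ini_snc]
    simp_rw [h1]
    rw [← sum_mul]
    have h2 := sum_last β 0 x
    have h3 : ∑ c : Bool × Bool, wgt β (0 + 1) (snc x c) = wgt β 0 x := h2
    rw [h3]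
    by_cases hx : x.1 (Fin.last 0) = x.2 (Fin.last 0)
    · rw [sum_gg_qh_closed γ β 0 x hx]
      have h4 : ∀ y : CP 0, qq γ 0 x y = 0 := fun y => by
        unfold qq
        simp
      simp_rw [h4]
      simp [gg]
    · have h5 : wgt β 0 x = 0 := by
        unfold wgt
        rw [if_neg hx, mul_zero]
      simp only [gg]
      rw [h5, zero_mul]
  | succ p ih =>
    have h1 : ∀ c : Bool × Bool, gg γ β (p + 1 + 1) (snc x c) = wgt β (p + 1 + 1) (snc x c) *
        Complex.exp (-(1 / 2 * ∑ y : CP (p + 1),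
          gg γ β (p + 1) y * ((qh γ (p + 1) x y ^ 2 : ℝ) : ℂ))) := by
      intro c
      rw [gg, ini_snc]
    simp_rw [h1]
    rw [← sum_mul]
    have h3 : ∑ c : Bool × Bool, wgt β (p + 1 + 1) (snc x c) = wgt β (p + 1) x :=
      sum_last β (p + 1) x
    rw [h3]
    by_cases hx : x.1 (Fin.last (p + 1)) = x.2 (Fin.last (p + 1))
    · rw [sum_gg_qh_closed γ β (p + 1) x hx]
      simp_rw [qq_succ]
      rw [causal_sum_of γ β p ih (fun y => ((qh γ p (ini x) y ^ 2 : ℝ) : ℂ))]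
      rw [gg]
    · rw [gg_open γ β (p + 1) x hx]
      have h5 : wgt β (p + 1) x = 0 := by
        unfold wgt
        rw [if_neg hx, mul_zero]
      rw [h5, zero_mul]

lemma causal_sum (γ β : ℕ → ℝ) (p : ℕ) (f : CP p → ℂ) :
    ∑ y : CP (p + 1), gg γ β (p + 1) y * f (ini y) = ∑ y : CP p, gg γ β p y * f y :=
  causal_sum_of γ β p (gg_causal γ β p) f

/-- the influence factor -/
noncomputable def EE (γ β : ℕ → ℝ) : (p : ℕ) → CP p → ℂ
  | 0, _ => 1
  | p + 1, x => Complex.exp (-(1 / 2 * ∑ y : CP p,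
      gg γ β p y * ((qh γ p (ini x) y ^ 2 : ℝ) : ℂ)))

lemma gg_eq_EE (γ β : ℕ → ℝ) (p : ℕ) (x : CP p) : gg γ β p x = wgt β p x * EE γ β p x := by
  cases p with
  | zero => simp only [gg, EE, mul_one]
  | succ p => simp only [gg, EE]

/-- the exponent of the influence factor through the phases of layers `< p` -/
lemma EE_eq (γ β : ℕ → ℝ) (p : ℕ) (x : CP p) :
    EE γ β p x = Complex.exp (-(1 / 2 * ∑ y : CP p,
      gg γ β p y * ((qq γ p x y ^ 2 : ℝ) : ℂ))) := by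
  cases p with
  | zero =>
    have h4 : ∀ y : CP 0, qq γ 0 x y = 0 := fun y => by
      unfold qq
      simp
    simp_rw [h4]
    simp [EE]
  | succ p =>
    simp_rw [qq_succ]
    rw [causal_sum γ β p (fun y => ((qh γ p (ini x) y ^ 2 : ℝ) : ℂ))]
    rw [EE]

/-- one-step recursion of the exponent -/
lemma sum_qh_sq (γ β : ℕ → ℝ) (p : ℕ) (x : CP p) :
    ∑ y : CP p, gg γ β p y * ((qh γ p x y ^ 2 : ℝ) : ℂ)
      = ∑ y : CP p, gg γ β p y * ((qq γ p x y ^ 2 : ℝ) : ℂ)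
        + 2 * ((γ p * (spin (x.1 (Fin.last p)) - spin (x.2 (Fin.last p))) : ℝ) : ℂ) *
          ((∑ k : Fin p, ((γ k * spin (x.1 k.castSucc) : ℝ) : ℂ) * Gc γ β p k)
            - ∑ k : Fin p, ((γ k * spin (x.2 k.castSucc) : ℝ) : ℂ) * conj (Gc γ β p k))
        + (((γ p * (spin (x.1 (Fin.last p)) - spin (x.2 (Fin.last p)))) ^ 2 : ℝ) : ℂ) := by
  set c : ℝ := γ p * (spin (x.1 (Fin.last p)) - spin (x.2 (Fin.last p))) with hc
  have h1 : ∀ y : CP p, gg γ β p y * ((qh γ p x y ^ 2 : ℝ) : ℂ)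
      = gg γ β p y * ((qq γ p x y ^ 2 : ℝ) : ℂ)
        + 2 * (c : ℂ) * (gg γ β p y * ((qq γ p x y * lst y : ℝ) : ℂ))
        + ((c ^ 2 : ℝ) : ℂ) * gg γ β p y := by
    intro y
    by_cases hy : y.1 (Fin.last p) = y.2 (Fin.last p)
    · have h2 : qh γ p x y = qq γ p x y + c * lst y := by
        rw [qh_eq, ← hy, hc]
        unfold lst
        ring
      have h3 : qh γ p x y ^ 2 = qq γ p x y ^ 2 + 2 * c * (qq γ p x y * lst y) + c ^ 2 := by
        rw [h2]
        linear_combination c ^ 2 * lst_sq y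
      rw [h3]
      push_cast
      ring
    · rw [gg_open γ β p y hy]
      ring
  simp_rw [h1]
  rw [sum_add_distrib, sum_add_distrib, ← mul_sum, ← mul_sum, sum_gg, mul_one]
  congr 2
  congr 1
  have h4 : ∀ k : Fin p, ((γ k * spin (x.1 k.castSucc) : ℝ) : ℂ) * Gc γ β p k
      = ∑ y : CP p, gg γ β p y * ((γ k * spin (x.1 k.castSucc) *
        (spin (y.1 k.castSucc) * lst y) : ℝ) : ℂ) := by
    intro k
    unfold Gc
    rw [mul_sum]
    refine sum_congr rfl fun y _ => ?_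
    push_cast
    ring
  have h5 : ∀ k : Fin p, ((γ k * spin (x.2 k.castSucc) : ℝ) : ℂ) * conj (Gc γ β p k)
      = ∑ y : CP p, gg γ β p y * ((γ k * spin (x.2 k.castSucc) *
        (spin (y.2 k.castSucc) * lst y) : ℝ) : ℂ) := by
    intro k
    rw [← sum_bra, mul_sum]
    refine sum_congr rfl fun y _ => ?_
    push_cast
    ring
  simp_rw [h4, h5]
  rw [← sum_sub_distrib]
  simp_rw [← sum_sub_distrib, ← mul_sub]
  rw [sum_comm]
  refine sum_congr rfl fun y _ => ?_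
  rw [← mul_sum]
  congr 1
  unfold qq
  push_cast
  rw [sum_mul]
  refine sum_congr rfl fun k _ => ?_
  ring

variable {F K : Type} [NormedAddCommGroup F] [InnerProductSpace ℂ F]
  [NormedAddCommGroup K] [InnerProductSpace ℂ K]

namespace Weyl

variable (S : Weyl F K)

/-- overlap of two field vectors -/
noncomputable def Mk (γ β : ℕ → ℝ) (p k : ℕ) : ℂ := inner ℂ (S.vk γ β p) (S.vk γ β k)

lemma norm_vk (γ β : ℕ → ℝ) (p : ℕ) : ‖S.vk γ β p‖ = 1 := by
  unfold vk
  rw [LinearIsometry.norm_map, S.norm_xv]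

lemma inner_vk_Ak (γ β : ℕ → ℝ) (p : ℕ) (a : Pth p) : inner ℂ (S.vk γ β p) (S.Ak γ β p a)
    = ∑ k : Fin p, ((γ k * spin (a k.castSucc) : ℝ) : ℂ) * S.Mk γ β p k := by
  unfold Ak Mk
  rw [inner_sum]
  refine sum_congr rfl fun k _ => ?_
  rw [inner_smul_right]

lemma ipx_succ (γ β : ℕ → ℝ) (p : ℕ) (x : CP (p + 1)) :
    S.ipx γ β (p + 1) x = S.ipx γ β p (ini x) *
      Complex.exp (((γ p * (spin ((ini x).2 (Fin.last p)) - spin ((ini x).1 (Fin.last p))) : ℝ) : ℂ)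
        * (∑ k : Fin p, ((γ k * spin ((ini x).1 k.castSucc) : ℝ) : ℂ) * S.Mk γ β p k)
        - ((γ p * (spin ((ini x).2 (Fin.last p)) - spin ((ini x).1 (Fin.last p))) : ℝ) : ℂ)
        * conj (∑ k : Fin p, ((γ k * spin ((ini x).2 k.castSucc) : ℝ) : ℂ) * S.Mk γ β p k)
        - (((γ p * (spin ((ini x).2 (Fin.last p)) - spin ((ini x).1 (Fin.last p)))) ^ 2 / 2
          : ℝ) : ℂ)) := by
  set v := S.vk γ β p with hv
  set a : Pth p := (ini x).1 with ha
  set b : Pth p := (ini x).2 with hb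
  set ra : ℝ := spin (a (Fin.last p)) * γ p with hra
  set rb : ℝ := spin (b (Fin.last p)) * γ p with hrb
  have ea : S.Wp γ β (p + 1) x.1 = S.W (-((ra : ℂ) • v)) (S.Wp γ β p a) := by
    rw [Wp, smul_smul, hra, Complex.ofReal_mul]
    rfl
  have eb : S.Wp γ β (p + 1) x.2 = S.W (-((rb : ℂ) • v)) (S.Wp γ β p b) := by
    rw [Wp, smul_smul, hrb, Complex.ofReal_mul]
    rfl
  have h1 : S.ipx γ β (p + 1) x
      = inner ℂ (S.Wp γ β p b) (S.W (((rb - ra : ℝ) : ℂ) • v) (S.Wp γ β p a)) := by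
    unfold ipx
    rw [ea, eb, ← LinearIsometryEquiv.inner_map_map (S.W ((rb : ℂ) • v))]
    have e1 : S.W ((rb : ℂ) • v) (S.W (-((rb : ℂ) • v)) (S.Wp γ β p b)) = S.Wp γ β p b := by
      have := S.W_neg_mul (-((rb : ℂ) • v)) (S.Wp γ β p b)
      rwa [neg_neg] at this
    rw [e1, S.W_mul]
    have e2 : (inner ℂ ((rb : ℂ) • v) (-((ra : ℂ) • v)) : ℂ).im = 0 := by
      rw [inner_neg_right, inner_smul_left, inner_smul_right, inner_self_eq_norm_sq_to_K,
        Complex.conj_ofReal, Complex.neg_im]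
      have : ((rb : ℂ) * ((ra : ℂ) * ((‖v‖ : ℂ) ^ 2))) = ((rb * (ra * ‖v‖ ^ 2) : ℝ) : ℂ) := by
        push_cast
        ring
      have h0 : ((rb : ℂ) * ((ra : ℂ) * ((‖v‖ : ℂ) ^ 2))).im = 0 := by
        rw [this, Complex.ofReal_im]
      rw [neg_eq_zero]
      exact h0
    have e3 : (rb : ℂ) • v + -((ra : ℂ) • v) = ((rb - ra : ℝ) : ℂ) • v := by
      rw [Complex.ofReal_sub, sub_smul, sub_eq_add_neg]
    rw [e2, e3]
    simp
  obtain ⟨θ, hθ⟩ := S.Wp_form γ β p a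
  obtain ⟨η, hη⟩ := S.Wp_form γ β p b
  rw [h1]
  have h2 : S.ipx γ β p (ini x) = inner ℂ (S.Wp γ β p b) (S.Wp γ β p a) := rfl
  rw [h2, hθ, hη, S.shift _ _ v (S.norm_vk γ β p), S.inner_vk_Ak, S.inner_vk_Ak]
  have h3 : rb - ra = γ p * (spin (b (Fin.last p)) - spin (a (Fin.last p))) := by
    rw [hra, hrb]
    ring
  rw [h3]

/-- the path overlaps are the influence factors -/
theorem ipx_eq (γ β : ℕ → ℝ) (p : ℕ) : ∀ x : CP p, S.ipx γ β p x = EE γ β p x := by
  induction p with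
  | zero =>
    intro x
    exact S.norm_Om_sq
  | succ p ih =>
    intro x
    have hM : ∀ k : Fin p, S.Mk γ β p k = Gc γ β p k := by
      intro k
      have h1 := S.inner_xv γ β p k.castSucc
      unfold Mk vk
      rw [LinearIsometry.inner_map_map]
      have h2 : S.Vp γ β ((k.castSucc : Fin (p + 1)) : ℕ) = S.Vp γ β k := rfl
      rw [h2] at h1
      rw [h1]
      unfold Gc
      refine sum_congr rfl fun y _ => ?_
      rw [ih, ← gg_eq_EE]
    rw [S.ipx_succ, ih, EE_eq, ← Complex.exp_add]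
    rw [EE, sum_qh_sq]
    congr 1
    simp_rw [hM]
    have hconj : conj (∑ k : Fin p, ((γ k * spin ((ini x).2 k.castSucc) : ℝ) : ℂ) * Gc γ β p k)
        = ∑ k : Fin p, ((γ k * spin ((ini x).2 k.castSucc) : ℝ) : ℂ) * conj (Gc γ β p k) := by
      rw [map_sum]
      refine sum_congr rfl fun k _ => ?_
      rw [map_mul, Complex.conj_ofReal]
    rw [hconj]
    push_cast
    ring

/-- the overlaps of the field vectors are the limiting correlations -/
theorem inner_xv_eq_Gc (γ β : ℕ → ℝ) (p : ℕ) (k : Fin p) :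
    inner ℂ (S.xv (S.Vp γ β p)) (S.xv (S.Vp γ β k)) = Gc γ β p k := by
  have h1 := S.inner_xv γ β p k.castSucc
  have h2 : S.Vp γ β ((k.castSucc : Fin (p + 1)) : ℕ) = S.Vp γ β k := rfl
  rw [h2] at h1
  rw [h1]
  unfold Gc
  refine sum_congr rfl fun y _ => ?_
  rw [S.ipx_eq, ← gg_eq_EE]

lemma eaux_plain (γ β : ℕ → ℝ) (y : HH F) (p : ℕ) : S.eaux y (plain γ β p)
    = ∑ k : Fin p, -(γ k * ((inner ℂ (S.xv (S.Vp γ β k)) y) ^ 2 : ℂ).im) := by
  induction p with
  | zero => simp [plain, eaux]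
  | succ p ih =>
    rw [plain, eaux, eaux, ih, Fin.sum_univ_castSucc, add_comm]
    rfl

theorem energy_plain (γ β : ℕ → ℝ) (p : ℕ) : S.energy (plain γ β p) = enL γ β p := by
  unfold energy enL
  rw [S.eaux_plain]
  refine sum_congr rfl fun k _ => ?_
  have h1 : inner ℂ (S.xv (S.Vp γ β k)) (S.xv (S.ev (plain γ β p))) = conj (Gc γ β p k) := by
    rw [← S.inner_xv_eq_Gc, inner_conj_symm]
    rfl
  rw [h1, ← map_pow, Complex.conj_im]
  ring

/-- **M1** the finite-size QAOA values converge to the energy of the plain word. -/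
theorem qaoaValue_tendsto_energy (p : ℕ) (γ β : Fin p → ℝ) (γ' β' : ℕ → ℝ)
    (hγ : ∀ k : Fin p, γ' k = γ k) (hβ : ∀ k : Fin p, β' k = β k) :
    Tendsto (fun n : ℕ => qaoaValue n p γ β) atTop (𝓝 (S.energy (plain γ' β' p))) := by
  rw [S.energy_plain]
  exact qaoaValue_tendsto_enL p γ β γ' β' hγ hβ

theorem vLim_eq_energy (p : ℕ) (γ β : Fin p → ℝ) (γ' β' : ℕ → ℝ)
    (hγ : ∀ k : Fin p, γ' k = γ k) (hβ : ∀ k : Fin p, β' k = β k) :
    vLim p γ β = S.energy (plain γ' β' p) :=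
  (S.qaoaValue_tendsto_energy p γ β γ' β' hγ hβ).limUnder_eq

theorem vLim_extA (p : ℕ) (γ β : Fin p → ℝ) :
    vLim p γ β = S.energy (plain (extA γ) (extA β) p) :=
  S.vLim_eq_energy p γ β _ _ (extA_apply γ) (extA_apply β)

/-- every plain word is a QAOA circuit -/
theorem energy_plain_eq_vLim (γ β : ℕ → ℝ) (p : ℕ) :
    S.energy (plain γ β p) = vLim p (fun k : Fin p => γ k) (fun k : Fin p => β k) :=
  (S.vLim_eq_energy p _ _ γ β (fun _ => rfl) (fun _ => rfl)).symm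

end Weyl

end Vale.Agent.P367.NI
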