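import Vale.Agent.P367.NI.Soft

/-! P367: real label exponentials are cyclic. -/

namespace Vale.Agent.P367.NI

open Complex Filter Topology

variable {F K : Type} [NormedAddCommGroup F] [InnerProductSpace ℂ F]
  [NormedAddCommGroup K] [InnerProductSpace ℂ K]

namespace Weyl

variable (S : Weyl F K)

/-- overlap of coherent vectors in exponential form -/
lemma inner_W_exp (b v : K) : inner ℂ (S.W b S.Om) (S.W v S.Om)
    = Complex.exp (inner ℂ b v - ((‖b‖ ^ 2 / 2 : ℝ) : ℂ) - ((‖v‖ ^ 2 / 2 : ℝ) : ℂ)) := by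
  rw [S.inner_W_W]
  congr 1
  have h1 : ‖v - b‖ ^ 2 = ‖v‖ ^ 2 - 2 * (inner ℂ b v).re + ‖b‖ ^ 2 := by
    have h := @norm_sub_sq ℂ K _ _ _ v b
    have h2 : RCLike.re (inner ℂ v b : ℂ) = (inner ℂ b v : ℂ).re := by
      rw [← inner_conj_symm v b, RCLike.re_to_complex, Complex.conj_re]
    rw [h, h2]
  rw [h1]
  apply Complex.ext
  · simp only [Complex.sub_re, Complex.mul_re, Complex.I_re, Complex.I_im, Complex.ofReal_re,
      Complex.ofReal_im]
    ring
  · simp only [Complex.sub_im, Complex.mul_im, Complex.I_re, Complex.I_im, Complex.ofReal_re,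
      Complex.ofReal_im]
    ring

lemma norm_add_e0 {a : K} (ha : inner ℂ S.e0 a = 0) (c : ℂ) :
    ‖a + c • S.e0‖ ^ 2 = ‖a‖ ^ 2 + ‖c‖ ^ 2 := by
  have h := @norm_add_sq ℂ K _ _ _ a (c • S.e0)
  have h2 : (inner ℂ a (c • S.e0) : ℂ) = 0 := by
    rw [inner_smul_right, ← inner_conj_symm, ha]
    simp
  rw [h, h2, norm_smul, S.norm_e0]
  simp

/-- the analytic function behind the cyclicity argument -/
noncomputable def anF (a : K) (y : F) (c : ℂ) : ℂ :=
  ((Real.exp (‖c‖ ^ 2 / 2) : ℝ) : ℂ) * inner ℂ y (S.W (a + c • S.e0) S.Om)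

lemma anF_W {a : K} (ha : inner ℂ S.e0 a = 0) (b : K) (c : ℂ) :
    S.anF a (S.W b S.Om) c = Complex.exp (inner ℂ b a + c * inner ℂ b S.e0
      - ((‖b‖ ^ 2 / 2 : ℝ) : ℂ) - ((‖a‖ ^ 2 / 2 : ℝ) : ℂ)) := by
  unfold anF
  rw [S.inner_W_exp, S.norm_add_e0 ha, Complex.ofReal_exp, ← Complex.exp_add]
  congr 1
  rw [inner_add_right, inner_smul_right]
  push_cast
  ring

lemma anF_add (a : K) (y z : F) (c : ℂ) : S.anF a (y + z) c = S.anF a y c + S.anF a z c := by
  unfold anF
  rw [inner_add_left]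
  ring

lemma anF_smul (a : K) (t : ℂ) (y : F) (c : ℂ) :
    S.anF a (t • y) c = (starRingEnd ℂ) t * S.anF a y c := by
  unfold anF
  rw [inner_smul_left]
  ring

lemma norm_anF_sub (a : K) (y z : F) (c : ℂ) :
    ‖S.anF a y c - S.anF a z c‖ ≤ Real.exp (‖c‖ ^ 2 / 2) * ‖y - z‖ := by
  unfold anF
  rw [← mul_sub, ← inner_sub_left, norm_mul, Complex.norm_real, Real.norm_eq_abs, Real.abs_exp]
  gcongr
  have h := norm_inner_le_norm (𝕜 := ℂ) (y - z) (S.W (a + c • S.e0) S.Om)
  rwa [LinearIsometryEquiv.norm_map, S.norm_Om, mul_one] at h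

lemma differentiable_anF (hS : S.Cyc) {a : K} (ha : inner ℂ S.e0 a = 0) (y : F) :
    Differentiable ℂ (S.anF a y) := by
  have h1 : ∀ z ∈ Submodule.span ℂ (Set.range fun b => S.W b S.Om), Differentiable ℂ (S.anF a z) := by
    intro z hz
    induction hz using Submodule.span_induction with
    | mem x hx =>
      obtain ⟨b, rfl⟩ := hx
      have e : S.anF a (S.W b S.Om) = fun c => Complex.exp (inner ℂ b a + c * inner ℂ b S.e0
          - ((‖b‖ ^ 2 / 2 : ℝ) : ℂ) - ((‖a‖ ^ 2 / 2 : ℝ) : ℂ)) := by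
        funext c; exact S.anF_W ha b c
      simp only
      rw [e]
      fun_prop
    | zero =>
      have e : S.anF a 0 = fun _ => 0 := by funext c; simp [anF]
      rw [e]; fun_prop
    | add x y _ _ hx hy =>
      have e : S.anF a (x + y) = fun c => S.anF a x c + S.anF a y c := by
        funext c; exact S.anF_add a x y c
      rw [e]; exact hx.add hy
    | smul t x _ hx =>
      have e : S.anF a (t • x) = fun c => (starRingEnd ℂ) t * S.anF a x c := by
        funext c; exact S.anF_smul a t x c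
      rw [e]; exact hx.const_mul _
  have hy : y ∈ closure ((Submodule.span ℂ (Set.range fun b => S.W b S.Om) : Submodule ℂ F) :
      Set F) := by
    have h2 : y ∈ (Submodule.span ℂ (Set.range fun b => S.W b S.Om)).topologicalClosure := by
      have h3 : (Submodule.span ℂ (Set.range fun b => S.W b S.Om)).topologicalClosure = ⊤ := hS
      rw [h3]; trivial
    exact h2
  obtain ⟨z, hz, hlim⟩ := mem_closure_iff_seq_limit.1 hy
  have h4 : TendstoLocallyUniformlyOn (fun n => S.anF a (z n)) (S.anF a y) atTop Set.univ := by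
    rw [tendstoLocallyUniformlyOn_univ, Metric.tendstoLocallyUniformly_iff]
    intro ε hε c
    have h5 : ∀ᶠ n in atTop, ‖z n - y‖ < ε / Real.exp ((‖c‖ + 1) ^ 2 / 2) := by
      have := (tendsto_iff_norm_sub_tendsto_zero.1 hlim).eventually (gt_mem_nhds
        (show (0 : ℝ) < ε / Real.exp ((‖c‖ + 1) ^ 2 / 2) by positivity))
      exact this
    refine ⟨Metric.ball c 1, Metric.ball_mem_nhds c one_pos, ?_⟩
    filter_upwards [h5] with n hn d hd
    rw [dist_comm, dist_eq_norm]
    refine (S.norm_anF_sub a (z n) y d).trans_lt ?_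
    have h6 : ‖d‖ ≤ ‖c‖ + 1 := by
      have h7 : ‖d - c‖ < 1 := by rwa [← dist_eq_norm]
      calc ‖d‖ = ‖c + (d - c)‖ := by rw [add_sub_cancel]
        _ ≤ ‖c‖ + ‖d - c‖ := norm_add_le _ _
        _ ≤ ‖c‖ + 1 := by linarith
    have h8 : Real.exp (‖d‖ ^ 2 / 2) ≤ Real.exp ((‖c‖ + 1) ^ 2 / 2) := by
      apply Real.exp_le_exp.2
      gcongr
    calc Real.exp (‖d‖ ^ 2 / 2) * ‖z n - y‖ ≤ Real.exp ((‖c‖ + 1) ^ 2 / 2) * ‖z n - y‖ := by
          gcongr
      _ < ε := by
          rw [lt_div_iff₀ (Real.exp_pos _)] at hn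
          linarith
  have h9 := h4.differentiableOn (Eventually.of_forall fun n => (h1 (z n) (hz n)).differentiableOn)
    isOpen_univ
  exact differentiableOn_univ.1 h9

/-- coherent vectors with real label component are cyclic -/
theorem real_cyc [CompleteSpace F] (hS : S.Cyc) :
    (Submodule.span ℂ {x : F | ∃ (a : K) (k : ℝ), inner ℂ S.e0 a = 0 ∧
      x = S.W (a + (k : ℂ) • S.e0) S.Om}).topologicalClosure = ⊤ := by
  rw [Submodule.topologicalClosure_eq_top_iff, Submodule.eq_bot_iff]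
  intro y hy
  rw [Submodule.mem_orthogonal'] at hy
  have h1 : ∀ v : K, inner ℂ y (S.W v S.Om) = 0 := by
    intro v
    have hv : v = (v - (inner ℂ S.e0 v : ℂ) • S.e0) + (inner ℂ S.e0 v : ℂ) • S.e0 := by
      rw [sub_add_cancel]
    set a := v - (inner ℂ S.e0 v : ℂ) • S.e0 with ha_def
    have ha : inner ℂ S.e0 a = 0 := by
      rw [ha_def, inner_sub_right, inner_smul_right, inner_self_eq_norm_sq_to_K, S.norm_e0]
      simp
    have hd := S.differentiable_anF hS ha y
    have hz : ∀ k : ℝ, S.anF a y (k : ℂ) = 0 := by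
      intro k
      unfold anF
      rw [hy _ (Submodule.subset_span ⟨a, k, ha, rfl⟩), mul_zero]
    have han : AnalyticOnNhd ℂ (S.anF a y) Set.univ := fun z _ => hd.analyticAt z
    have hfr : ∃ᶠ c in 𝓝[≠] (0 : ℂ), S.anF a y c = 0 := by
      have ht : Tendsto (fun n : ℕ => ((1 / ((n : ℝ) + 1) : ℝ) : ℂ)) atTop (𝓝[≠] (0 : ℂ)) := by
        refine tendsto_nhdsWithin_iff.2 ⟨?_, Eventually.of_forall fun n => ?_⟩
        · have h := (Complex.continuous_ofReal.tendsto (0 : ℝ)).comp
            (tendsto_one_div_add_atTop_nhds_zero_nat (𝕜 := ℝ))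
          rw [Complex.ofReal_zero] at h
          exact h
        · have : (1 / ((n : ℝ) + 1) : ℝ) ≠ 0 := by positivity
          exact Complex.ofReal_ne_zero.2 this
      exact ht.frequently (Frequently.of_forall fun n => hz _)
    have h3 := han.eqOn_zero_of_preconnected_of_frequently_eq_zero isPreconnected_univ
      (Set.mem_univ 0) hfr (Set.mem_univ (inner ℂ S.e0 v))
    have h4 : S.anF a y (inner ℂ S.e0 v) = 0 := h3
    unfold anF at h4
    rw [← hv] at h4
    rcases mul_eq_zero.1 h4 with h5 | h5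
    · exfalso
      have : Real.exp (‖(inner ℂ S.e0 v : ℂ)‖ ^ 2 / 2) = 0 := by exact_mod_cast h5
      exact (Real.exp_pos _).ne' this
    · exact h5
  have h2 : ∀ z ∈ Submodule.span ℂ (Set.range fun b => S.W b S.Om), inner ℂ y z = 0 := by
    intro z hz
    induction hz using Submodule.span_induction with
    | mem x hx => obtain ⟨b, rfl⟩ := hx; exact h1 b
    | zero => exact inner_zero_right _
    | add x z _ _ hx hz => rw [inner_add_right, hx, hz, add_zero]
    | smul c x _ hx => rw [inner_smul_right, hx, mul_zero]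
  have h3 : y ∈ (Submodule.span ℂ (Set.range fun b => S.W b S.Om))ᗮ := by
    rw [Submodule.mem_orthogonal']
    exact h2
  have h4 : (Submodule.span ℂ (Set.range fun b => S.W b S.Om))ᗮ = ⊥ :=
    (Submodule.topologicalClosure_eq_top_iff).1 hS
  rw [h4] at h3
  exact h3

end Weyl

lemma exists_iota2 (E : Type) [NormedAddCommGroup E] [InnerProductSpace ℂ E] [CompleteSpace E]
    [TopologicalSpace.SeparableSpace E] :
    ∃ T : E →ₗᵢ[ℂ] L2N, (∀ x, inner ℂ (unitv 0) (T x) = 0) ∧ ∀ x, inner ℂ (unitv 1) (T x) = 0 := by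
  classical
  obtain ⟨w, b, -⟩ := exists_hilbertBasis ℂ E
  have : Countable w := countable_of_basis b
  obtain ⟨f, hf⟩ := exists_injective_nat w
  have ho : Orthonormal ℂ (fun i : w => unitv (f i + 2)) := by
    rw [orthonormal_iff_ite]
    intro i j
    rw [inner_unitv]
    by_cases h : i = j
    · subst h; simp
    · rw [if_neg h, if_neg]
      intro h'
      exact h (hf (by omega))
  have key : ∀ (j : ℕ), j < 2 → ∀ x, inner ℂ (unitv j)
      ((ho.orthogonalFamily.linearIsometry.comp b.repr.toLinearIsometry) x) = 0 := by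
    intro j hj x
    have h1 := ho.orthogonalFamily.hasSum_linearIsometry (b.repr x)
    have h2 := h1.mapL (innerSL ℂ (unitv j))
    have h3 : (fun i : w => (innerSL ℂ (unitv j)) ((LinearIsometry.toSpanSingleton ℂ L2N
        (ho.1 i)) ((b.repr x : lp (fun _ : w => ℂ) 2) i))) = fun _ => 0 := by
      funext i
      rw [innerSL_apply_apply, LinearIsometry.toSpanSingleton_apply, inner_smul_right, inner_unitv,
        if_neg (by omega), mul_zero]
    change inner ℂ (unitv j) (ho.orthogonalFamily.linearIsometry (b.repr x)) = 0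
    have h5 : HasSum (fun _ : w => (0 : ℂ)) 0 := hasSum_zero
    rw [← h3] at h5
    exact h2.unique h5
  exact ⟨ho.orthogonalFamily.linearIsometry.comp b.repr.toLinearIsometry, key 0 (by norm_num),
    key 1 (by norm_num)⟩

lemma norm_unitv (j : ℕ) : ‖unitv j‖ = 1 := by
  have h := inner_unitv j j
  rw [if_pos rfl, inner_self_eq_norm_sq_to_K] at h
  have h2 : ‖unitv j‖ ^ 2 = 1 := by
    have h3 := congrArg Complex.re h
    simpa [← Complex.ofReal_pow] using h3
  nlinarith [norm_nonneg (unitv j)]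

lemma cyc_WF : (Submodule.span ℂ (Set.range fun a => WF a (ef 0))).topologicalClosure
    = (⊤ : Submodule ℂ FN) := by
  rw [eq_top_iff]
  intro x _
  have h3 := UniformSpace.Completion.denseRange_coe (α := EV L2N) x
  refine closure_mono ?_ h3
  rintro _ ⟨y, rfl⟩
  have h4 : Submodule.span ℂ (Set.range (ef : L2N → FN))
      ≤ Submodule.span ℂ (Set.range fun a => WF a (ef 0)) := by
    rw [Submodule.span_le]
    rintro _ ⟨a, rfl⟩
    have h5 : WF a (ef 0) = (EV.mu a 0 : ℂ) • ef a := by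
      have h1 : ∀ (c : L2N) (y : EV L2N), WF c (y : Fk L2N) = ((EV.W0 c y : EV L2N) : Fk L2N) :=
        fun c y => extI_coe _ _
      unfold ef
      rw [h1, EV.W0_e, add_zero, mul_one, ← UniformSpace.Completion.coe_smul]
      congr 1
      change (Finsupp.single a (EV.mu a 0) : L2N →₀ ℂ) = EV.mu a 0 • (Finsupp.single a 1 : L2N →₀ ℂ)
      rw [Finsupp.smul_single, smul_eq_mul, mul_one]
    have h6 : EV.mu a (0 : L2N) ≠ 0 := Complex.exp_ne_zero _
    have h7 : ef a = (EV.mu a (0 : L2N))⁻¹ • WF a (ef 0) := by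
      rw [h5, smul_smul, inv_mul_cancel₀ h6, one_smul]
    rw [h7]
    exact Submodule.smul_mem _ _ (Submodule.subset_span ⟨a, rfl⟩)
  exact h4 (coe_mem_span y)

/-- the cyclic Weyl system with a spare direction -/
theorem exists_weyl_cyc2 : ∃ (S : Weyl FN L2N) (e1 : L2N), S.Cyc ∧ ‖e1‖ = 1 ∧
    inner ℂ S.e0 e1 = 0 ∧ ∀ x, inner ℂ e1 (S.iota x) = 0 := by
  obtain ⟨T, hT0, hT1⟩ := exists_iota2 (HH FN)
  refine ⟨{
    W := WF
    Om := ef 0
    W_mul := WF_mul
    vac := WF_vac
    iota := T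
    e0 := unitv 0
    norm_e0 := norm_unitv 0
    e0_perp := hT0 }, unitv 1, ?_, norm_unitv 1, ?_, hT1⟩
  · exact cyc_WF
  · change inner ℂ (unitv 0) (unitv 1) = 0
    rw [inner_unitv, if_neg (by norm_num)]

end Vale.Agent.P367.NI
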