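import Vale.Agent.P367.NI.Fock

/-! P367: existence of a Weyl system with the self-embedding. -/

namespace Vale.Agent.P367.NI

open Complex UniformSpace ComplexConjugate Topology

section Comp

variable {K : Type} [NormedAddCommGroup K] [InnerProductSpace ℂ K]

variable (K) in
/-- Fock space -/
abbrev Fk : Type := UniformSpace.Completion (EV K)

/-- extension of an isometry of the pre-Hilbert space to the completion -/
noncomputable def extI (A : EV K ≃ₗᵢ[ℂ] EV K) : Fk K ≃ₗᵢ[ℂ] Fk K where
  toLinearEquiv := LinearEquiv.ofLinearMap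
    (A.toContinuousLinearEquiv : EV K →L[ℂ] EV K).completion.toLinearMap
    (A.symm.toContinuousLinearEquiv : EV K →L[ℂ] EV K).completion.toLinearMap
    (by
      ext1 x
      change (A.toContinuousLinearEquiv : EV K →L[ℂ] EV K).completion
        ((A.symm.toContinuousLinearEquiv : EV K →L[ℂ] EV K).completion x) = x
      induction x using UniformSpace.Completion.induction_on with
      | hp => exact isClosed_eq (by fun_prop) (by fun_prop)
      | ih x => simp)
    (by
      ext1 x
      change (A.symm.toContinuousLinearEquiv : EV K →L[ℂ] EV K).completion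
        ((A.toContinuousLinearEquiv : EV K →L[ℂ] EV K).completion x) = x
      induction x using UniformSpace.Completion.induction_on with
      | hp => exact isClosed_eq (by fun_prop) (by fun_prop)
      | ih x => simp)
  norm_map' x := by
    change ‖(A.toContinuousLinearEquiv : EV K →L[ℂ] EV K).completion x‖ = ‖x‖
    induction x using UniformSpace.Completion.induction_on with
    | hp => exact isClosed_eq (by fun_prop) (by fun_prop)
    | ih x => simp

@[simp] lemma extI_coe (A : EV K ≃ₗᵢ[ℂ] EV K) (x : EV K) :
    extI A (x : Fk K) = ((A x : EV K) : Fk K) := by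
  change (A.toContinuousLinearEquiv : EV K →L[ℂ] EV K).completion (x : Fk K) = _
  simp

/-- Weyl operators on Fock space -/
noncomputable def WF (c : K) : Fk K ≃ₗᵢ[ℂ] Fk K := extI (EV.W1 c)

lemma WF_mul (a b : K) (x : Fk K) : WF a (WF b x)
    = Complex.exp (-(Complex.I * ((inner ℂ a b).im : ℂ))) • WF (a + b) x := by
  induction x using UniformSpace.Completion.induction_on with
  | hp =>
    exact isClosed_eq ((WF a).continuous.comp (WF b).continuous)
      ((continuous_const_smul _).comp (WF (a + b)).continuous)
  | ih x =>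
    have h := EV.W0_mul a b x
    have h1 : ∀ (c : K) (y : EV K), WF c (y : Fk K) = ((EV.W0 c y : EV K) : Fk K) :=
      fun c y => extI_coe _ _
    rw [h1, h1, h1, h, UniformSpace.Completion.coe_smul]

/-- exponential vectors in Fock space -/
noncomputable def ef (a : K) : Fk K := ((EV.e a 1 : EV K) : Fk K)

lemma inner_ef (a b : K) : inner ℂ (ef a) (ef b) = Complex.exp (inner ℂ a b) := by
  unfold ef
  rw [UniformSpace.Completion.inner_coe, EV.inner_e]
  simp

lemma WF_vac (a : K) : inner ℂ (ef (0 : K)) (WF a (ef 0))
    = Complex.exp (-((‖a‖ ^ 2 / 2 : ℝ) : ℂ)) := by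
  have h1 : ∀ (c : K) (y : EV K), WF c (y : Fk K) = ((EV.W0 c y : EV K) : Fk K) :=
    fun c y => extI_coe _ _
  unfold ef
  rw [h1, UniformSpace.Completion.inner_coe, EV.W0_e, EV.inner_e]
  unfold EV.mu
  simp

lemma continuous_ef : Continuous (ef : K → Fk K) := by
  rw [continuous_iff_continuousAt]
  intro a
  rw [ContinuousAt, tendsto_iff_norm_sub_tendsto_zero]
  have h : ∀ b : K, ‖ef b - ef a‖ = Real.sqrt (RCLike.re (Complex.exp (inner ℂ b b)
      - Complex.exp (inner ℂ b a) - Complex.exp (inner ℂ a b) + Complex.exp (inner ℂ a a))) := by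
    intro b
    rw [@norm_eq_sqrt_re_inner ℂ]
    congr 2
    rw [inner_sub_left, inner_sub_right, inner_sub_right, inner_ef, inner_ef, inner_ef, inner_ef]
    ring
  simp_rw [h]
  have h2 : Filter.Tendsto (fun b : K => Real.sqrt (RCLike.re (Complex.exp (inner ℂ b b)
      - Complex.exp (inner ℂ b a) - Complex.exp (inner ℂ a b) + Complex.exp (inner ℂ a a))))
      (𝓝 a) (𝓝 (Real.sqrt (RCLike.re (Complex.exp (inner ℂ a a)
      - Complex.exp (inner ℂ a a) - Complex.exp (inner ℂ a a) + Complex.exp (inner ℂ a a))))) := by
    have hc : Continuous (fun b : K => Real.sqrt (RCLike.re (Complex.exp (inner ℂ b b)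
      - Complex.exp (inner ℂ b a) - Complex.exp (inner ℂ a b) + Complex.exp (inner ℂ a a)))) := by
      refine Real.continuous_sqrt.comp (RCLike.continuous_re.comp ?_)
      have h1 : Continuous fun b : K => (inner ℂ b b : ℂ) := continuous_id.inner continuous_id
      have h2 : Continuous fun b : K => (inner ℂ b a : ℂ) := continuous_id.inner continuous_const
      have h3 : Continuous fun b : K => (inner ℂ a b : ℂ) := continuous_const.inner continuous_id
      fun_prop
    exact hc.tendsto a
  have h3 : Real.sqrt (RCLike.re (Complex.exp (inner ℂ a a)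
      - Complex.exp (inner ℂ a a) - Complex.exp (inner ℂ a a) + Complex.exp (inner ℂ a a))) = 0 := by
    rw [show (Complex.exp (inner ℂ a a)
      - Complex.exp (inner ℂ a a) - Complex.exp (inner ℂ a a) + Complex.exp (inner ℂ a a)) = 0 by
        ring]
    simp
  rwa [h3] at h2

lemma e_eq_smul (a : K) (z : ℂ) : ((EV.e a z : EV K) : Fk K) = z • ef a := by
  unfold ef
  rw [← UniformSpace.Completion.coe_smul]
  congr 1
  change (Finsupp.single a z : K →₀ ℂ) = z • (Finsupp.single a 1 : K →₀ ℂ)
  rw [Finsupp.smul_single, smul_eq_mul, mul_one]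

lemma coe_mem_span (x : EV K) : (x : Fk K) ∈ Submodule.span ℂ (Set.range (ef : K → Fk K)) := by
  induction x using EV.induction with
  | h0 =>
    rw [UniformSpace.Completion.coe_zero]
    exact zero_mem _
  | hadd f g hf hg =>
    rw [UniformSpace.Completion.coe_add]
    exact add_mem hf hg
  | he a z =>
    rw [e_eq_smul]
    exact Submodule.smul_mem _ _ (Submodule.subset_span ⟨a, rfl⟩)

instance sepFk [TopologicalSpace.SeparableSpace K] : TopologicalSpace.SeparableSpace (Fk K) := by
  rw [← TopologicalSpace.isSeparable_univ_iff]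
  have h1 : TopologicalSpace.IsSeparable (Set.range (ef : K → Fk K)) :=
    TopologicalSpace.isSeparable_range continuous_ef
  have h2 : TopologicalSpace.IsSeparable
      ((Submodule.span ℂ (Set.range (ef : K → Fk K)) : Submodule ℂ (Fk K)) : Set (Fk K)) :=
    h1.span
  refine h2.closure.mono fun x _ => ?_
  have h3 := UniformSpace.Completion.denseRange_coe (α := EV K) x
  refine closure_mono ?_ h3
  rintro _ ⟨y, rfl⟩
  exact coe_mem_span y

end Comp

section Iota

/-- the one-particle space -/
abbrev L2N : Type := lp (fun _ : ℕ => ℂ) 2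

lemma sep_of_basis {E : Type} [NormedAddCommGroup E] [InnerProductSpace ℂ E] {ι : Type}
    [Countable ι] (b : HilbertBasis ι ℂ E) : TopologicalSpace.SeparableSpace E := by
  rw [← TopologicalSpace.isSeparable_univ_iff]
  have h1 : TopologicalSpace.IsSeparable (Set.range b) :=
    (Set.countable_range b).isSeparable
  have h2 : TopologicalSpace.IsSeparable
      ((Submodule.span ℂ (Set.range b) : Submodule ℂ E) : Set E) := h1.span
  refine h2.closure.mono fun x _ => ?_
  have h3 := b.dense_span
  have h4 : x ∈ (Submodule.span ℂ (Set.range b)).topologicalClosure := by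
    rw [h3]; trivial
  exact h4

lemma countable_of_basis {E : Type} [NormedAddCommGroup E] [InnerProductSpace ℂ E]
    [TopologicalSpace.SeparableSpace E] {ι : Type} (b : HilbertBasis ι ℂ E) : Countable ι := by
  have h1 : Set.PairwiseDisjoint (Set.univ : Set ι) fun i => Metric.ball (b i) (1 / 2) := by
    intro i _ j _ hij
    refine Metric.ball_disjoint_ball ?_
    have h2 : ‖b i - b j‖ ^ 2 = 2 := by
      rw [@norm_sub_sq ℂ, b.orthonormal.1 i, b.orthonormal.1 j, b.orthonormal.2 hij]
      norm_num
    rw [dist_eq_norm]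
    nlinarith [norm_nonneg (b i - b j)]
  have h3 := h1.countable_of_isOpen (fun i _ => Metric.isOpen_ball)
    (fun i _ => ⟨b i, Metric.mem_ball_self (by norm_num)⟩)
  exact Set.countable_univ_iff.1 h3

instance : TopologicalSpace.SeparableSpace L2N :=
  sep_of_basis (HilbertBasis.ofRepr (LinearIsometryEquiv.refl ℂ L2N) : HilbertBasis ℕ ℂ L2N)

/-- shifted unit vectors -/
noncomputable def unitv (i : ℕ) : L2N := lp.single 2 i (1 : ℂ)

lemma inner_unitv (i j : ℕ) : inner ℂ (unitv i) (unitv j) = if i = j then (1 : ℂ) else 0 := by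
  unfold unitv
  rw [lp.inner_single_left]
  by_cases h : i = j
  · subst h
    simp
  · rw [if_neg h]
    simp [lp.single_apply, h]

lemma exists_iota (E : Type) [NormedAddCommGroup E] [InnerProductSpace ℂ E] [CompleteSpace E]
    [TopologicalSpace.SeparableSpace E] :
    ∃ T : E →ₗᵢ[ℂ] L2N, ∀ x, inner ℂ (unitv 0) (T x) = 0 := by
  classical
  obtain ⟨w, b, -⟩ := exists_hilbertBasis ℂ E
  have : Countable w := countable_of_basis b
  obtain ⟨f, hf⟩ := exists_injective_nat w
  have ho : Orthonormal ℂ (fun i : w => unitv (f i + 1)) := by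
    rw [orthonormal_iff_ite]
    intro i j
    rw [inner_unitv]
    by_cases h : i = j
    · subst h; simp
    · rw [if_neg h, if_neg]
      intro h'
      exact h (hf (by omega))
  refine ⟨ho.orthogonalFamily.linearIsometry.comp b.repr.toLinearIsometry, fun x => ?_⟩
  have h1 := ho.orthogonalFamily.hasSum_linearIsometry (b.repr x)
  have h2 := h1.mapL (innerSL ℂ (unitv 0))
  have h3 : (fun i : w => (innerSL ℂ (unitv 0)) ((LinearIsometry.toSpanSingleton ℂ L2N
      (ho.1 i)) ((b.repr x : lp (fun _ : w => ℂ) 2) i))) = fun _ => 0 := by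
    funext i
    rw [innerSL_apply_apply, LinearIsometry.toSpanSingleton_apply, inner_smul_right, inner_unitv,
      if_neg (by omega), mul_zero]
  change inner ℂ (unitv 0) (ho.orthogonalFamily.linearIsometry (b.repr x)) = 0
  have h5 : HasSum (fun _ : w => (0 : ℂ)) 0 := hasSum_zero
  rw [← h3] at h5
  exact h2.unique h5

/-- the Fock space over `l2` -/
abbrev FN : Type := Fk L2N

instance : TopologicalSpace.SeparableSpace (HH FN) := by
  have h : Function.Surjective (WithLp.toLp 2 : FN × FN → HH FN) := fun x => ⟨x.ofLp, rfl⟩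
  exact h.denseRange.separableSpace (WithLp.prod_continuous_toLp 2 FN FN)

/-- Existence of a Weyl system with complete spaces. -/
theorem exists_weyl : Nonempty (Weyl FN L2N) := by
  obtain ⟨T, hT⟩ := exists_iota (HH FN)
  exact ⟨{
    W := WF
    Om := ef 0
    W_mul := WF_mul
    vac := WF_vac
    iota := T
    e0 := unitv 0
    norm_e0 := by
      have h := inner_unitv 0 0
      rw [if_pos rfl, inner_self_eq_norm_sq_to_K] at h
      have h2 : ‖unitv 0‖ ^ 2 = 1 := by
        have h3 := congrArg Complex.re h
        simpa [← Complex.ofReal_pow] using h3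
      nlinarith [norm_nonneg (unitv 0)]
    e0_perp := hT }⟩

end Iota

end Vale.Agent.P367.NI
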