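import Vale.Agent.P367.NI.Pert
import Vale.Agent.P367.NI.M1
import Vale.Agent.P367.NI.Exist
import Vale.Agent.P367.Lim.Main

/-! P367: assembly. If plain words approximate all labelled words in energy, and labelled words
reach the ground-state energy, then `Q_p` tends to `P_*`. -/

namespace Vale.Agent.P367.NI

open Filter Topology Vale.Agent.P367.Gap Vale.Agent.P367.Lim

variable {F K : Type} [NormedAddCommGroup F] [InnerProductSpace ℂ F]
  [NormedAddCommGroup K] [InnerProductSpace ℂ K]
variable (S : Weyl F K)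

/-- no label gates -/
def NoG (w : List Gate) : Prop := ∀ g ∈ w, ∀ k, g ≠ Gate.G k

lemma plain_congr {γ β γ' β' : ℕ → ℝ} (p : ℕ) (h : ∀ k < p, γ k = γ' k ∧ β k = β' k) :
    plain γ β p = plain γ' β' p := by
  induction p with
  | zero => rfl
  | succ p ih =>
    rw [plain, plain, ih fun k hk => h k (by omega), (h p (by omega)).1, (h p (by omega)).2]

lemma step_C_zero (V : St F) : S.step (Gate.C 0) V = V := by
  change V.trans (S.zr (((0 : ℝ) : ℂ) • _)) = V
  rw [Complex.ofReal_zero, zero_smul, zr_zero]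
  rfl

lemma step_B_zero (V : St F) : S.step (Gate.B 0) V = V := by
  change V.trans (NI.xr 0) = V
  rw [xr_zero]
  rfl

/-- every word without label gates is equivalent to an alternating one -/
lemma exists_plain (r : List Gate) (h : NoG r) : ∃ (p : ℕ) (γ β : ℕ → ℝ),
    S.ev (plain γ β p) = S.ev r ∧ ∀ y, S.eaux y (plain γ β p) = S.eaux y r := by
  induction r with
  | nil => exact ⟨0, fun _ => 0, fun _ => 0, rfl, fun _ => rfl⟩
  | cons g r ih =>
    obtain ⟨p, γ, β, h1, h2⟩ := ih fun a ha => h a (List.mem_cons_of_mem _ ha)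
    have key : ∀ b c : ℝ, ∃ γ' β' : ℕ → ℝ,
        plain γ' β' (p + 1) = Gate.B b :: Gate.C c :: plain γ β p := by
      intro b c
      refine ⟨Function.update γ p c, Function.update β p b, ?_⟩
      rw [plain, Function.update_self, Function.update_self]
      congr 2
      refine plain_congr p fun k hk => ?_
      rw [Function.update_of_ne hk.ne, Function.update_of_ne hk.ne]
      exact ⟨rfl, rfl⟩
    cases g with
    | G k => exact absurd rfl (h _ List.mem_cons_self k)
    | B b =>
      obtain ⟨γ', β', e⟩ := key b 0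
      refine ⟨p + 1, γ', β', ?_, ?_⟩
      · rw [e]
        change S.step (Gate.B b) (S.step (Gate.C 0) (S.ev (plain γ β p))) = S.step (Gate.B b) _
        rw [step_C_zero, h1]
      · intro y
        rw [e]
        change -(0 * _) + S.eaux y (plain γ β p) = S.eaux y r
        rw [zero_mul, neg_zero, zero_add, h2]
    | C c =>
      obtain ⟨γ', β', e⟩ := key 0 c
      refine ⟨p + 1, γ', β', ?_, ?_⟩
      · rw [e]
        change S.step (Gate.B 0) (S.step (Gate.C c) (S.ev (plain γ β p))) = S.step (Gate.C c) _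
        rw [step_B_zero, h1]
      · intro y
        rw [e]
        change -(c * ((inner ℂ (S.xv (S.ev (plain γ β p))) y) ^ 2 : ℂ).im) +
          S.eaux y (plain γ β p) = -(c * ((inner ℂ (S.xv (S.ev r)) y) ^ 2 : ℂ).im) + S.eaux y r
        rw [h1, h2]

/-- a word without label gates is a QAOA circuit -/
lemma exists_vLim (r : List Gate) (h : NoG r) : ∃ (p : ℕ) (γ β : Fin p → ℝ),
    vLim p γ β = S.energy r := by
  obtain ⟨p, γ, β, h1, h2⟩ := exists_plain S r h
  refine ⟨p, _, _, ((S.energy_plain_eq_vLim γ β p).symm).trans ?_⟩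
  unfold Weyl.energy
  rw [h1, h2]

lemma vLim_snoc (p : ℕ) (γ β : Fin p → ℝ) : ∃ γ' β' : Fin (p + 1) → ℝ,
    vLim (p + 1) γ' β' = vLim p γ β := by
  obtain ⟨S⟩ := exists_weyl
  refine ⟨fun k => (Function.update (extA γ) p 0) k, fun k => (Function.update (extA β) p 0) k, ?_⟩
  rw [← S.energy_plain_eq_vLim (Function.update (extA γ) p 0) (Function.update (extA β) p 0) (p + 1),
    S.vLim_extA p γ β, plain, Function.update_self, Function.update_self]
  have e : plain (Function.update (extA γ) p 0) (Function.update (extA β) p 0) p =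
      plain (extA γ) (extA β) p := by
    refine plain_congr p fun k hk => ?_
    rw [Function.update_of_ne hk.ne, Function.update_of_ne hk.ne]
    exact ⟨rfl, rfl⟩
  rw [e]
  have h1 : S.ev (Gate.B 0 :: Gate.C 0 :: plain (extA γ) (extA β) p) =
      S.ev (plain (extA γ) (extA β) p) := by
    change S.step (Gate.B 0) (S.step (Gate.C 0) (S.ev (plain (extA γ) (extA β) p))) = _
    rw [step_C_zero, step_B_zero]
  unfold Weyl.energy
  rw [h1]
  change -(0 * _) + S.eaux _ (plain (extA γ) (extA β) p) = _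
  rw [zero_mul, neg_zero, zero_add]

lemma Qsup_mono : Monotone Qsup := by
  refine monotone_nat_of_le_succ fun p => ?_
  unfold Qsup
  refine ciSup_le fun a => ?_
  obtain ⟨γ', β', h⟩ := vLim_snoc p a.1 a.2
  rw [← h]
  exact le_ciSup (Vale.Agent.P367.Lim.bdd_vLim (p + 1)) (γ', β')

lemma vLim_le_Qsup (p : ℕ) (γ β : Fin p → ℝ) : vLim p γ β ≤ Qsup p :=
  le_ciSup (Vale.Agent.P367.Lim.bdd_vLim p) (γ, β)

/-- **assembly** -/
theorem tendsto_Qsup (S : Weyl F K)
    (hA : ∀ (W : List Gate) (d : ℝ), 0 < d → ∃ r, NoG r ∧ |S.energy r - S.energy W| < d)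
    (hB : ∀ d : ℝ, 0 < d → ∃ W : List Gate, Pstar - d ≤ S.energy W) :
    Tendsto Qsup atTop (𝓝 Pstar) := by
  rw [Metric.tendsto_atTop]
  intro ε hε
  obtain ⟨W, hW⟩ := hB (ε / 2) (half_pos hε)
  obtain ⟨r, hr, hr'⟩ := hA W (ε / 2) (half_pos hε)
  obtain ⟨p, γ, β, hp⟩ := exists_vLim S r hr
  refine ⟨p, fun q hq => ?_⟩
  have h1 := vLim_le_Qsup p γ β
  have h2 := Qsup_mono hq
  have h3 := Vale.Agent.P367.Lim.Qsup_le q
  have h4 := Real.exp_pos (-(10 ^ 6 * 16 ^ q))
  rw [abs_lt] at hr'
  rw [Real.dist_eq, abs_lt]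
  constructor <;> linarith

end Vale.Agent.P367.NI
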