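import Vale.Agent.P367.NI.FCm
import Vale.Agent.P367.B.Dens

/-! P367: equivariant `SU(2)`-valued functions of commuting fields are strong limits of words. -/

namespace Vale.Agent.P367.NI

open Complex Filter Topology MeasureTheory
open Vale.Agent.P367.B (M2 LG lwp sX sZ Er)

variable {F K : Type} [NormedAddCommGroup F] [InnerProductSpace ℂ F]
  [NormedAddCommGroup K] [InnerProductSpace ℂ K] {I : Type} [Fintype I]

/-- operator of a label word -/
noncomputable def wop (S : Weyl F K) (w : I → K) : List (LG (I → ℝ)) → St F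
  | [] => LinearIsometryEquiv.refl ℂ (HH F)
  | LG.B b :: l => (wop S w l).trans (NI.xr b)
  | LG.G k :: l => (wop S w l).trans (S.zr (lc w k))

lemma Er_sX_eq (b : ℝ) : Er sX b = Weyl.mX b := by
  ext i j; fin_cases i <;> fin_cases j <;> simp [Er, sX, Weyl.mX]

lemma Er_sZ_eq (k z : I → ℝ) : Er sZ (∑ i, k i * z i) = Weyl.mZ k z := by
  have e00 : ek (-k) z = Complex.cos ((∑ i, k i * z i : ℝ) : ℂ)
      - Complex.I * Complex.sin ((∑ i, k i * z i : ℝ) : ℂ) := by
    unfold ek
    have h1 : (∑ i, (-k) i * z i : ℝ) = -(∑ i, k i * z i) := by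
      rw [← Finset.sum_neg_distrib]
      exact Finset.sum_congr rfl fun i _ => by simp
    rw [h1, mul_comm, Complex.exp_mul_I, Complex.ofReal_neg, Complex.cos_neg, Complex.sin_neg]
    ring
  have e11 : ek k z = Complex.cos ((∑ i, k i * z i : ℝ) : ℂ)
      + Complex.I * Complex.sin ((∑ i, k i * z i : ℝ) : ℂ) := by
    unfold ek
    rw [mul_comm, Complex.exp_mul_I]
    ring
  ext i j; fin_cases i <;> fin_cases j
  · change _ = ek (-k) z
    rw [e00]
    simp [Er, sZ]
  · simp [Er, sZ, Weyl.mZ]
  · simp [Er, sZ, Weyl.mZ]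
  · change _ = ek k z
    rw [e11]
    simp [Er, sZ]

omit [Fintype I] in
lemma um_sX (b : ℝ) : UM fun _ : I → ℝ => Er sX b where
  meas _ _ := measurable_const
  uni _ := B.Er_star B.star_sX B.sX_sq b

lemma um_sZ (k : I → ℝ) : UM fun z : I → ℝ => Er sZ (∑ i, k i * z i) where
  meas i j := by
    simp only [Er_sZ_eq]
    fin_cases i <;> fin_cases j
    · exact measurable_ek (-k)
    · exact measurable_const
    · exact measurable_const
    · exact measurable_ek k
  uni z := B.Er_star B.star_sZ B.sZ_sq _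

lemma um_lwp (l : List (LG (I → ℝ))) : UM (lwp l) := by
  induction l with
  | nil => exact UM.one
  | cons g l ih =>
    cases g with
    | B b => exact (um_sX b).mul ih
    | G k => exact (um_sZ k).mul ih

variable (S : Weyl F K) [CompleteSpace F] {w : I → K} (hS : S.Cyc) (hw : Orthonormal ℂ w)

lemma fcH_word (l : List (LG (I → ℝ))) (x : HH F) :
    S.fcH hS hw (lwp l) x = wop S w l x := by
  induction l generalizing x with
  | nil => exact S.fcH_one hS hw x
  | cons g l ih =>
    cases g with
    | B b =>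
      have e : lwp (LG.B b :: l) = fun z => Er sX b * lwp l z := rfl
      rw [e, S.fcH_mul hS hw (um_sX b).mb (um_lwp l).mb, ih]
      have e2 : (fun _ : I → ℝ => Er sX b) = fun _ => Weyl.mX b := by
        funext z; exact Er_sX_eq b
      rw [e2, S.fcH_mX hS hw]
      rfl
    | G k =>
      have e : lwp (LG.G k :: l) = fun z => Er sZ (∑ i, k i * z i) * lwp l z := rfl
      rw [e, S.fcH_mul hS hw (um_sZ k).mb (um_lwp l).mb, ih]
      have e2 : (fun z : I → ℝ => Er sZ (∑ i, k i * z i)) = Weyl.mZ k := by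
        funext z; exact Er_sZ_eq k z
      rw [e2, S.fcH_mZ hS hw]
      rfl

/-- words are matrix functions -/
lemma fcM_word (l : List (LG (I → ℝ))) : S.fcM hS hw (um_lwp l) = wop S w l := by
  ext x
  exact fcH_word S hS hw l x

/-- every equivariant `SU(2)`-valued function of commuting fields is a strong limit of words -/
theorem exists_seq_fcM {u : (I → ℝ) → M2} (hU : UM u)
    (hu : ∀ z, u z ∈ Matrix.specialUnitaryGroup (Fin 2) ℂ)
    (he : ∀ z, u (-z) = sX * u z * sX) :
    ∃ l : ℕ → List (LG (I → ℝ)), Tendsto (fun n => wop S w (l n)) atTop (𝓝 (S.fcM hS hw hU)) := by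
  obtain ⟨l, hl⟩ := B.dens_pi (gam I) hU.meas hu he
  refine ⟨l, ?_⟩
  rw [tendsto_sot]
  intro x
  have h1 := S.tendsto_fcM hS hw (fun n => um_lwp (l n)) hU (by
    filter_upwards [hl] with z hz i j
    have hc : Continuous fun A : M2 => A i j := (continuous_apply j).comp (continuous_apply i)
    exact (hc.tendsto _).comp hz) x
  refine h1.congr fun n => ?_
  rw [fcM_word]

/-- closed sets of states stable under the label gates are stable under all equivariant
`SU(2)`-valued functions of the commuting fields -/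
theorem trans_fcM_mem {C : Set (St F)} (hC : IsClosed C) (hB : ∀ V ∈ C, ∀ b, V.trans (NI.xr b) ∈ C)
    (hG : ∀ V ∈ C, ∀ k : I → ℝ, V.trans (S.zr (lc w k)) ∈ C)
    {u : (I → ℝ) → M2} (hU : UM u)
    (hu : ∀ z, u z ∈ Matrix.specialUnitaryGroup (Fin 2) ℂ)
    (he : ∀ z, u (-z) = sX * u z * sX) {V : St F} (hV : V ∈ C) :
    V.trans (S.fcM hS hw hU) ∈ C := by
  obtain ⟨l, hl⟩ := exists_seq_fcM S hS hw hU hu he
  refine hC.mem_of_tendsto (tendsto_trans tendsto_const_nhds hl) (Eventually.of_forall fun n => ?_)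
  have key : ∀ (l : List (LG (I → ℝ))), V.trans (wop S w l) ∈ C := by
    intro l
    induction l with
    | nil => exact hV
    | cons g l ih =>
      cases g with
      | B b => exact hB _ ih b
      | G k => exact hG _ ih k
  exact key (l n)

omit [CompleteSpace F] in
lemma orthonormal_e0 : Orthonormal ℂ (fun _ : Fin 1 => S.e0) := by
  rw [orthonormal_iff_ite]
  intro i j
  rw [if_pos (Subsingleton.elim i j), inner_self_eq_norm_sq_to_K, S.norm_e0]
  simp

/-- one label: `Cl` is stable under all equivariant functions of `phi(e0)` -/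
theorem cl_trans_fcM {u : (Fin 1 → ℝ) → M2} (hU : UM u)
    (hu : ∀ z, u z ∈ Matrix.specialUnitaryGroup (Fin 2) ℂ)
    (he : ∀ z, u (-z) = sX * u z * sX) {V : St F} (hV : V ∈ S.Cl) :
    V.trans (S.fcM hS (orthonormal_e0 S) hU) ∈ S.Cl := by
  refine trans_fcM_mem S hS (orthonormal_e0 S) S.isClosed_Cl (fun V hV b => ?_)
    (fun V hV k => ?_) hU hu he hV
  · exact S.run_mem_Cl hS [Gate.B b] hV
  · have h1 := S.run_mem_Cl hS [Gate.G (k 0)] hV
    have e : lc (fun _ : Fin 1 => S.e0) k = ((k 0 : ℝ) : ℂ) • S.e0 := by simp [lc]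
    rw [e]
    exact h1

end Vale.Agent.P367.NI
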