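import Vale.Agent.P367.NI.Ibp
import Vale.Agent.P367.Lim.Model3

namespace Vale.Agent.P367.NI

open Finset ComplexConjugate MeasureTheory ProbabilityTheory Filter Topology
open Vale.Agent.P367.Gap Vale.Agent.P367.Lim

variable {n : ℕ}

/-- two-site kernel of the energy -/
noncomputable def hk (γ : ℕ → ℝ) (p : ℕ) (x y : CP p) : ℝ := lst x * lst y * qq γ p x y

lemma qaoaMean_eq' (J : Pair n → ℝ) (p : ℕ) (γ β : Fin p → ℝ) :
    qaoaMean J p γ β = ∑ s, ‖qaoaState J p γ β s‖ ^ 2 * skEnergy J s := by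
  unfold qaoaMean
  have h : star (qaoaState J p γ β) ⬝ᵥ (Matrix.mulVec (costOp J) (qaoaState J p γ β))
      = ((∑ s, ‖qaoaState J p γ β s‖ ^ 2 * skEnergy J s : ℝ) : ℂ) := by
    rw [costOp_eq, dotProduct]
    push_cast
    apply Finset.sum_congr rfl
    intro s _
    rw [Matrix.mulVec_diagonal]
    simp only [Pi.star_apply, RCLike.star_def]
    rw [mul_left_comm, mul_comm ((starRingEnd ℂ) _), Complex.mul_conj,
      Complex.normSq_eq_norm_sq]
    push_cast
    ring
  rw [h, Complex.ofReal_re]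

/-- the mean energy at fixed couplings as a contour sum -/
lemma mean_contour (J : Pair n → ℝ) (p : ℕ) (γ β : Fin p → ℝ) (γ' β' : ℕ → ℝ)
    (hγ : ∀ k : Fin p, γ' k = γ k) (hβ : ∀ k : Fin p, β' k = β k) :
    ((qaoaMean J p γ β : ℝ) : ℂ) = ∑ X : Fin n → CP p, (∏ j, wgt β' p (X j)) *
      (((∑ e : Pair n, ((Real.sqrt n)⁻¹ * (lst (X e.1.1) * lst (X e.1.2))) * J e : ℝ) : ℂ) *
      Complex.exp (-(Complex.I * ((∑ e : Pair n, ((Real.sqrt n)⁻¹ *
        qq γ' p (X e.1.1) (X e.1.2)) * J e : ℝ) : ℂ)))) := by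
  let u : ℕ → Conf n → ℂ := fun k z =>
    if k < p then Complex.exp (-(Complex.I * γ' k * ((skEnergy J z : ℝ) : ℂ)))
    else ((skEnergy J z : ℝ) : ℂ)
  let v : ℕ → Conf n → ℂ := fun k z =>
    if k < p then Complex.exp (-(Complex.I * γ' k * ((skEnergy J z : ℝ) : ℂ)))
    else 1
  have hu := qaoa_amp J u γ' β' p γ β hγ hβ (fun k hk z => by simp [u, hk])
  have hv := qaoa_amp J v γ' β' p γ β hγ hβ (fun k hk z => by simp [v, hk])
  have h1 : ((qaoaMean J p γ β : ℝ) : ℂ) = ∑ z, amp β' p u z * conj (amp β' p v z) := by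
    rw [qaoaMean_eq', Complex.ofReal_sum]
    refine sum_congr rfl fun z _ => ?_
    rw [hu, hv]
    have e1 : u p z = ((skEnergy J z : ℝ) : ℂ) := by simp [u]
    have e2 : v p z = 1 := by simp [v]
    rw [e1, e2, one_mul]
    have e3 : ((‖qaoaState J p γ β z‖ ^ 2 : ℝ) : ℂ)
        = qaoaState J p γ β z * conj (qaoaState J p γ β z) := by
      rw [Complex.mul_conj, Complex.normSq_eq_norm_sq]
    rw [Complex.ofReal_mul, e3]
    ring
  rw [h1, sum_amp_mul_conj]
  refine sum_congr rfl fun X _ => ?_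
  congr 1
  have e1 : ∏ k : Fin (p + 1), u k (fun j => (X j).1 k)
      = Complex.exp (-(Complex.I * ((∑ k : Fin p, γ' k * skEnergy J (fun j => (X j).1 k.castSucc)
          : ℝ) : ℂ))) * ((skEnergy J (fun j => (X j).1 (Fin.last p)) : ℝ) : ℂ) := by
    rw [Fin.prod_univ_castSucc]
    have e2 : ∀ k : Fin p, u k.castSucc (fun j => (X j).1 k.castSucc)
        = Complex.exp (-(Complex.I * ((γ' k * skEnergy J (fun j => (X j).1 k.castSucc) : ℝ) : ℂ))) := by
      intro k
      simp only [u, Fin.val_castSucc, k.2, if_true]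
      exact exp_weight _ _
    have e3 : u (Fin.last p) (fun j => (X j).1 (Fin.last p))
        = ((skEnergy J (fun j => (X j).1 (Fin.last p)) : ℝ) : ℂ) := by
      simp [u]
    rw [e3]
    congr 1
    simp_rw [e2]
    rw [← Complex.exp_sum]
    congr 1
    rw [sum_neg_distrib, ← mul_sum]
    push_cast
    ring
  have e2 : ∏ k : Fin (p + 1), conj (v k (fun j => (X j).2 k))
      = Complex.exp (Complex.I * ((∑ k : Fin p, γ' k * skEnergy J (fun j => (X j).2 k.castSucc)
          : ℝ) : ℂ)) := by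
    rw [Fin.prod_univ_castSucc]
    have e2 : ∀ k : Fin p, conj (v k.castSucc (fun j => (X j).2 k.castSucc))
        = Complex.exp (Complex.I * ((γ' k * skEnergy J (fun j => (X j).2 k.castSucc) : ℝ) : ℂ)) := by
      intro k
      simp only [v, Fin.val_castSucc, k.2, if_true]
      rw [exp_weight, ← Complex.exp_conj, map_neg, map_mul, Complex.conj_I, Complex.conj_ofReal]
      congr 1
      ring
    have e3 : conj (v (Fin.last p) (fun j => (X j).2 (Fin.last p))) = 1 := by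
      simp [v]
    rw [e3]
    simp_rw [e2]
    rw [← Complex.exp_sum, ← mul_sum, mul_one]
    push_cast
    ring_nf
  rw [e1, e2]
  have key1 : ∑ e : Pair n, ((Real.sqrt n)⁻¹ * (lst (X e.1.1) * lst (X e.1.2))) * J e
      = skEnergy J (fun j => (X j).1 (Fin.last p)) := by
    unfold skEnergy lst
    rw [mul_sum]
    refine sum_congr rfl fun e _ => ?_
    ring
  have key2 : ∑ e : Pair n, ((Real.sqrt n)⁻¹ * qq γ' p (X e.1.1) (X e.1.2)) * J e
      = ∑ k : Fin p, γ' k * skEnergy J (fun j => (X j).1 k.castSucc)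
        - ∑ k : Fin p, γ' k * skEnergy J (fun j => (X j).2 k.castSucc) := by
    unfold skEnergy
    simp_rw [mul_sum]
    rw [Finset.sum_comm, Finset.sum_comm (s := (univ : Finset (Fin p)))
      (f := fun k e => γ' ↑k * ((Real.sqrt n)⁻¹ * (J e *
        (spin ((X e.1.1).2 k.castSucc) * spin ((X e.1.2).2 k.castSucc)))))]
    rw [← sum_sub_distrib]
    refine sum_congr rfl fun e _ => ?_
    unfold qq
    rw [mul_sum, sum_mul, ← sum_sub_distrib]
    refine sum_congr rfl fun k _ => ?_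
    ring
  rw [key1, key2]
  have h3 : Complex.exp (-(Complex.I * ((∑ k : Fin p, γ' k * skEnergy J (fun j => (X j).1 k.castSucc)
          : ℝ) : ℂ))) * Complex.exp (Complex.I * ((∑ k : Fin p,
            γ' k * skEnergy J (fun j => (X j).2 k.castSucc) : ℝ) : ℂ))
      = Complex.exp (-(Complex.I * ((∑ k : Fin p, γ' k * skEnergy J (fun j => (X j).1 k.castSucc)
        - ∑ k : Fin p, γ' k * skEnergy J (fun j => (X j).2 k.castSucc) : ℝ) : ℂ))) := by
    rw [← Complex.exp_add]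
    congr 1
    push_cast
    ring
  rw [← h3]
  ring

/-- the averaged energy as a contour sum -/
lemma mean_avg (p : ℕ) (γ β : Fin p → ℝ) (γ' β' : ℕ → ℝ)
    (hγ : ∀ k : Fin p, γ' k = γ k) (hβ : ∀ k : Fin p, β' k = β k) :
    ((∫ J, qaoaMean J p γ β ∂(couplingLaw n) : ℝ) : ℂ) = ∑ X : Fin n → CP p,
      (∏ j, wgt β' p (X j)) * (-(Complex.I * (((Real.sqrt n)⁻¹ ^ 2 *
        ∑ e : Pair n, hk γ' p (X e.1.1) (X e.1.2) : ℝ) : ℂ)) *
      Complex.exp (-(((Real.sqrt n)⁻¹ ^ 2 / 4 * QI γ' p (fun _ _ => 0) X : ℝ) : ℂ))) := by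
  rw [← integral_complex_ofReal]
  simp_rw [mean_contour _ p γ β γ' β' hγ hβ]
  rw [integral_finsetSum]
  · refine sum_congr rfl fun X _ => ?_
    rw [integral_const_mul]
    congr 1
    unfold couplingLaw
    rw [gauss_ibp]
    have h1 : ∑ e : Pair n, ((Real.sqrt n)⁻¹ * (lst (X e.1.1) * lst (X e.1.2))) *
        ((Real.sqrt n)⁻¹ * qq γ' p (X e.1.1) (X e.1.2))
        = (Real.sqrt n)⁻¹ ^ 2 * ∑ e : Pair n, hk γ' p (X e.1.1) (X e.1.2) := by
      rw [mul_sum]
      refine sum_congr rfl fun e _ => ?_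
      unfold hk
      ring
    rw [h1]
    congr 4
    have h := sum_sym (n := n) (fun a b => (qq γ' p (X a) (X b)) ^ 2) (fun a b => by
          rw [qq_comm])
    have h3 : QI γ' p (fun _ _ => 0) X
        = ∑ i, ∑ j, (if i = j then 0 else (qq γ' p (X i) (X j)) ^ 2) := by
      unfold QI
      simp
    rw [h3, h]
    simp_rw [mul_pow]
    rw [← mul_sum]
    ring
  · intro X _
    refine Integrable.const_mul ?_ _
    have hi := integrable_lin (fun e : Pair n =>
      (Real.sqrt n)⁻¹ * (lst (X e.1.1) * lst (X e.1.2)))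
    refine (hi.norm).mono' ?_ ?_
    · refine Continuous.aestronglyMeasurable ?_
      fun_prop
    · refine Filter.Eventually.of_forall fun J => ?_
      rw [norm_mul, norm_exp_neg_I, mul_one, Complex.norm_real]

lemma card_pair (n : ℕ) : ((Fintype.card (Pair n) : ℕ) : ℝ) = (n : ℝ) * ((n : ℝ) - 1) / 2 := by
  have h := sum_sym (n := n) (fun _ _ => 1) (fun _ _ => rfl)
  simp only [sum_const, card_univ, nsmul_eq_mul, mul_one] at h
  have h2 : ∑ i : Fin n, ∑ j : Fin n, (if i = j then (0 : ℝ) else 1) = (n : ℝ) * ((n : ℝ) - 1) := by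
    have h3 : ∀ i : Fin n, ∑ j : Fin n, (if i = j then (0 : ℝ) else 1) = (n : ℝ) - 1 := by
      intro i
      have h4 : ∀ j : Fin n, (if i = j then (0 : ℝ) else 1) = 1 - (if i = j then 1 else 0) := by
        intro j; split_ifs <;> simp
      simp_rw [h4]
      rw [sum_sub_distrib]
      simp
    simp_rw [h3]
    rw [sum_const, card_univ, Fintype.card_fin, nsmul_eq_mul]
  rw [h2] at h
  linarith

/-- an enumeration of the sites beginning with two given ones -/
lemma exists_equiv {N : ℕ} (i j : Fin (N + 2)) (hij : i ≠ j) :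
    ∃ e : Fin 2 ⊕ Fin N ≃ Fin (N + 2), e (Sum.inl 0) = i ∧ e (Sum.inl 1) = j := by
  classical
  let f : Fin 2 → Fin (N + 2) := ![i, j]
  have hf : Function.Injective f := by
    intro a b h
    fin_cases a <;> fin_cases b <;> simp_all [f]
  have hc : Fintype.card (Fin N) = Fintype.card ((Set.range f)ᶜ : Set (Fin (N + 2))) := by
    rw [Fintype.card_compl_set, Set.card_range_of_injective hf]
    simp
  let e : Fin 2 ⊕ Fin N ≃ Fin (N + 2) :=
    ((Equiv.ofInjective f hf).sumCongr (Fintype.equivOfCardEq hc)).trans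
      (Equiv.Set.sumCompl (Set.range f))
  refine ⟨e, ?_, ?_⟩
  · simp [e, f]
  · simp [e, f]

/-- one pair of sites in the contour sum -/
lemma pair_term (γ β : ℕ → ℝ) (p N : ℕ) (s : ℝ) (h : CP p → CP p → ℂ) (i j : Fin (N + 2))
    (hij : i ≠ j) :
    ∑ X : Fin (N + 2) → CP p, (∏ k, wgt β p (X k)) * (h (X i) (X j) *
      Complex.exp (-((s ^ 2 / 4 * QI γ p (fun _ _ => 0) X : ℝ) : ℂ)))
      = ∑ y : Fin 2 → CP p, h (y 0) (y 1) * Mg γ β p 2 N s y := by
  classical
  obtain ⟨e, he0, he1⟩ := exists_equiv i j hij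
  have h1 : ∀ y : Fin 2 → CP p, Mg γ β p 2 N s y
      = ∑ X : Fin (N + 2) → CP p, (∏ k, wgt β p (X k)) *
        ((if (fun a : Fin 2 => X (e (Sum.inl a))) = y then 1 else 0) *
        Complex.exp (-((s ^ 2 / 4 * QI γ p (fun _ _ => 0) X : ℝ) : ℂ))) := by
    intro y
    have h2 := FF_equiv γ β p s e (fun _ _ => 0)
      (fun k x => Sum.elim (fun a x => if x = y a then (1 : ℂ) else 0) (fun _ _ => 1) (e.symm k) x)
    unfold Mg
    simp only [Equiv.symm_apply_apply] at h2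
    refine Eq.trans h2.symm ?_
    unfold FF
    refine sum_congr rfl fun X _ => ?_
    rw [prod_mul_distrib, mul_assoc]
    congr 2
    rw [← e.prod_comp]
    simp only [Equiv.symm_apply_apply]
    rw [Fintype.prod_sum_type]
    simp only [Sum.elim_inl, Sum.elim_inr, prod_const_one, mul_one]
    by_cases hy : (fun a : Fin 2 => X (e (Sum.inl a))) = y
    · rw [if_pos hy]
      refine prod_eq_one fun a _ => ?_
      rw [if_pos (congrFun hy a)]
    · rw [if_neg hy]
      obtain ⟨a, ha⟩ := Function.ne_iff.1 hy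
      exact prod_eq_zero (mem_univ a) (if_neg ha)
  simp_rw [h1, mul_sum]
  rw [Finset.sum_comm]
  refine sum_congr rfl fun X _ => ?_
  rw [sum_eq_single (fun a : Fin 2 => X (e (Sum.inl a)))]
  · simp only [if_true, he0, he1]
    ring
  · intro y _ hy
    rw [if_neg (fun h => hy h.symm)]
    ring
  · intro h; exact absurd (mem_univ _) h

/-- the averaged energy through two-site marginals -/
lemma mean_marg (N : ℕ) (p : ℕ) (γ β : Fin p → ℝ) (γ' β' : ℕ → ℝ)
    (hγ : ∀ k : Fin p, γ' k = γ k) (hβ : ∀ k : Fin p, β' k = β k) :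
    ((qaoaValue (N + 2) p γ β : ℝ) : ℂ) = -(Complex.I * (((N : ℂ) + 1) / (2 * ((N : ℂ) + 2)))) *
      ∑ y : Fin 2 → CP p, ((hk γ' p (y 0) (y 1) : ℝ) : ℂ) *
        Mg γ' β' p 2 N (Real.sqrt ((N + 2 : ℕ) : ℝ))⁻¹ y := by
  unfold qaoaValue
  rw [Complex.ofReal_mul, mean_avg p γ β γ' β' hγ hβ]
  set s : ℝ := (Real.sqrt ((N + 2 : ℕ) : ℝ))⁻¹ with hs
  set S : ℂ := ∑ y : Fin 2 → CP p, ((hk γ' p (y 0) (y 1) : ℝ) : ℂ) * Mg γ' β' p 2 N s y with hS
  have h1 : ∑ X : Fin (N + 2) → CP p, (∏ j, wgt β' p (X j)) * (-(Complex.I * ((s ^ 2 *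
        ∑ e : Pair (N + 2), hk γ' p (X e.1.1) (X e.1.2) : ℝ) : ℂ)) *
      Complex.exp (-((s ^ 2 / 4 * QI γ' p (fun _ _ => 0) X : ℝ) : ℂ)))
      = ∑ _e : Pair (N + 2), -(Complex.I * (s : ℂ) ^ 2) * S := by
    have h2 : ∀ e : Pair (N + 2), -(Complex.I * (s : ℂ) ^ 2) * S
        = ∑ X : Fin (N + 2) → CP p, -(Complex.I * (s : ℂ) ^ 2) * ((∏ k, wgt β' p (X k)) *
          (((hk γ' p (X e.1.1) (X e.1.2) : ℝ) : ℂ) *
      Complex.exp (-((s ^ 2 / 4 * QI γ' p (fun _ _ => 0) X : ℝ) : ℂ)))) := by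
      intro e
      rw [← mul_sum, pair_term γ' β' p N s (fun x y => ((hk γ' p x y : ℝ) : ℂ)) e.1.1 e.1.2
        (ne_of_lt e.2)]
    rw [sum_congr rfl fun e _ => h2 e, Finset.sum_comm]
    refine sum_congr rfl fun X _ => ?_
    rw [← mul_sum, ← mul_sum, ← sum_mul]
    push_cast
    ring
  rw [h1, sum_const, card_univ, nsmul_eq_mul]
  have h3 : ((Fintype.card (Pair (N + 2)) : ℕ) : ℂ) = ((N : ℂ) + 2) * ((N : ℂ) + 1) / 2 := by
    have := card_pair (N + 2)
    have h4 : (((Fintype.card (Pair (N + 2)) : ℕ) : ℝ) : ℂ)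
        = ((((N + 2 : ℕ) : ℝ) * (((N + 2 : ℕ) : ℝ) - 1) / 2 : ℝ) : ℂ) := by rw [this]
    rw [Complex.ofReal_natCast] at h4
    rw [h4]
    push_cast
    ring
  have h5 : (s : ℂ) ^ 2 = ((N : ℂ) + 2)⁻¹ := by
    rw [hs]
    have h6 : (Real.sqrt ((N + 2 : ℕ) : ℝ))⁻¹ ^ 2 = ((N : ℝ) + 2)⁻¹ := by
      rw [inv_pow, Real.sq_sqrt (by positivity)]
      push_cast
      ring
    rw [← Complex.ofReal_pow, h6]
    push_cast
    ring
  have h7 : ((N : ℂ) + 2) ≠ 0 := by
    have : ((N : ℝ) + 2) ≠ 0 := by positivity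
    exact_mod_cast this
  rw [h3, h5]
  push_cast
  field_simp

/-- limiting pair correlation between layer `k` and the end -/
noncomputable def Gc (γ β : ℕ → ℝ) (p : ℕ) (k : Fin p) : ℂ :=
  ∑ x : CP p, gg γ β p x * ((spin (x.1 k.castSucc) * lst x : ℝ) : ℂ)

/-- swap of ket and bra -/
def swp {p : ℕ} (x : CP p) : CP p := (x.2, x.1)

/-- swap as an equivalence -/
def swE (p : ℕ) : CP p ≃ CP p := Equiv.prodComm _ _

lemma wgt_swp (β : ℕ → ℝ) (p : ℕ) (x : CP p) : wgt β p (swp x) = conj (wgt β p x) := by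
  unfold wgt swp
  simp only [map_mul, Complex.conj_conj]
  by_cases h : x.1 (Fin.last p) = x.2 (Fin.last p)
  · rw [if_pos h, if_pos h.symm]
    simp only [map_one]
    ring
  · rw [if_neg h, if_neg (fun h' => h h'.symm)]
    simp

lemma qh_swp (γ : ℕ → ℝ) (p : ℕ) (x y : CP p) : qh γ p (swp x) (swp y) = -qh γ p x y := by
  unfold qh swp
  rw [← sum_neg_distrib]
  refine sum_congr rfl fun k _ => ?_
  ring

lemma gg_swp (γ β : ℕ → ℝ) (p : ℕ) (x : CP p) : gg γ β p (swp x) = conj (gg γ β p x) := by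
  induction p with
  | zero => simp only [gg]; exact wgt_swp β 0 x
  | succ p ih =>
    simp only [gg]
    rw [map_mul, wgt_swp, ← Complex.exp_conj]
    congr 2
    rw [map_neg, map_mul, map_sum, ← (swE p).sum_comp]
    have h1 : conj (1 / 2 : ℂ) = 1 / 2 := by
      rw [map_div₀, map_one]
      congr 1
      exact Complex.conj_ofNat 2
    rw [h1]
    congr 2
    refine sum_congr rfl fun y _ => ?_
    have h2 : (swE p) y = swp y := rfl
    have h3 : ini (swp x) = swp (ini x) := rfl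
    rw [h2, h3, ih, qh_swp, neg_sq, map_mul, Complex.conj_ofReal]

lemma gg_open (γ β : ℕ → ℝ) (p : ℕ) (x : CP p) (h : x.1 (Fin.last p) ≠ x.2 (Fin.last p)) :
    gg γ β p x = 0 := by
  have hw : wgt β p x = 0 := by
    unfold wgt
    rw [if_neg h, mul_zero]
  cases p with
  | zero => simp only [gg]; exact hw
  | succ p => simp only [gg]; rw [hw, zero_mul]

lemma sum_bra (γ β : ℕ → ℝ) (p : ℕ) (k : Fin p) :
    ∑ x : CP p, gg γ β p x * ((spin (x.2 k.castSucc) * lst x : ℝ) : ℂ) = conj (Gc γ β p k) := by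
  unfold Gc
  rw [map_sum, ← (swE p).sum_comp]
  refine sum_congr rfl fun x _ => ?_
  have h2 : (swE p) x = swp x := rfl
  rw [h2, gg_swp, map_mul, Complex.conj_ofReal]
  by_cases h : x.1 (Fin.last p) = x.2 (Fin.last p)
  · congr 2
    unfold swp lst
    rw [h]
  · rw [gg_open γ β p x h]
    simp

/-- the limiting energy in closed form -/
noncomputable def enL (γ β : ℕ → ℝ) (p : ℕ) : ℝ := ∑ k : Fin p, γ k * ((Gc γ β p k) ^ 2).im

lemma enL_eq (γ β : ℕ → ℝ) (p : ℕ) :
    -(Complex.I * (1 / 2)) * ∑ y : Fin 2 → CP p, ((hk γ p (y 0) (y 1) : ℝ) : ℂ) *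
      ∏ i, gg γ β p (y i) = ((enL γ β p : ℝ) : ℂ) := by
  have h1 : ∑ y : Fin 2 → CP p, ((hk γ p (y 0) (y 1) : ℝ) : ℂ) * ∏ i, gg γ β p (y i)
      = ∑ a : CP p, ∑ b : CP p, ((hk γ p a b : ℝ) : ℂ) * (gg γ β p a * gg γ β p b) := by
    rw [← (finTwoArrowEquiv (CP p)).symm.sum_comp, Fintype.sum_prod_type]
    refine sum_congr rfl fun a _ => sum_congr rfl fun b _ => ?_
    simp [finTwoArrowEquiv, Fin.prod_univ_two]
  rw [h1]
  have h2 : ∑ a : CP p, ∑ b : CP p, ((hk γ p a b : ℝ) : ℂ) * (gg γ β p a * gg γ β p b)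
      = ∑ k : Fin p, (γ k : ℂ) * ((Gc γ β p k) ^ 2 - (conj (Gc γ β p k)) ^ 2) := by
    have h3 : ∀ k : Fin p, (γ k : ℂ) * ((Gc γ β p k) ^ 2 - (conj (Gc γ β p k)) ^ 2)
        = ∑ a : CP p, ∑ b : CP p, (γ k : ℂ) *
          ((gg γ β p a * ((spin (a.1 k.castSucc) * lst a : ℝ) : ℂ)) *
            (gg γ β p b * ((spin (b.1 k.castSucc) * lst b : ℝ) : ℂ)) -
          (gg γ β p a * ((spin (a.2 k.castSucc) * lst a : ℝ) : ℂ)) *
            (gg γ β p b * ((spin (b.2 k.castSucc) * lst b : ℝ) : ℂ))) := by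
      intro k
      rw [← sum_bra, pow_two, pow_two]
      unfold Gc
      rw [sum_mul_sum, sum_mul_sum, ← sum_sub_distrib, mul_sum]
      refine sum_congr rfl fun a _ => ?_
      rw [← sum_sub_distrib, mul_sum]
    have h5 := Finset.sum_congr (rfl : (univ : Finset (Fin p)) = univ) (fun k _ => h3 k)
    have h6 : ∀ f : Fin p → CP p → CP p → ℂ, ∑ k, ∑ a, ∑ b, f k a b
        = ∑ a, ∑ b, ∑ k, f k a b := by
      intro f
      rw [Finset.sum_comm]
      refine sum_congr rfl fun a _ => ?_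
      rw [Finset.sum_comm]
    refine Eq.trans ?_ (h5.trans (h6 _)).symm
    refine sum_congr rfl fun a _ => sum_congr rfl fun b _ => ?_
    unfold hk qq
    push_cast
    rw [mul_sum, sum_mul]
    refine sum_congr rfl fun k _ => ?_
    ring
  rw [h2]
  unfold enL
  rw [mul_sum, Complex.ofReal_sum]
  refine sum_congr rfl fun k _ => ?_
  have h4 : ∀ z : ℂ, z ^ 2 - (conj z) ^ 2 = 2 * Complex.I * (((z ^ 2).im : ℝ) : ℂ) := by
    intro z
    rw [← map_pow]
    generalize z ^ 2 = w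
    apply Complex.ext
    · simp
    · simp
      ring
  rw [h4]
  push_cast
  have hI := Complex.I_mul_I
  linear_combination -((γ k : ℂ) * ((((Gc γ β p k) ^ 2).im : ℝ) : ℂ)) * hI

/-- the infinite-size value is explicit -/
theorem qaoaValue_tendsto_enL (p : ℕ) (γ β : Fin p → ℝ) (γ' β' : ℕ → ℝ)
    (hγ : ∀ k : Fin p, γ' k = γ k) (hβ : ∀ k : Fin p, β' k = β k) :
    Tendsto (fun n : ℕ => qaoaValue n p γ β) atTop (𝓝 (enL γ' β' p)) := by
  rw [← tendsto_add_atTop_iff_nat 2]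
  have hs : Tendsto (fun N : ℕ => (N : ℝ) * ((Real.sqrt ((N + 2 : ℕ) : ℝ))⁻¹) ^ 2) atTop (𝓝 1) :=
    seq_s 2
  have h1 : Tendsto (fun N : ℕ => ((qaoaValue (N + 2) p γ β : ℝ) : ℂ)) atTop
      (𝓝 ((enL γ' β' p : ℝ) : ℂ)) := by
    simp_rw [mean_marg _ p γ β γ' β' hγ hβ]
    rw [← enL_eq]
    refine Tendsto.mul ?_ ?_
    · refine Tendsto.neg (Tendsto.const_mul _ ?_)
      have h2 : Tendsto (fun N : ℕ => ((((N : ℝ) + 1) / (2 * ((N : ℝ) + 2)) : ℝ) : ℂ)) atTop
          (𝓝 ((1 / 2 : ℝ) : ℂ)) := by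
        refine (Complex.continuous_ofReal.tendsto _).comp ?_
        have h3 : Tendsto (fun N : ℕ => (1 / 2 : ℝ) - (1 / 2) * (1 / ((N : ℝ) + 2))) atTop
            (𝓝 (1 / 2 - (1 / 2) * 0)) := by
          refine tendsto_const_nhds.sub (Tendsto.const_mul _ ?_)
          have h4 := (tendsto_add_atTop_iff_nat 1).2
            (tendsto_one_div_add_atTop_nhds_zero_nat (𝕜 := ℝ))
          refine h4.congr fun N => ?_
          push_cast
          ring
        rw [mul_zero, sub_zero] at h3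
        refine h3.congr fun N => ?_
        have h5 : ((N : ℝ) + 2) ≠ 0 := by positivity
        field_simp
        ring
      refine (h2.congr fun N => ?_).trans (le_of_eq ?_)
      · push_cast; ring
      · push_cast; ring_nf
    · refine tendsto_finsetSum _ fun y _ => Tendsto.const_mul _ ?_
      exact LT_all γ' β' p 2 y _ hs
  have h2 := (Complex.continuous_re.tendsto _).comp h1
  simpa [Function.comp_def] using h2

end Vale.Agent.P367.NI
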