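import Mathlib

/-! P367: preparation of the functional calculus: uniqueness of Fourier transforms of complex
densities, isometric extension of a correspondence of total families. -/

namespace Vale.Agent.P367.NI

open Complex MeasureTheory ProbabilityTheory Filter Topology ComplexConjugate

section uniq

variable {I : Type} [Fintype I]

/-- `exp(i k.z)` -/
noncomputable def ek (k z : I → ℝ) : ℂ := Complex.exp (Complex.I * ((∑ i, k i * z i : ℝ) : ℂ))

lemma norm_ek (k z : I → ℝ) : ‖ek k z‖ = 1 := by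
  unfold ek
  rw [mul_comm, Complex.norm_exp_ofReal_mul_I]

lemma continuous_ek (k : I → ℝ) : Continuous (ek k) := by
  unfold ek
  fun_prop

lemma measurable_ek (k : I → ℝ) : Measurable (ek k) := (continuous_ek k).measurable

lemma conj_ek (k z : I → ℝ) : conj (ek k z) = ek (-k) z := by
  unfold ek
  rw [← Complex.exp_conj, map_mul, Complex.conj_I, Complex.conj_ofReal]
  congr 1
  simp only [Pi.neg_apply, neg_mul, Finset.sum_neg_distrib, ofReal_neg]
  ring

lemma integrable_mul_bdd {α : Type*} [MeasurableSpace α] {μ : Measure α} {f g : α → ℂ} {C : ℝ}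
    (hg : Integrable g μ) (hf : AEStronglyMeasurable f μ) (hC : ∀ᵐ z ∂μ, ‖f z‖ ≤ C) :
    Integrable (fun z => f z * g z) μ :=
  hg.bdd_mul hf hC

lemma integrable_conj' {α : Type*} [MeasurableSpace α] {μ : Measure α} {g : α → ℂ}
    (hg : Integrable g μ) : Integrable (fun z => conj (g z)) μ :=
  hg.mono (Complex.continuous_conj.comp_aestronglyMeasurable hg.1)
    (Eventually.of_forall fun z => (Complex.norm_conj _).le)

lemma integrable_ek_mul {μ : Measure (I → ℝ)} {g : (I → ℝ) → ℂ} (hg : Integrable g μ)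
    (k : I → ℝ) : Integrable (fun z => ek k z * g z) μ :=
  integrable_mul_bdd hg (measurable_ek k).aestronglyMeasurable
    (C := 1) (Eventually.of_forall fun z => (norm_ek k z).le)

omit [Fintype I] in
lemma integral_wd_ofReal {μ : Measure (I → ℝ)} {a : (I → ℝ) → ℝ} (ha : AEMeasurable a μ)
    (f : (I → ℝ) → ℂ) : ∫ z, f z ∂(μ.withDensity fun z => ENNReal.ofReal (a z))
      = ∫ z, ((max (a z) 0 : ℝ) : ℂ) * f z ∂μ := by
  have h := integral_withDensity_eq_integral_smul₀ (μ := μ) (f := fun z => Real.toNNReal (a z))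
    ha.real_toNNReal f
  have e : (fun z => ENNReal.ofReal (a z)) = fun z => ((Real.toNNReal (a z) : NNReal) : ENNReal) := rfl
  rw [e, h]
  refine integral_congr_ae (Eventually.of_forall fun z => ?_)
  simp only [NNReal.smul_def, Real.coe_toNNReal', Complex.real_smul]

/-- uniqueness, real densities -/
lemma uniq_real {μ ν : Measure (I → ℝ)} [IsFiniteMeasure μ] [IsFiniteMeasure ν]
    {a b : (I → ℝ) → ℝ} (ha : Integrable a μ) (hb : Integrable b ν)
    (H : ∀ k : I → ℝ, ∫ z, ek k z * ((a z : ℝ) : ℂ) ∂μ = ∫ z, ek k z * ((b z : ℝ) : ℂ) ∂ν)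
    {f : (I → ℝ) → ℂ} (hf : Measurable f) {C : ℝ} (hC : ∀ z, ‖f z‖ ≤ C) :
    ∫ z, f z * ((a z : ℝ) : ℂ) ∂μ = ∫ z, f z * ((b z : ℝ) : ℂ) ∂ν := by
  classical
  set m1 : Measure (I → ℝ) := μ.withDensity (fun z => ENNReal.ofReal (a z))
    + ν.withDensity (fun z => ENNReal.ofReal (-b z)) with hm1
  set m2 : Measure (I → ℝ) := μ.withDensity (fun z => ENNReal.ofReal (-a z))
    + ν.withDensity (fun z => ENNReal.ofReal (b z)) with hm2
  have f1 : IsFiniteMeasure (μ.withDensity fun z => ENNReal.ofReal (a z)) :=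
    isFiniteMeasure_withDensity_ofReal ha.2
  have f2 : IsFiniteMeasure (ν.withDensity fun z => ENNReal.ofReal (-b z)) :=
    isFiniteMeasure_withDensity_ofReal hb.neg.2
  have f3 : IsFiniteMeasure (μ.withDensity fun z => ENNReal.ofReal (-a z)) :=
    isFiniteMeasure_withDensity_ofReal ha.neg.2
  have f4 : IsFiniteMeasure (ν.withDensity fun z => ENNReal.ofReal (b z)) :=
    isFiniteMeasure_withDensity_ofReal hb.2
  -- integrals of a bounded function
  have key : ∀ g : (I → ℝ) → ℂ, Measurable g → ∀ C : ℝ, (∀ z, ‖g z‖ ≤ C) →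
      ∫ z, g z ∂m1 - ∫ z, g z ∂m2
        = ∫ z, g z * ((a z : ℝ) : ℂ) ∂μ - ∫ z, g z * ((b z : ℝ) : ℂ) ∂ν := by
    intro g hg D hD
    have ig : ∀ (κ : Measure (I → ℝ)) [IsFiniteMeasure κ], Integrable g κ := fun κ _ =>
      Integrable.of_bound hg.aestronglyMeasurable D (Eventually.of_forall hD)
    have ia : ∀ {κ : Measure (I → ℝ)} {c : (I → ℝ) → ℝ}, Integrable c κ →
        Integrable (fun z => ((max (c z) 0 : ℝ) : ℂ) * g z) κ := by
      intro κ c hc
      have h1 : Integrable (fun z => ((max (c z) 0 : ℝ) : ℂ)) κ := hc.pos_part.ofReal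
      have h2 := integrable_mul_bdd h1 (f := g) hg.aestronglyMeasurable (C := D)
        (Eventually.of_forall hD)
      refine h2.congr (Eventually.of_forall fun z => ?_)
      simp only
      ring
    rw [hm1, hm2, integral_add_measure (ig _) (ig _), integral_add_measure (ig _) (ig _),
      integral_wd_ofReal ha.1.aemeasurable,
      integral_wd_ofReal (a := fun z => -b z) hb.neg.1.aemeasurable,
      integral_wd_ofReal (a := fun z => -a z) ha.neg.1.aemeasurable,
      integral_wd_ofReal hb.1.aemeasurable]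
    have e1 : ∫ z, ((max (a z) 0 : ℝ) : ℂ) * g z ∂μ - ∫ z, ((max (-a z) 0 : ℝ) : ℂ) * g z ∂μ
        = ∫ z, g z * ((a z : ℝ) : ℂ) ∂μ := by
      have hna : Integrable (fun z => -a z) μ := ha.neg
      rw [← integral_sub (ia ha) (ia hna)]
      refine integral_congr_ae (Eventually.of_forall fun z => ?_)
      simp only
      rw [← sub_mul, ← Complex.ofReal_sub]
      have : max (a z) 0 - max (-a z) 0 = a z := by
        rcases le_total 0 (a z) with h | h
        · rw [max_eq_left h, max_eq_right (by linarith)]; ring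
        · rw [max_eq_right h, max_eq_left (by linarith)]; ring
      rw [this]
      ring
    have e2 : ∫ z, ((max (b z) 0 : ℝ) : ℂ) * g z ∂ν - ∫ z, ((max (-b z) 0 : ℝ) : ℂ) * g z ∂ν
        = ∫ z, g z * ((b z : ℝ) : ℂ) ∂ν := by
      have hnb : Integrable (fun z => -b z) ν := hb.neg
      rw [← integral_sub (ia hb) (ia hnb)]
      refine integral_congr_ae (Eventually.of_forall fun z => ?_)
      simp only
      rw [← sub_mul, ← Complex.ofReal_sub]
      have : max (b z) 0 - max (-b z) 0 = b z := by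
        rcases le_total 0 (b z) with h | h
        · rw [max_eq_left h, max_eq_right (by linarith)]; ring
        · rw [max_eq_right h, max_eq_left (by linarith)]; ring
      rw [this]
      ring
    rw [← e1, ← e2]
    ring
  have hm : m1 = m2 := by
    apply Measure.ext_of_charFunDual
    ext L
    rw [charFunDual_apply, charFunDual_apply]
    have hL : ∀ v : I → ℝ, Complex.exp ((L v : ℝ) * Complex.I) = ek (fun i => L (Pi.single i 1)) v := by
      intro v
      unfold ek
      rw [mul_comm]
      congr 3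
      have hv : v = ∑ i, v i • (Pi.single i (1 : ℝ) : I → ℝ) := by
        ext j
        simp [Finset.sum_apply, Pi.single_apply]
      conv_lhs => rw [hv]
      rw [map_sum]
      refine Finset.sum_congr rfl fun i _ => ?_
      rw [map_smul, smul_eq_mul, mul_comm]
    simp_rw [hL]
    have h1 := key (ek fun i => L (Pi.single i 1)) (measurable_ek _) 1 (fun z => (norm_ek _ z).le)
    rw [H, sub_self] at h1
    exact sub_eq_zero.1 h1
  have h2 := key f hf C hC
  rw [hm, sub_self] at h2
  exact (sub_eq_zero.1 h2.symm)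

/-- **uniqueness** of the Fourier transform of complex densities -/
theorem uniq {μ ν : Measure (I → ℝ)} [IsFiniteMeasure μ] [IsFiniteMeasure ν]
    {g h : (I → ℝ) → ℂ} (hg : Integrable g μ) (hh : Integrable h ν)
    (H : ∀ k : I → ℝ, ∫ z, ek k z * g z ∂μ = ∫ z, ek k z * h z ∂ν)
    {f : (I → ℝ) → ℂ} (hf : Measurable f) {C : ℝ} (hC : ∀ z, ‖f z‖ ≤ C) :
    ∫ z, f z * g z ∂μ = ∫ z, f z * h z ∂ν := by
  have hconj : ∀ (κ : Measure (I → ℝ)) (u : (I → ℝ) → ℂ) (k : I → ℝ),
      ∫ z, ek k z * conj (u z) ∂κ = conj (∫ z, ek (-k) z * u z ∂κ) := by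
    intro κ u k
    rw [← integral_conj]
    refine integral_congr_ae (Eventually.of_forall fun z => ?_)
    simp only [map_mul, conj_ek, neg_neg]
  have hre : ∀ k : I → ℝ, ∫ z, ek k z * (((g z).re : ℝ) : ℂ) ∂μ
      = ∫ z, ek k z * (((h z).re : ℝ) : ℂ) ∂ν := by
    intro k
    have e : ∀ (κ : Measure (I → ℝ)) (u : (I → ℝ) → ℂ), Integrable u κ →
        ∫ z, ek k z * (((u z).re : ℝ) : ℂ) ∂κ
          = (∫ z, ek k z * u z ∂κ + conj (∫ z, ek (-k) z * u z ∂κ)) / 2 := by
      intro κ u hu
      rw [← hconj, ← integral_add (integrable_ek_mul hu k)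
        (integrable_ek_mul (integrable_conj' hu) k), ← integral_div]
      refine integral_congr_ae (Eventually.of_forall fun z => ?_)
      simp only
      rw [← mul_add, Complex.add_conj]
      push_cast
      ring
    rw [e μ g hg, e ν h hh, H, H]
  have him : ∀ k : I → ℝ, ∫ z, ek k z * (((g z).im : ℝ) : ℂ) ∂μ
      = ∫ z, ek k z * (((h z).im : ℝ) : ℂ) ∂ν := by
    intro k
    have e : ∀ (κ : Measure (I → ℝ)) (u : (I → ℝ) → ℂ), Integrable u κ →
        ∫ z, ek k z * (((u z).im : ℝ) : ℂ) ∂κ
          = (∫ z, ek k z * u z ∂κ - conj (∫ z, ek (-k) z * u z ∂κ)) / (2 * Complex.I) := by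
      intro κ u hu
      rw [← hconj, ← integral_sub (integrable_ek_mul hu k)
        (integrable_ek_mul (integrable_conj' hu) k), ← integral_div]
      refine integral_congr_ae (Eventually.of_forall fun z => ?_)
      simp only
      rw [← mul_sub, Complex.sub_conj]
      have hI : (2 * Complex.I) ≠ 0 := by simp
      field_simp
      push_cast
      ring
    rw [e μ g hg, e ν h hh, H, H]
  have r1 := uniq_real hg.re hh.re hre hf hC
  have r2 := uniq_real hg.im hh.im him hf hC
  have e : ∀ (κ : Measure (I → ℝ)) (u : (I → ℝ) → ℂ), Integrable u κ →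
      ∫ z, f z * u z ∂κ = ∫ z, f z * (((u z).re : ℝ) : ℂ) ∂κ
        + Complex.I * ∫ z, f z * (((u z).im : ℝ) : ℂ) ∂κ := by
    intro κ u hu
    have i1 : Integrable (fun z => f z * (((u z).re : ℝ) : ℂ)) κ :=
      integrable_mul_bdd hu.re.ofReal hf.aestronglyMeasurable (Eventually.of_forall hC)
    have i2 : Integrable (fun z => f z * (((u z).im : ℝ) : ℂ)) κ :=
      integrable_mul_bdd hu.im.ofReal hf.aestronglyMeasurable (Eventually.of_forall hC)
    rw [← integral_const_mul, ← integral_add i1 (i2.const_mul _)]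
    refine integral_congr_ae (Eventually.of_forall fun z => ?_)
    simp only
    conv_lhs => rw [← Complex.re_add_im (u z)]
    ring
  rw [e μ g hg, e ν h hh]
  exact congrArg₂ (fun x y => x + Complex.I * y) r1 r2

omit [Fintype I] in
lemma integral_wd_map {Ω : Type*} [MeasurableSpace Ω] {μ : Measure Ω} {a : Ω → ℝ}
    (ha : Integrable a μ) {X : Ω → (I → ℝ)} (hX : Measurable X)
    {f : (I → ℝ) → ℂ} (hf : Measurable f) :
    ∫ z, f z ∂((μ.withDensity fun z => ENNReal.ofReal (a z)).map X)
      = ∫ z, ((max (a z) 0 : ℝ) : ℂ) * f (X z) ∂μ := by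
  rw [integral_map hX.aemeasurable hf.aestronglyMeasurable]
  have h := integral_withDensity_eq_integral_smul₀ (μ := μ) (f := fun z => Real.toNNReal (a z))
    ha.1.aemeasurable.real_toNNReal (fun z => f (X z))
  have e : (fun z => ENNReal.ofReal (a z)) = fun z => ((Real.toNNReal (a z) : NNReal) : ENNReal) := rfl
  rw [e, h]
  refine integral_congr_ae (Eventually.of_forall fun z => ?_)
  simp only [NNReal.smul_def, Real.coe_toNNReal', Complex.real_smul]

section two

variable {Ω₁ Ω₂ : Type*} [MeasurableSpace Ω₁] [MeasurableSpace Ω₂]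

lemma uniq2_real {μ : Measure Ω₁} {ν : Measure Ω₂} [IsFiniteMeasure μ] [IsFiniteMeasure ν]
    {a : Ω₁ → ℝ} {b : Ω₂ → ℝ} (ha : Integrable a μ) (hb : Integrable b ν)
    {X : Ω₁ → (I → ℝ)} {Y : Ω₂ → (I → ℝ)} (hX : Measurable X) (hY : Measurable Y)
    (H : ∀ k : I → ℝ, ∫ z, ek k (X z) * ((a z : ℝ) : ℂ) ∂μ
      = ∫ z, ek k (Y z) * ((b z : ℝ) : ℂ) ∂ν)
    {f : (I → ℝ) → ℂ} (hf : Measurable f) {C : ℝ} (hC : ∀ z, ‖f z‖ ≤ C) :
    ∫ z, f (X z) * ((a z : ℝ) : ℂ) ∂μ = ∫ z, f (Y z) * ((b z : ℝ) : ℂ) ∂ν := by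
  classical
  have hna : Integrable (fun z => -a z) μ := ha.neg
  have hnb : Integrable (fun z => -b z) ν := hb.neg
  set m1 : Measure (I → ℝ) := (μ.withDensity (fun z => ENNReal.ofReal (a z))).map X
    + (ν.withDensity (fun z => ENNReal.ofReal (-b z))).map Y with hm1
  set m2 : Measure (I → ℝ) := (μ.withDensity (fun z => ENNReal.ofReal (-a z))).map X
    + (ν.withDensity (fun z => ENNReal.ofReal (b z))).map Y with hm2
  have f1 : IsFiniteMeasure (μ.withDensity fun z => ENNReal.ofReal (a z)) :=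
    isFiniteMeasure_withDensity_ofReal ha.2
  have f2 : IsFiniteMeasure (ν.withDensity fun z => ENNReal.ofReal (-b z)) :=
    isFiniteMeasure_withDensity_ofReal hnb.2
  have f3 : IsFiniteMeasure (μ.withDensity fun z => ENNReal.ofReal (-a z)) :=
    isFiniteMeasure_withDensity_ofReal hna.2
  have f4 : IsFiniteMeasure (ν.withDensity fun z => ENNReal.ofReal (b z)) :=
    isFiniteMeasure_withDensity_ofReal hb.2
  have key : ∀ g : (I → ℝ) → ℂ, Measurable g → ∀ C : ℝ, (∀ z, ‖g z‖ ≤ C) →
      ∫ z, g z ∂m1 - ∫ z, g z ∂m2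
        = ∫ z, g (X z) * ((a z : ℝ) : ℂ) ∂μ - ∫ z, g (Y z) * ((b z : ℝ) : ℂ) ∂ν := by
    intro g hg D hD
    have ig : ∀ (κ : Measure (I → ℝ)) [IsFiniteMeasure κ], Integrable g κ := fun κ _ =>
      Integrable.of_bound hg.aestronglyMeasurable D (Eventually.of_forall hD)
    have ia : ∀ {Ω : Type _} [MeasurableSpace Ω] {κ : Measure Ω} {c : Ω → ℝ} {T : Ω → (I → ℝ)},
        Measurable T → Integrable c κ →
        Integrable (fun z => ((max (c z) 0 : ℝ) : ℂ) * g (T z)) κ := by
      intro Ω _ κ c T hT hc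
      have h1 : Integrable (fun z => ((max (c z) 0 : ℝ) : ℂ)) κ := hc.pos_part.ofReal
      have h2 := integrable_mul_bdd h1 (f := fun z => g (T z)) (hg.comp hT).aestronglyMeasurable
        (C := D) (Eventually.of_forall fun z => hD _)
      refine h2.congr (Eventually.of_forall fun z => ?_)
      simp only
      ring
    have ia' : ∀ {κ : Measure Ω₂} {c : Ω₂ → ℝ} {T : Ω₂ → (I → ℝ)},
        Measurable T → Integrable c κ →
        Integrable (fun z => ((max (c z) 0 : ℝ) : ℂ) * g (T z)) κ := by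
      intro κ c T hT hc
      have h1 : Integrable (fun z => ((max (c z) 0 : ℝ) : ℂ)) κ := hc.pos_part.ofReal
      have h2 := integrable_mul_bdd h1 (f := fun z => g (T z)) (hg.comp hT).aestronglyMeasurable
        (C := D) (Eventually.of_forall fun z => hD _)
      refine h2.congr (Eventually.of_forall fun z => ?_)
      simp only
      ring
    rw [hm1, hm2, integral_add_measure (ig _) (ig _), integral_add_measure (ig _) (ig _),
      integral_wd_map ha hX hg, integral_wd_map (a := fun z => -b z) hnb hY hg,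
      integral_wd_map (a := fun z => -a z) hna hX hg, integral_wd_map hb hY hg]
    have e1 : ∫ z, ((max (a z) 0 : ℝ) : ℂ) * g (X z) ∂μ
        - ∫ z, ((max (-a z) 0 : ℝ) : ℂ) * g (X z) ∂μ = ∫ z, g (X z) * ((a z : ℝ) : ℂ) ∂μ := by
      rw [← integral_sub (ia hX ha) (ia hX hna)]
      refine integral_congr_ae (Eventually.of_forall fun z => ?_)
      simp only
      rw [← sub_mul, ← Complex.ofReal_sub]
      have : max (a z) 0 - max (-a z) 0 = a z := by
        rcases le_total 0 (a z) with h | h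
        · rw [max_eq_left h, max_eq_right (by linarith)]; ring
        · rw [max_eq_right h, max_eq_left (by linarith)]; ring
      rw [this]
      ring
    have e2 : ∫ z, ((max (b z) 0 : ℝ) : ℂ) * g (Y z) ∂ν
        - ∫ z, ((max (-b z) 0 : ℝ) : ℂ) * g (Y z) ∂ν = ∫ z, g (Y z) * ((b z : ℝ) : ℂ) ∂ν := by
      rw [← integral_sub (ia' hY hb) (ia' hY hnb)]
      refine integral_congr_ae (Eventually.of_forall fun z => ?_)
      simp only
      rw [← sub_mul, ← Complex.ofReal_sub]
      have : max (b z) 0 - max (-b z) 0 = b z := by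
        rcases le_total 0 (b z) with h | h
        · rw [max_eq_left h, max_eq_right (by linarith)]; ring
        · rw [max_eq_right h, max_eq_left (by linarith)]; ring
      rw [this]
      ring
    rw [← e1, ← e2]
    ring
  have hm : m1 = m2 := by
    apply Measure.ext_of_charFunDual
    ext L
    rw [charFunDual_apply, charFunDual_apply]
    have hL : ∀ v : I → ℝ, Complex.exp ((L v : ℝ) * Complex.I) = ek (fun i => L (Pi.single i 1)) v := by
      intro v
      unfold ek
      rw [mul_comm]
      congr 3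
      have hv : v = ∑ i, v i • (Pi.single i (1 : ℝ) : I → ℝ) := by
        ext j
        simp [Finset.sum_apply, Pi.single_apply]
      conv_lhs => rw [hv]
      rw [map_sum]
      refine Finset.sum_congr rfl fun i _ => ?_
      rw [map_smul, smul_eq_mul, mul_comm]
    simp_rw [hL]
    have h1 := key (ek fun i => L (Pi.single i 1)) (measurable_ek _) 1 (fun z => (norm_ek _ z).le)
    rw [H, sub_self] at h1
    exact sub_eq_zero.1 h1
  have h2 := key f hf C hC
  rw [hm, sub_self] at h2
  exact (sub_eq_zero.1 h2.symm)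

/-- uniqueness of Fourier transforms of images of complex densities -/
theorem uniq2 {μ : Measure Ω₁} {ν : Measure Ω₂} [IsFiniteMeasure μ] [IsFiniteMeasure ν]
    {g : Ω₁ → ℂ} {h : Ω₂ → ℂ} (hg : Integrable g μ) (hh : Integrable h ν)
    {X : Ω₁ → (I → ℝ)} {Y : Ω₂ → (I → ℝ)} (hX : Measurable X) (hY : Measurable Y)
    (H : ∀ k : I → ℝ, ∫ z, ek k (X z) * g z ∂μ = ∫ z, ek k (Y z) * h z ∂ν)
    {f : (I → ℝ) → ℂ} (hf : Measurable f) {C : ℝ} (hC : ∀ z, ‖f z‖ ≤ C) :
    ∫ z, f (X z) * g z ∂μ = ∫ z, f (Y z) * h z ∂ν := by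
  have iX : ∀ {g : Ω₁ → ℂ}, Integrable g μ → ∀ {f : (I → ℝ) → ℂ}, Measurable f → ∀ {C : ℝ},
      (∀ z, ‖f z‖ ≤ C) → Integrable (fun z => f (X z) * g z) μ := fun hg _ hf _ hC =>
    integrable_mul_bdd hg (hf.comp hX).aestronglyMeasurable (Eventually.of_forall fun z => hC _)
  have iY : ∀ {g : Ω₂ → ℂ}, Integrable g ν → ∀ {f : (I → ℝ) → ℂ}, Measurable f → ∀ {C : ℝ},
      (∀ z, ‖f z‖ ≤ C) → Integrable (fun z => f (Y z) * g z) ν := fun hg _ hf _ hC =>
    integrable_mul_bdd hg (hf.comp hY).aestronglyMeasurable (Eventually.of_forall fun z => hC _)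
  have cX : ∀ (k : I → ℝ), ∫ z, ek k (X z) * conj (g z) ∂μ
      = conj (∫ z, ek (-k) (X z) * g z ∂μ) := by
    intro k
    rw [← integral_conj]
    refine integral_congr_ae (Eventually.of_forall fun z => ?_)
    simp only [map_mul, conj_ek, neg_neg]
  have cY : ∀ (k : I → ℝ), ∫ z, ek k (Y z) * conj (h z) ∂ν
      = conj (∫ z, ek (-k) (Y z) * h z ∂ν) := by
    intro k
    rw [← integral_conj]
    refine integral_congr_ae (Eventually.of_forall fun z => ?_)
    simp only [map_mul, conj_ek, neg_neg]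
  have n1 : ∀ (k z : I → ℝ), ‖ek k z‖ ≤ 1 := fun k z => (norm_ek k z).le
  have hre : ∀ k : I → ℝ, ∫ z, ek k (X z) * (((g z).re : ℝ) : ℂ) ∂μ
      = ∫ z, ek k (Y z) * (((h z).re : ℝ) : ℂ) ∂ν := by
    intro k
    have e1 : ∫ z, ek k (X z) * (((g z).re : ℝ) : ℂ) ∂μ
          = (∫ z, ek k (X z) * g z ∂μ + conj (∫ z, ek (-k) (X z) * g z ∂μ)) / 2 := by
      rw [← cX, ← integral_add (iX hg (measurable_ek k) (n1 k))
        (iX (integrable_conj' hg) (measurable_ek k) (n1 k)), ← integral_div]
      refine integral_congr_ae (Eventually.of_forall fun z => ?_)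
      simp only
      rw [← mul_add, Complex.add_conj]
      push_cast
      ring
    have e2 : ∫ z, ek k (Y z) * (((h z).re : ℝ) : ℂ) ∂ν
          = (∫ z, ek k (Y z) * h z ∂ν + conj (∫ z, ek (-k) (Y z) * h z ∂ν)) / 2 := by
      rw [← cY, ← integral_add (iY hh (measurable_ek k) (n1 k))
        (iY (integrable_conj' hh) (measurable_ek k) (n1 k)), ← integral_div]
      refine integral_congr_ae (Eventually.of_forall fun z => ?_)
      simp only
      rw [← mul_add, Complex.add_conj]
      push_cast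
      ring
    rw [e1, e2, H, H]
  have him : ∀ k : I → ℝ, ∫ z, ek k (X z) * (((g z).im : ℝ) : ℂ) ∂μ
      = ∫ z, ek k (Y z) * (((h z).im : ℝ) : ℂ) ∂ν := by
    intro k
    have hI : (2 * Complex.I) ≠ 0 := by simp
    have e1 : ∫ z, ek k (X z) * (((g z).im : ℝ) : ℂ) ∂μ
          = (∫ z, ek k (X z) * g z ∂μ - conj (∫ z, ek (-k) (X z) * g z ∂μ)) / (2 * Complex.I) := by
      rw [← cX, ← integral_sub (iX hg (measurable_ek k) (n1 k))
        (iX (integrable_conj' hg) (measurable_ek k) (n1 k)), ← integral_div]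
      refine integral_congr_ae (Eventually.of_forall fun z => ?_)
      simp only
      rw [← mul_sub, Complex.sub_conj]
      field_simp
      push_cast
      ring
    have e2 : ∫ z, ek k (Y z) * (((h z).im : ℝ) : ℂ) ∂ν
          = (∫ z, ek k (Y z) * h z ∂ν - conj (∫ z, ek (-k) (Y z) * h z ∂ν)) / (2 * Complex.I) := by
      rw [← cY, ← integral_sub (iY hh (measurable_ek k) (n1 k))
        (iY (integrable_conj' hh) (measurable_ek k) (n1 k)), ← integral_div]
      refine integral_congr_ae (Eventually.of_forall fun z => ?_)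
      simp only
      rw [← mul_sub, Complex.sub_conj]
      field_simp
      push_cast
      ring
    rw [e1, e2, H, H]
  have r1 := uniq2_real hg.re hh.re hX hY hre hf hC
  have r2 := uniq2_real hg.im hh.im hX hY him hf hC
  have e1 : ∫ z, f (X z) * g z ∂μ = ∫ z, f (X z) * (((g z).re : ℝ) : ℂ) ∂μ
        + Complex.I * ∫ z, f (X z) * (((g z).im : ℝ) : ℂ) ∂μ := by
    have i1 : Integrable (fun z => f (X z) * (((g z).re : ℝ) : ℂ)) μ := iX hg.re.ofReal hf hC
    have i2 : Integrable (fun z => f (X z) * (((g z).im : ℝ) : ℂ)) μ := iX hg.im.ofReal hf hC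
    rw [← integral_const_mul, ← integral_add i1 (i2.const_mul _)]
    refine integral_congr_ae (Eventually.of_forall fun z => ?_)
    simp only
    conv_lhs => rw [← Complex.re_add_im (g z)]
    ring
  have e2 : ∫ z, f (Y z) * h z ∂ν = ∫ z, f (Y z) * (((h z).re : ℝ) : ℂ) ∂ν
        + Complex.I * ∫ z, f (Y z) * (((h z).im : ℝ) : ℂ) ∂ν := by
    have i1 : Integrable (fun z => f (Y z) * (((h z).re : ℝ) : ℂ)) ν := iY hh.re.ofReal hf hC
    have i2 : Integrable (fun z => f (Y z) * (((h z).im : ℝ) : ℂ)) ν := iY hh.im.ofReal hf hC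
    rw [← integral_const_mul, ← integral_add i1 (i2.const_mul _)]
    refine integral_congr_ae (Eventually.of_forall fun z => ?_)
    simp only
    conv_lhs => rw [← Complex.re_add_im (h z)]
    ring
  rw [e1, e2]
  exact congrArg₂ (fun x y => x + Complex.I * y) r1 r2

end two

end uniq

section isom

/-- a correspondence of two families with the same Gram matrix extends to an isometry -/
theorem exists_isom {α : Type*} {F G : Type*} [NormedAddCommGroup F] [InnerProductSpace ℂ F]
    [NormedAddCommGroup G] [InnerProductSpace ℂ G] [CompleteSpace G] (u : α → F) (v : α → G)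
    (h : ∀ a b, inner ℂ (u a) (u b) = inner ℂ (v a) (v b))
    (hd : (Submodule.span ℂ (Set.range u)).topologicalClosure = ⊤) :
    ∃ U : F →ₗᵢ[ℂ] G, ∀ a, U (u a) = v a := by
  set L := Finsupp.linearCombination ℂ u with hL
  set M := Finsupp.linearCombination ℂ v with hM
  have hn : ∀ c, ‖M c‖ = ‖L c‖ := by
    intro c
    have h1 : inner ℂ (M c) (M c) = inner ℂ (L c) (L c) := by
      simp only [hL, hM, Finsupp.linearCombination_apply, Finsupp.sum, sum_inner, inner_sum,
        inner_smul_left, inner_smul_right, h]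
    rw [inner_self_eq_norm_sq_to_K, inner_self_eq_norm_sq_to_K] at h1
    have h2 : ‖M c‖ ^ 2 = ‖L c‖ ^ 2 := by exact_mod_cast h1
    exact (sq_eq_sq₀ (norm_nonneg _) (norm_nonneg _)).1 h2
  have hdense : DenseRange L := by
    intro x
    have h1 : x ∈ (Submodule.span ℂ (Set.range u)).topologicalClosure := by rw [hd]; trivial
    have h2 : Set.range L = ((Submodule.span ℂ (Set.range u) : Submodule ℂ F) : Set F) := by
      rw [← Finsupp.range_linearCombination]
      rfl
    rw [h2]
    exact h1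
  have hnorm : ∃ C, ∀ x, ‖M x‖ ≤ C * ‖L x‖ := ⟨1, fun x => by rw [hn, one_mul]⟩
  set T := M.extendOfNorm L with hT
  have hTL : ∀ c, T (L c) = M c := fun c => M.extendOfNorm_eq hdense hnorm c
  refine ⟨{ toLinearMap := T.toLinearMap, norm_map' := ?_ }, ?_⟩
  · intro x
    change ‖T x‖ = ‖x‖
    refine hdense.induction_on x ?_ ?_
    · exact isClosed_eq (by fun_prop) (by fun_prop)
    · intro c
      rw [hTL, hn]
  · intro a
    change T (u a) = v a
    have h1 := hTL (Finsupp.single a 1)
    simpa [hL, hM] using h1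

end isom

section gauss

variable {I : Type} [Fintype I]

/-- standard Gaussian on `R^I` -/
noncomputable abbrev gam (I : Type) [Fintype I] : Measure (I → ℝ) :=
  Measure.pi fun _ : I => gaussianReal 0 1

lemma integrable_cexp_lin (θ η : ℂ) :
    Integrable (fun z : ℝ => Complex.exp (θ * z + η)) (gaussianReal 0 1) := by
  have h1 : Integrable (fun z : ℝ => Real.exp (θ.re * z)) (gaussianReal 0 1) :=
    integrable_exp_mul_gaussianReal θ.re
  have h2 : Integrable (fun z : ℝ => Real.exp (θ.re * z) * Real.exp η.re) (gaussianReal 0 1) :=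
    h1.mul_const _
  refine h2.mono (by fun_prop) (Eventually.of_forall fun z => ?_)
  rw [Complex.norm_exp, ← Real.exp_add, Real.norm_eq_abs, abs_of_pos (Real.exp_pos _)]
  apply le_of_eq
  congr 1
  simp

lemma integral_cexp_lin (θ η : ℂ) :
    ∫ z : ℝ, Complex.exp (θ * z + η) ∂(gaussianReal 0 1) = Complex.exp (θ ^ 2 / 2 + η) := by
  have h := complexMGF_id_gaussianReal (μ := 0) (v := 1) θ
  unfold complexMGF at h
  simp only [id_eq, Complex.ofReal_zero, mul_zero, NNReal.coe_one, Complex.ofReal_one, one_mul,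
    zero_add] at h
  simp_rw [Complex.exp_add]
  rw [integral_mul_const, h]

lemma integrable_cexp_pi (θ η : I → ℂ) :
    Integrable (fun z : I → ℝ => Complex.exp (∑ i, (θ i * z i + η i))) (gam I) := by
  have h : (fun z : I → ℝ => Complex.exp (∑ i, (θ i * z i + η i)))
      = fun z : I → ℝ => ∏ i, Complex.exp (θ i * z i + η i) := by
    funext z
    rw [Complex.exp_sum]
  rw [h]
  exact Integrable.fintype_prod (f := fun i (z : ℝ) => Complex.exp (θ i * z + η i))
    fun i => integrable_cexp_lin _ _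

lemma integral_cexp_pi (θ η : I → ℂ) :
    ∫ z : I → ℝ, Complex.exp (∑ i, (θ i * z i + η i)) ∂(gam I)
      = Complex.exp (∑ i, (θ i ^ 2 / 2 + η i)) := by
  have h : (fun z : I → ℝ => Complex.exp (∑ i, (θ i * z i + η i)))
      = fun z : I → ℝ => ∏ i, Complex.exp (θ i * z i + η i) := by
    funext z
    rw [Complex.exp_sum]
  rw [h, Complex.exp_sum]
  have h2 := integral_fintype_prod_eq_prod (𝕜 := ℂ) (μ := fun _ : I => gaussianReal 0 1)
    (fun i (z : ℝ) => Complex.exp (θ i * z + η i))
  rw [h2]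
  exact Finset.prod_congr rfl fun i _ => integral_cexp_lin _ _

end gauss

end Vale.Agent.P367.NI
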