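import Vale.Agent.P367.NI.Soft
import Vale.Agent.P367.NI.FCa

/-! P367: functional calculus of finitely many commuting orthonormal fields of a cyclic Weyl
system. -/

namespace Vale.Agent.P367.NI

open Complex MeasureTheory ProbabilityTheory Filter Topology ComplexConjugate

section BMsec

variable {I : Type} [Fintype I]

/-- bounded measurable -/
def BM (f : (I → ℝ) → ℂ) : Prop := Measurable f ∧ ∃ C : ℝ, ∀ z, ‖f z‖ ≤ C

omit [Fintype I] in
lemma BM.const (c : ℂ) : BM (fun _ : I → ℝ => c) := ⟨measurable_const, ‖c‖, fun _ => le_rfl⟩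

lemma BM.ek (k : I → ℝ) : BM (ek k) := ⟨measurable_ek k, 1, fun z => (norm_ek k z).le⟩

omit [Fintype I] in
lemma BM.add {f g : (I → ℝ) → ℂ} (hf : BM f) (hg : BM g) : BM (fun z => f z + g z) := by
  obtain ⟨h1, C, hC⟩ := hf
  obtain ⟨h2, D, hD⟩ := hg
  exact ⟨h1.add h2, C + D, fun z => (norm_add_le _ _).trans (add_le_add (hC z) (hD z))⟩

omit [Fintype I] in
lemma BM.mul {f g : (I → ℝ) → ℂ} (hf : BM f) (hg : BM g) : BM (fun z => f z * g z) := by
  obtain ⟨h1, C, hC⟩ := hf
  obtain ⟨h2, D, hD⟩ := hg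
  refine ⟨h1.mul h2, C * D, fun z => ?_⟩
  rw [norm_mul]
  exact mul_le_mul (hC z) (hD z) (norm_nonneg _) ((norm_nonneg _).trans (hC z))

omit [Fintype I] in
lemma BM.cmul {f : (I → ℝ) → ℂ} (c : ℂ) (hf : BM f) : BM (fun z => c * f z) :=
  (BM.const c).mul hf

omit [Fintype I] in
lemma BM.neg {f : (I → ℝ) → ℂ} (hf : BM f) : BM (fun z => -f z) := by
  obtain ⟨h1, C, hC⟩ := hf
  exact ⟨h1.neg, C, fun z => by rw [norm_neg]; exact hC z⟩

omit [Fintype I] in
lemma BM.sub {f g : (I → ℝ) → ℂ} (hf : BM f) (hg : BM g) : BM (fun z => f z - g z) := by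
  have h := hf.add hg.neg
  simpa only [← sub_eq_add_neg] using h

omit [Fintype I] in
lemma BM.conj {f : (I → ℝ) → ℂ} (hf : BM f) : BM (fun z => conj (f z)) := by
  obtain ⟨h1, C, hC⟩ := hf
  exact ⟨Complex.continuous_conj.measurable.comp h1, C, fun z => by
    rw [Complex.norm_conj]; exact hC z⟩

omit [Fintype I] in
lemma BM.comp {J : Type} {f : (I → ℝ) → ℂ} (hf : BM f) {g : (J → ℝ) → (I → ℝ)}
    (hg : Measurable g) : BM (fun z => f (g z)) := by
  obtain ⟨h1, C, hC⟩ := hf
  exact ⟨h1.comp hg, C, fun z => hC _⟩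

omit [Fintype I] in
/-- real bounded measurable functions -/
lemma BM.ofReal {f : (I → ℝ) → ℝ} (hf : Measurable f) {C : ℝ} (hC : ∀ z, |f z| ≤ C) :
    BM (fun z => ((f z : ℝ) : ℂ)) :=
  ⟨Complex.measurable_ofReal.comp hf, C, fun z => by
    rw [Complex.norm_real, Real.norm_eq_abs]; exact hC z⟩

omit [Fintype I] in
lemma BM.memLp {f : (I → ℝ) → ℂ} (hf : BM f) (μ : Measure (I → ℝ)) : MemLp f ⊤ μ := by
  obtain ⟨h1, C, hC⟩ := hf
  exact memLp_top_of_bound h1.aestronglyMeasurable C (Eventually.of_forall hC)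

end BMsec

section mulLsec

variable {I : Type} [Fintype I] {F : Type} [NormedAddCommGroup F] [InnerProductSpace ℂ F]

/-- multiplication operator on `L2(gamma; F)` -/
noncomputable def mulL {f : (I → ℝ) → ℂ} (hf : BM f) :
    Lp F 2 (gam I) →L[ℂ] Lp F 2 (gam I) :=
  LinearMap.mkContinuous
    { toFun := fun g => ((hf.memLp (gam I)).toLp f : Lp ℂ ⊤ (gam I)) • g
      map_add' := fun g1 g2 => MeasureTheory.Lp.add_smul _ _ _
      map_smul' := fun c g => by
        rw [RingHom.id_apply]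
        apply Lp.ext
        have h1 := MeasureTheory.Lp.coeFn_lpSMul (r := 2) ((hf.memLp (gam I)).toLp f) (c • g)
        have h2 := MeasureTheory.Lp.coeFn_lpSMul (r := 2) ((hf.memLp (gam I)).toLp f) g
        have h3 := Lp.coeFn_smul c g
        have h4 := Lp.coeFn_smul c (((hf.memLp (gam I)).toLp f : Lp ℂ ⊤ (gam I)) • g : Lp F 2 (gam I))
        filter_upwards [h1, h2, h3, h4] with z e1 e2 e3 e4
        rw [e1, e4, Pi.smul_apply', Pi.smul_apply, e2, e3, Pi.smul_apply, Pi.smul_apply',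
          smul_comm] }
    ‖(hf.memLp (gam I)).toLp f‖ (fun g => MeasureTheory.Lp.norm_smul_le _ _)

lemma coe_mulL {f : (I → ℝ) → ℂ} (hf : BM f) (g : Lp F 2 (gam I)) :
    mulL hf g =ᵐ[gam I] fun z => f z • g z := by
  have h1 := MeasureTheory.Lp.coeFn_lpSMul (r := 2) ((hf.memLp (gam I)).toLp f) g
  have h2 := (hf.memLp (gam I)).coeFn_toLp
  filter_upwards [h1, h2] with z e1 e2
  change (((hf.memLp (gam I)).toLp f : Lp ℂ ⊤ (gam I)) • g : Lp F 2 (gam I)) z = _
  rw [e1, Pi.smul_apply', e2]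

lemma mulL_mul {f g : (I → ℝ) → ℂ} (hf : BM f) (hg : BM g) (x : Lp F 2 (gam I)) :
    mulL (hf.mul hg) x = mulL hf (mulL hg x) := by
  apply Lp.ext
  filter_upwards [coe_mulL (hf.mul hg) x, coe_mulL hf (mulL hg x), coe_mulL hg x] with z e1 e2 e3
  rw [e1, e2, e3, smul_smul]

lemma inner_mulL {f : (I → ℝ) → ℂ} (hf : BM f) (x y : Lp F 2 (gam I)) :
    inner ℂ x (mulL hf y) = ∫ z, f z * inner ℂ (x z) (y z) ∂(gam I) := by
  rw [L2.inner_def]
  refine integral_congr_ae ?_
  filter_upwards [coe_mulL hf y] with z e1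
  rw [e1, inner_smul_right]

lemma norm_mulL_le {f : (I → ℝ) → ℂ} (hf : BM f) {C : ℝ} (hC : ∀ᵐ z ∂(gam I), ‖f z‖ ≤ C)
    (x : Lp F 2 (gam I)) : ‖mulL hf x‖ ≤ C * ‖x‖ := by
  refine Lp.norm_le_mul_norm_of_ae_le_mul ?_
  filter_upwards [coe_mulL hf x, hC] with z e1 e2
  rw [e1, norm_smul]
  exact mul_le_mul_of_nonneg_right e2 (norm_nonneg _)

lemma mulL_congr {f g : (I → ℝ) → ℂ} (hf : BM f) (hg : BM g) (h : f =ᵐ[gam I] g)
    (x : Lp F 2 (gam I)) : mulL hf x = mulL hg x := by
  apply Lp.ext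
  filter_upwards [coe_mulL hf x, coe_mulL hg x, h] with z e1 e2 e3
  rw [e1, e2, e3]

/-- dominated convergence for multiplication operators -/
lemma tendsto_mulL {f : ℕ → (I → ℝ) → ℂ} {g : (I → ℝ) → ℂ} (hf : ∀ n, BM (f n)) (hg : BM g)
    {C : ℝ} (hC : ∀ n, ∀ z, ‖f n z‖ ≤ C) (h : ∀ᵐ z ∂(gam I), Tendsto (fun n => f n z) atTop (𝓝 (g z)))
    (x : Lp F 2 (gam I)) : Tendsto (fun n => mulL (hf n) x) atTop (𝓝 (mulL hg x)) := by
  obtain ⟨D, hD⟩ := hg.2
  rw [tendsto_iff_norm_sub_tendsto_zero]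
  have h1 : ∀ n, ‖mulL (hf n) x - mulL hg x‖ ^ 2 = ∫ z, ‖(f n z - g z) • x z‖ ^ 2 ∂(gam I) := by
    intro n
    have h2 : ‖mulL (hf n) x - mulL hg x‖ ^ 2
        = ∫ z, ‖(mulL (hf n) x - mulL hg x : Lp F 2 (gam I)) z‖ ^ 2 ∂(gam I) := by
      have h3 := L2.inner_def (𝕜 := ℂ) (mulL (hf n) x - mulL hg x) (mulL (hf n) x - mulL hg x)
      rw [inner_self_eq_norm_sq_to_K] at h3
      have h4 : ((‖mulL (hf n) x - mulL hg x‖ ^ 2 : ℝ) : ℂ)
          = ((∫ z, ‖(mulL (hf n) x - mulL hg x : Lp F 2 (gam I)) z‖ ^ 2 ∂(gam I) : ℝ) : ℂ) := by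
        rw [← integral_complex_ofReal]
        push_cast
        refine h3.trans ?_
        refine integral_congr_ae (Eventually.of_forall fun z => ?_)
        simp only
        rw [inner_self_eq_norm_sq_to_K]
        rfl
      exact_mod_cast h4
    rw [h2]
    refine integral_congr_ae ?_
    filter_upwards [coe_mulL (hf n) x, coe_mulL hg x,
      Lp.coeFn_sub (mulL (hf n) x) (mulL hg x)] with z e1 e2 e3
    rw [e3, Pi.sub_apply, e1, e2, sub_smul]
  have h5 : Tendsto (fun n => ‖mulL (hf n) x - mulL hg x‖ ^ 2) atTop (𝓝 0) := by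
    simp_rw [h1]
    have h6 : (0 : ℝ) = ∫ _ : I → ℝ, (0 : ℝ) ∂(gam I) := by simp
    rw [h6]
    refine tendsto_integral_of_dominated_convergence
      (fun z => (C + D) ^ 2 * ‖x z‖ ^ 2) (fun n => ?_) ?_ (fun n => ?_) ?_
    · have m1 : AEStronglyMeasurable (fun z => f n z - g z) (gam I) :=
        ((hf n).1.sub hg.1).aestronglyMeasurable
      exact ((m1.smul (Lp.aestronglyMeasurable x)).norm.pow 2)
    · exact ((memLp_two_iff_integrable_sq_norm (Lp.aestronglyMeasurable x)).1 (Lp.memLp x)).const_mul _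
    · refine Eventually.of_forall fun z => ?_
      rw [Real.norm_eq_abs, abs_of_nonneg (by positivity), norm_smul, mul_pow]
      have : ‖f n z - g z‖ ≤ C + D := (norm_sub_le _ _).trans (add_le_add (hC n z) (hD z))
      gcongr
    · filter_upwards [h] with z hz
      have h7 : Tendsto (fun n => (f n z - g z) • x z) atTop (𝓝 0) := by
        have h8 := (hz.sub_const (g z)).smul_const (x z)
        rwa [sub_self, zero_smul] at h8
      have h9 := (h7.norm).pow 2
      simpa using h9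
  have h10 := h5.sqrt
  rw [Real.sqrt_zero] at h10
  refine h10.congr fun n => ?_
  rw [Real.sqrt_sq (norm_nonneg _)]

end mulLsec

variable {F K : Type} [NormedAddCommGroup F] [InnerProductSpace ℂ F]
  [NormedAddCommGroup K] [InnerProductSpace ℂ K]

/-- real combinations of the fields -/
noncomputable def lc {I : Type} [Fintype I] (w : I → K) (k : I → ℝ) : K :=
  ∑ i, ((k i : ℝ) : ℂ) • w i

section lcsec

variable {I : Type} [Fintype I] (w : I → K)

lemma lc_add (k l : I → ℝ) : lc w (k + l) = lc w k + lc w l := by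
  unfold lc
  rw [← Finset.sum_add_distrib]
  refine Finset.sum_congr rfl fun i _ => ?_
  rw [Pi.add_apply, ofReal_add, add_smul]

lemma lc_neg (k : I → ℝ) : lc w (-k) = -lc w k := by
  unfold lc
  rw [← Finset.sum_neg_distrib]
  refine Finset.sum_congr rfl fun i _ => ?_
  rw [Pi.neg_apply, ofReal_neg, neg_smul]

lemma lc_single [DecidableEq I] (i : I) (c : ℝ) : lc w (Pi.single i c) = ((c : ℝ) : ℂ) • w i := by
  unfold lc
  rw [Finset.sum_eq_single i]
  · simp
  · intro j _ hj
    simp [hj]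
  · simp

/-- component of `a` orthogonal to the fields -/
noncomputable def perp (a : K) : K := a - ∑ i, (inner ℂ (w i) a : ℂ) • w i

variable {w} (hw : Orthonormal ℂ w)

include hw

lemma inner_w_perp (i : I) (a : K) : inner ℂ (w i) (perp w a) = 0 := by
  classical
  unfold perp
  rw [inner_sub_right, inner_sum]
  have h : ∀ j, inner ℂ (w i) ((inner ℂ (w j) a : ℂ) • w j) = if i = j then inner ℂ (w i) a else 0 := by
    intro j
    rw [inner_smul_right, orthonormal_iff_ite.1 hw]
    by_cases hij : i = j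
    · subst hij; simp
    · simp [hij]
  simp only [h, Finset.sum_ite_eq, Finset.mem_univ, if_true, sub_self]

lemma inner_decomp (a b : K) : inner ℂ a b
    = ∑ i, conj (inner ℂ (w i) a : ℂ) * inner ℂ (w i) b + inner ℂ (perp w a) (perp w b) := by
  have ha : a = perp w a + ∑ i, (inner ℂ (w i) a : ℂ) • w i := by unfold perp; abel
  have h1 : inner ℂ (perp w a) b = inner ℂ (perp w a) (perp w b) := by
    have hb : b = perp w b + ∑ i, (inner ℂ (w i) b : ℂ) • w i := by unfold perp; abel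
    conv_lhs => rw [hb]
    rw [inner_add_right, inner_sum]
    have h2 : ∀ i, inner ℂ (perp w a) ((inner ℂ (w i) b : ℂ) • w i) = 0 := by
      intro i
      rw [inner_smul_right, ← inner_conj_symm (perp w a) (w i), inner_w_perp hw, map_zero,
        mul_zero]
    simp [h2]
  conv_lhs => rw [ha]
  rw [inner_add_left, h1, sum_inner, add_comm]
  congr 1
  refine Finset.sum_congr rfl fun i _ => ?_
  rw [inner_smul_left]

lemma perp_lc (k : I → ℝ) : perp w (lc w k) = 0 := by
  classical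
  unfold perp
  have h : ∀ i, inner ℂ (w i) (lc w k) = ((k i : ℝ) : ℂ) := by
    intro i
    unfold lc
    rw [inner_sum, Finset.sum_eq_single i]
    · rw [inner_smul_right, orthonormal_iff_ite.1 hw, if_pos rfl, mul_one]
    · intro j _ hj
      rw [inner_smul_right, orthonormal_iff_ite.1 hw, if_neg (Ne.symm hj), mul_zero]
    · simp
  simp only [h]
  unfold lc
  rw [sub_self]

lemma inner_w_lc (i : I) (k : I → ℝ) : inner ℂ (w i) (lc w k) = ((k i : ℝ) : ℂ) := by
  classical
  unfold lc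
  rw [inner_sum, Finset.sum_eq_single i]
  · rw [inner_smul_right, orthonormal_iff_ite.1 hw, if_pos rfl, mul_one]
  · intro j _ hj
    rw [inner_smul_right, orthonormal_iff_ite.1 hw, if_neg (Ne.symm hj), mul_zero]
  · simp

omit hw in
lemma perp_add (a b : K) : perp w (a + b) = perp w a + perp w b := by
  unfold perp
  simp only [inner_add_right, add_smul, Finset.sum_add_distrib]
  abel

lemma perp_add_lc (a : K) (k : I → ℝ) : perp w (a + lc w k) = perp w a := by
  rw [perp_add, perp_lc hw, add_zero]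

end lcsec

namespace Weyl

variable (S : Weyl F K) {I : Type} [Fintype I]

/-- Schrodinger wave function of the coherent vector `W a Om` in the variables of the fields -/
noncomputable def psw (w : I → K) (a : K) (z : I → ℝ) : ℂ :=
  Complex.exp (∑ i, (Complex.I * inner ℂ (w i) a * z i
    + Complex.I * inner ℂ (w i) a * ((inner ℂ (w i) a : ℂ).im : ℂ)))

lemma measurable_psw (w : I → K) (a : K) : Measurable (psw w a) := by
  unfold psw
  fun_prop

lemma integrable_psw_mul (w : I → K) (a b : K) :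
    Integrable (fun z => conj (psw w a z) * psw w b z) (gam I) := by
  have h := integrable_cexp_pi (I := I)
    (fun i => -(Complex.I * conj (inner ℂ (w i) a : ℂ)) + Complex.I * inner ℂ (w i) b)
    (fun i => -(Complex.I * conj (inner ℂ (w i) a : ℂ) * ((inner ℂ (w i) a : ℂ).im : ℂ))
      + Complex.I * inner ℂ (w i) b * ((inner ℂ (w i) b : ℂ).im : ℂ))
  refine h.congr (Eventually.of_forall fun z => ?_)
  simp only [psw]
  rw [← Complex.exp_conj, ← Complex.exp_add, map_sum, ← Finset.sum_add_distrib]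
  congr 1
  refine Finset.sum_congr rfl fun i _ => ?_
  simp only [map_add, map_mul, Complex.conj_I, Complex.conj_ofReal]
  ring

lemma memLp_psw (w : I → K) (a : K) (c : F) :
    MemLp (fun z => psw w a z • c) 2 (gam I) := by
  have hm : AEStronglyMeasurable (fun z => psw w a z • c) (gam I) :=
    ((measurable_psw w a).stronglyMeasurable.smul_const c).aestronglyMeasurable
  rw [memLp_two_iff_integrable_sq_norm hm]
  have h := ((integrable_psw_mul w a a).norm).mul_const (‖c‖ ^ 2)
  refine h.congr (Eventually.of_forall fun z => ?_)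
  simp only
  rw [norm_smul, norm_mul, Complex.norm_conj]
  ring

/-- image of the coherent vector in `L2(gamma; F)` -/
noncomputable def vv (w : I → K) (a : K) : Lp F 2 (gam I) :=
  (memLp_psw w a (S.W (perp w a) S.Om)).toLp _

lemma coe_vv (w : I → K) (a : K) : S.vv w a =ᵐ[gam I] fun z => psw w a z • S.W (perp w a) S.Om :=
  MemLp.coeFn_toLp _

lemma integral_psw_mul (w : I → K) (a b : K) : ∫ z, conj (psw w a z) * psw w b z ∂(gam I)
    = Complex.exp (∑ i, (Complex.I * ((conj (inner ℂ (w i) a : ℂ) * inner ℂ (w i) b).im : ℂ)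
      - ((‖(inner ℂ (w i) b : ℂ) - inner ℂ (w i) a‖ ^ 2 / 2 : ℝ) : ℂ))) := by
  have h := integral_cexp_pi (I := I)
    (fun i => -(Complex.I * conj (inner ℂ (w i) a : ℂ)) + Complex.I * inner ℂ (w i) b)
    (fun i => -(Complex.I * conj (inner ℂ (w i) a : ℂ) * ((inner ℂ (w i) a : ℂ).im : ℂ))
      + Complex.I * inner ℂ (w i) b * ((inner ℂ (w i) b : ℂ).im : ℂ))
  have h2 : ∀ z : I → ℝ, conj (psw w a z) * psw w b z
      = Complex.exp (∑ i, ((-(Complex.I * conj (inner ℂ (w i) a : ℂ))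
        + Complex.I * inner ℂ (w i) b) * z i
        + (-(Complex.I * conj (inner ℂ (w i) a : ℂ) * ((inner ℂ (w i) a : ℂ).im : ℂ))
        + Complex.I * inner ℂ (w i) b * ((inner ℂ (w i) b : ℂ).im : ℂ)))) := by
    intro z
    simp only [psw]
    rw [← Complex.exp_conj, ← Complex.exp_add, map_sum, ← Finset.sum_add_distrib]
    congr 1
    refine Finset.sum_congr rfl fun i _ => ?_
    simp only [map_add, map_mul, Complex.conj_I, Complex.conj_ofReal]
    ring
  simp_rw [h2]
  rw [h]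
  congr 1
  refine Finset.sum_congr rfl fun i _ => ?_
  generalize (inner ℂ (w i) a : ℂ) = α
  generalize (inner ℂ (w i) b : ℂ) = β
  have hn : (‖β - α‖ ^ 2 : ℝ) = (β.re - α.re) ^ 2 + (β.im - α.im) ^ 2 := by
    rw [← Complex.normSq_eq_norm_sq, Complex.normSq_apply]
    simp
    ring
  rw [hn]
  apply Complex.ext
  · simp [pow_two]
    ring
  · simp [pow_two]
    ring

lemma inner_vv {w : I → K} (hw : Orthonormal ℂ w) (a b : K) :
    inner ℂ (S.W a S.Om) (S.W b S.Om) = inner ℂ (S.vv w a) (S.vv w b) := by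
  rw [L2.inner_def]
  have h1 : ∫ z, inner ℂ (S.vv w a z) (S.vv w b z) ∂(gam I)
      = ∫ z, (conj (psw w a z) * psw w b z) * inner ℂ (S.W (perp w a) S.Om)
        (S.W (perp w b) S.Om) ∂(gam I) := by
    refine integral_congr_ae ?_
    filter_upwards [S.coe_vv w a, S.coe_vv w b] with z e1 e2
    rw [e1, e2, inner_smul_left, inner_smul_right]
    ring
  rw [h1, integral_mul_const, integral_psw_mul, S.inner_W_W, S.inner_W_W, ← Complex.exp_add]
  congr 1
  have h2 := inner_decomp hw a b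
  have h3 : ‖b - a‖ ^ 2 = ∑ i, ‖(inner ℂ (w i) b : ℂ) - inner ℂ (w i) a‖ ^ 2
      + ‖perp w b - perp w a‖ ^ 2 := by
    have h4 := inner_decomp hw (b - a) (b - a)
    have h5 : perp w (b - a) = perp w b - perp w a := by
      have h6 := perp_add (w := w) (b - a) a
      rw [sub_add_cancel] at h6
      rw [h6]
      abel
    rw [h5, inner_self_eq_norm_sq_to_K, inner_self_eq_norm_sq_to_K] at h4
    have h7 := congrArg Complex.re h4
    simp only [inner_sub_right, Complex.add_re, Complex.re_sum] at h7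
    have h8 : ∀ r : ℝ, (((r : ℝ) : ℂ) ^ 2).re = r ^ 2 := by
      intro r
      rw [← Complex.ofReal_pow, Complex.ofReal_re]
    have h9 : ∀ u : ℂ, (conj u * u).re = ‖u‖ ^ 2 := by
      intro u
      rw [mul_comm, Complex.mul_conj, Complex.ofReal_re, Complex.normSq_eq_norm_sq]
    simp only [h9] at h7
    have h10 := h8 ‖b - a‖
    have h11 := h8 ‖perp w b - perp w a‖
    rw [← h10, ← h11]
    exact h7
  rw [h2, h3]
  simp only [Complex.add_im, Complex.im_sum]
  push_cast
  rw [Finset.sum_sub_distrib, ← Finset.mul_sum, ← Finset.sum_div]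
  ring

variable [CompleteSpace F]

section U

variable {w : I → K} (hS : S.Cyc) (hw : Orthonormal ℂ w)

/-- the Schrodinger isometry `F -> L2(gamma; F)` of the fields `w` -/
noncomputable def UU : F →ₗᵢ[ℂ] Lp F 2 (gam I) :=
  Classical.choose (exists_isom (fun a => S.W a S.Om) (fun a => S.vv w a)
    (fun a b => S.inner_vv hw a b) hS)

lemma UU_W (a : K) : S.UU hS hw (S.W a S.Om) = S.vv w a :=
  Classical.choose_spec (exists_isom (fun a => S.W a S.Om) (fun a => S.vv w a)
    (fun a b => S.inner_vv hw a b) hS) a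

omit [CompleteSpace F] in
lemma dense_W (hS : S.Cyc) : Dense ((Submodule.span ℂ (Set.range fun a => S.W a S.Om) :
    Submodule ℂ F) : Set F) := by
  intro x
  have h1 : x ∈ (Submodule.span ℂ (Set.range fun a => S.W a S.Om)).topologicalClosure := by
    rw [hS]; trivial
  exact h1

lemma UU_lc (k : I → ℝ) (x : F) :
    S.UU hS hw (S.W (lc w k) x) = mulL (BM.ek k) (S.UU hS hw x) := by
  have h : ((S.UU hS hw).toContinuousLinearMap.comp
      ((S.W (lc w k)).toContinuousLinearEquiv : F →L[ℂ] F))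
      = (mulL (BM.ek k)).comp (S.UU hS hw).toContinuousLinearMap := by
    refine ContinuousLinearMap.ext_on (S.dense_W hS) ?_
    rintro _ ⟨a, rfl⟩
    change S.UU hS hw (S.W (lc w k) (S.W a S.Om)) = mulL (BM.ek k) (S.UU hS hw (S.W a S.Om))
    rw [S.W_mul, map_smul, S.UU_W, S.UU_W]
    apply Lp.ext
    filter_upwards [Lp.coeFn_smul (Complex.exp (-(Complex.I * ((inner ℂ (lc w k) a).im : ℂ))))
      (S.vv w (lc w k + a)), S.coe_vv w (lc w k + a), coe_mulL (BM.ek k) (S.vv w a),
      S.coe_vv w a] with z e1 e2 e3 e4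
    rw [e1, Pi.smul_apply, e2, e3, e4, smul_smul, smul_smul, add_comm (lc w k) a,
      perp_add_lc hw]
    congr 1
    unfold psw ek
    rw [← Complex.exp_add, ← Complex.exp_add]
    congr 1
    have h1 : ∀ i, inner ℂ (w i) (a + lc w k) = inner ℂ (w i) a + ((k i : ℝ) : ℂ) := by
      intro i
      rw [inner_add_right, inner_w_lc hw]
    have h2 : (inner ℂ (lc w k) a : ℂ).im = ∑ i, k i * (inner ℂ (w i) a : ℂ).im := by
      unfold lc
      rw [sum_inner, Complex.im_sum]
      refine Finset.sum_congr rfl fun i _ => ?_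
      rw [inner_smul_left, Complex.conj_ofReal, Complex.im_ofReal_mul]
    rw [h2]
    push_cast
    simp only [h1, Complex.add_im, Complex.ofReal_im, add_zero]
    rw [Finset.mul_sum, Finset.mul_sum, ← Finset.sum_neg_distrib, ← Finset.sum_add_distrib,
      ← Finset.sum_add_distrib]
    refine Finset.sum_congr rfl fun i _ => ?_
    ring
  exact DFunLike.congr_fun h x

/-- pairing density of two vectors -/
noncomputable def ker (x y : F) (z : I → ℝ) : ℂ :=
  inner ℂ (S.UU hS hw x z) (S.UU hS hw y z)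

lemma integrable_ker (x y : F) : Integrable (S.ker hS hw x y) (gam I) :=
  L2.integrable_inner _ _

/-- the multiplication operators preserve the range of the Schrodinger isometry -/
lemma mulL_range {f : (I → ℝ) → ℂ} (hf : BM f) (y : F) :
    ∃ y', S.UU hS hw y' = mulL hf (S.UU hS hw y) := by
  set R : Submodule ℂ (Lp F 2 (gam I)) := LinearMap.range (S.UU hS hw).toLinearMap with hR
  have hc : IsComplete (R : Set (Lp F 2 (gam I))) := by
    have h1 : (R : Set (Lp F 2 (gam I))) = Set.range (S.UU hS hw) := rfl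
    rw [h1]
    exact (S.UU hS hw).isometry.isUniformInducing.isComplete_range
  have : CompleteSpace R := hc.completeSpace_coe
  have h2 : mulL hf (S.UU hS hw y) ∈ Rᗮᗮ := by
    rw [Submodule.mem_orthogonal]
    intro r hr
    rw [inner_mulL]
    have hint : Integrable (fun z => inner ℂ (r z) (S.UU hS hw y z)) (gam I) :=
      L2.integrable_inner _ _
    have h3 := uniq (f := f) hint (integrable_zero (I → ℝ) ℂ (gam I)) (fun k => ?_) hf.1
      hf.2.choose_spec
    · rw [h3]
      simp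
    · rw [← inner_mulL (BM.ek k), ← S.UU_lc hS hw k y]
      have h4 : inner ℂ (S.UU hS hw (S.W (lc w k) y)) r = 0 :=
        (Submodule.mem_orthogonal R r).1 hr _ ⟨_, rfl⟩
      rw [← inner_conj_symm, h4]
      simp
  rw [Submodule.orthogonal_orthogonal] at h2
  obtain ⟨y', hy'⟩ := h2
  exact ⟨y', hy'⟩

end U

open Classical in
/-- **functional calculus**: `f(phi(w_i), i in I)` -/
noncomputable def fc {w : I → K} (hS : S.Cyc) (hw : Orthonormal ℂ w) (f : (I → ℝ) → ℂ) :
    F →L[ℂ] F :=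
  if h : BM f then (ContinuousLinearMap.adjoint (S.UU hS hw).toContinuousLinearMap).comp
    ((mulL h).comp (S.UU hS hw).toContinuousLinearMap) else 0

section fcsec

variable {w : I → K} (hS : S.Cyc) (hw : Orthonormal ℂ w)

lemma fc_def {f : (I → ℝ) → ℂ} (hf : BM f) (x : F) : S.fc hS hw f x
    = ContinuousLinearMap.adjoint (S.UU hS hw).toContinuousLinearMap
      (mulL hf (S.UU hS hw x)) := by
  unfold fc
  rw [dif_pos hf]
  rfl

lemma adj_UU (x : F) : ContinuousLinearMap.adjoint (S.UU hS hw).toContinuousLinearMap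
    (S.UU hS hw x) = x := by
  apply ext_inner_left ℂ
  intro v
  rw [ContinuousLinearMap.adjoint_inner_right]
  exact (S.UU hS hw).inner_map_map v x

/-- the main formula -/
lemma UU_fc {f : (I → ℝ) → ℂ} (hf : BM f) (x : F) :
    S.UU hS hw (S.fc hS hw f x) = mulL hf (S.UU hS hw x) := by
  obtain ⟨y, hy⟩ := S.mulL_range hS hw hf x
  rw [S.fc_def hS hw hf, ← hy, adj_UU]

lemma inner_fc_right {f : (I → ℝ) → ℂ} (hf : BM f) (x y : F) :
    inner ℂ x (S.fc hS hw f y) = ∫ z, f z * S.ker hS hw x y z ∂(gam I) := by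
  rw [← (S.UU hS hw).inner_map_map x, S.UU_fc hS hw hf, inner_mulL]
  rfl

lemma fc_ek (k : I → ℝ) (x : F) : S.fc hS hw (ek k) x = S.W (lc w k) x := by
  apply (S.UU hS hw).injective
  rw [S.UU_fc hS hw (BM.ek k), S.UU_lc]

lemma fc_mul {f g : (I → ℝ) → ℂ} (hf : BM f) (hg : BM g) (x : F) :
    S.fc hS hw (fun z => f z * g z) x = S.fc hS hw f (S.fc hS hw g x) := by
  apply (S.UU hS hw).injective
  rw [S.UU_fc hS hw (hf.mul hg), S.UU_fc hS hw hf, S.UU_fc hS hw hg, mulL_mul]

lemma fc_comm_fc {f g : (I → ℝ) → ℂ} (hf : BM f) (hg : BM g) (x : F) :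
    S.fc hS hw f (S.fc hS hw g x) = S.fc hS hw g (S.fc hS hw f x) := by
  rw [← S.fc_mul hS hw hf hg, ← S.fc_mul hS hw hg hf]
  congr 2
  funext z
  ring

lemma fc_add {f g : (I → ℝ) → ℂ} (hf : BM f) (hg : BM g) (x : F) :
    S.fc hS hw (fun z => f z + g z) x = S.fc hS hw f x + S.fc hS hw g x := by
  apply (S.UU hS hw).injective
  rw [map_add, S.UU_fc hS hw (hf.add hg), S.UU_fc hS hw hf, S.UU_fc hS hw hg]
  apply Lp.ext
  filter_upwards [coe_mulL (hf.add hg) (S.UU hS hw x), coe_mulL hf (S.UU hS hw x),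
    coe_mulL hg (S.UU hS hw x), Lp.coeFn_add (mulL hf (S.UU hS hw x))
    (mulL hg (S.UU hS hw x))] with z e1 e2 e3 e4
  rw [e1, e4, Pi.add_apply, e2, e3, add_smul]

lemma fc_const (c : ℂ) (x : F) : S.fc hS hw (fun _ => c) x = c • x := by
  apply (S.UU hS hw).injective
  rw [map_smul, S.UU_fc hS hw (BM.const c)]
  apply Lp.ext
  filter_upwards [coe_mulL (BM.const c) (S.UU hS hw x), Lp.coeFn_smul c (S.UU hS hw x)]
    with z e1 e2
  rw [e1, e2, Pi.smul_apply]

lemma fc_one (x : F) : S.fc hS hw (fun _ => 1) x = x := by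
  rw [fc_const, one_smul]

lemma fc_cmul {f : (I → ℝ) → ℂ} (c : ℂ) (hf : BM f) (x : F) :
    S.fc hS hw (fun z => c * f z) x = c • S.fc hS hw f x := by
  rw [S.fc_mul hS hw (BM.const c) hf, fc_const]

lemma fc_neg {f : (I → ℝ) → ℂ} (hf : BM f) (x : F) :
    S.fc hS hw (fun z => -f z) x = -S.fc hS hw f x := by
  have h := S.fc_cmul hS hw (-1) hf x
  rw [neg_one_smul] at h
  rw [← h]
  congr 2
  funext z
  ring

lemma fc_sub {f g : (I → ℝ) → ℂ} (hf : BM f) (hg : BM g) (x : F) :
    S.fc hS hw (fun z => f z - g z) x = S.fc hS hw f x - S.fc hS hw g x := by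
  simp only [sub_eq_add_neg]
  rw [S.fc_add hS hw hf hg.neg, S.fc_neg hS hw hg]

lemma fc_sum {α : Type*} (s : Finset α) {f : α → (I → ℝ) → ℂ} (hf : ∀ a, BM (f a)) (x : F) :
    S.fc hS hw (fun z => ∑ a ∈ s, f a z) x = ∑ a ∈ s, S.fc hS hw (f a) x := by
  classical
  have hb : ∀ s : Finset α, BM (fun z => ∑ a ∈ s, f a z) := by
    intro s
    induction s using Finset.induction_on with
    | empty => simpa using BM.const (I := I) 0
    | insert a s ha ih =>
      simp only [Finset.sum_insert ha]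
      exact (hf a).add ih
  induction s using Finset.induction_on with
  | empty =>
    have h := S.fc_const hS hw 0 x
    simpa using h
  | insert a s ha ih =>
    simp only [Finset.sum_insert ha]
    rw [S.fc_add hS hw (hf a) (hb s), ih]

/-- adjoint -/
lemma inner_fc_left {f : (I → ℝ) → ℂ} (hf : BM f) (x y : F) :
    inner ℂ (S.fc hS hw f x) y = inner ℂ x (S.fc hS hw (fun z => conj (f z)) y) := by
  rw [S.inner_fc_right hS hw hf.conj, ← inner_conj_symm, S.inner_fc_right hS hw hf, ← integral_conj]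
  refine integral_congr_ae (Eventually.of_forall fun z => ?_)
  simp only [map_mul]
  congr 1
  unfold ker
  rw [inner_conj_symm]

lemma norm_fc_le {f : (I → ℝ) → ℂ} (hf : BM f) {C : ℝ} (hC : ∀ᵐ z ∂(gam I), ‖f z‖ ≤ C) (x : F) :
    ‖S.fc hS hw f x‖ ≤ C * ‖x‖ := by
  rw [← (S.UU hS hw).norm_map, S.UU_fc hS hw hf, ← (S.UU hS hw).norm_map x]
  exact norm_mulL_le hf hC _

lemma fc_congr_ae {f g : (I → ℝ) → ℂ} (hf : BM f) (hg : BM g) (h : f =ᵐ[gam I] g) (x : F) :
    S.fc hS hw f x = S.fc hS hw g x := by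
  apply (S.UU hS hw).injective
  rw [S.UU_fc hS hw hf, S.UU_fc hS hw hg]
  exact mulL_congr hf hg h _

/-- **dominated convergence** -/
theorem tendsto_fc {f : ℕ → (I → ℝ) → ℂ} {g : (I → ℝ) → ℂ} (hf : ∀ n, BM (f n)) (hg : BM g)
    {C : ℝ} (hC : ∀ n, ∀ z, ‖f n z‖ ≤ C)
    (h : ∀ᵐ z ∂(gam I), Tendsto (fun n => f n z) atTop (𝓝 (g z))) (x : F) :
    Tendsto (fun n => S.fc hS hw (f n) x) atTop (𝓝 (S.fc hS hw g x)) := by
  have h1 := tendsto_mulL hf hg hC h (S.UU hS hw x)
  have h2 := ((ContinuousLinearMap.adjoint (S.UU hS hw).toContinuousLinearMap).continuous.tendsto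
    _).comp h1
  refine (h2.congr fun n => ?_).trans (by rw [S.fc_def hS hw hg])
  rw [Function.comp, S.fc_def hS hw (hf n)]

/-- operators commuting with the Weyl operators of the fields commute with all functions -/
theorem fc_comm (B : F →L[ℂ] F) (hB : ∀ k x, B (S.W (lc w k) x) = S.W (lc w k) (B x))
    {f : (I → ℝ) → ℂ} (hf : BM f) (x : F) : B (S.fc hS hw f x) = S.fc hS hw f (B x) := by
  apply ext_inner_left ℂ
  intro v
  rw [← ContinuousLinearMap.adjoint_inner_left, S.inner_fc_right hS hw hf,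
    S.inner_fc_right hS hw hf]
  obtain ⟨C, hC⟩ := hf.2
  refine uniq (S.integrable_ker hS hw _ _) (S.integrable_ker hS hw _ _) (fun k => ?_) hf.1 hC
  rw [← S.inner_fc_right hS hw (BM.ek k), ← S.inner_fc_right hS hw (BM.ek k), fc_ek, fc_ek,
    ContinuousLinearMap.adjoint_inner_left, hB]

/-- wave function of the vacuum -/
lemma UU_Om : S.UU hS hw S.Om =ᵐ[gam I] fun _ => S.Om := by
  have h1 : S.W 0 S.Om = S.Om := S.W_zero _
  have h2 := S.UU_W hS hw 0
  rw [h1] at h2
  rw [h2]
  filter_upwards [S.coe_vv w 0] with z e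
  rw [e]
  have h3 : perp w (0 : K) = 0 := by simp [perp]
  rw [h3, h1]
  simp [psw]

lemma UU_fc_Om {f : (I → ℝ) → ℂ} (hf : BM f) :
    S.UU hS hw (S.fc hS hw f S.Om) =ᵐ[gam I] fun z => f z • S.Om := by
  rw [S.UU_fc hS hw hf]
  filter_upwards [coe_mulL hf (S.UU hS hw S.Om), S.UU_Om hS hw] with z e1 e2
  rw [e1, e2]

/-- vacuum expectations are Gaussian integrals -/
theorem inner_fc_Om {f g : (I → ℝ) → ℂ} (hf : BM f) (hg : BM g) :
    inner ℂ (S.fc hS hw f S.Om) (S.fc hS hw g S.Om) = ∫ z, conj (f z) * g z ∂(gam I) := by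
  rw [← (S.UU hS hw).inner_map_map, L2.inner_def]
  refine integral_congr_ae ?_
  filter_upwards [S.UU_fc_Om hS hw hf, S.UU_fc_Om hS hw hg] with z e1 e2
  rw [e1, e2, inner_smul_left, inner_smul_right, inner_self_eq_norm_sq_to_K, S.norm_Om]
  simp

theorem vac_fc {f : (I → ℝ) → ℂ} (hf : BM f) :
    inner ℂ S.Om (S.fc hS hw f S.Om) = ∫ z, f z ∂(gam I) := by
  have h := S.inner_fc_Om hS hw (BM.const 1) hf
  rw [S.fc_one hS hw S.Om] at h
  simpa using h

end fcsec

end Weyl

end Vale.Agent.P367.NI
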