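import Vale.Agent.P367.B.Gauge1
import Vale.Agent.P367.B.LBase

/-! P367: functional calculus, part 4: functions of the gauged fields
`|phi(e0)|, sgn(phi(e0)) phi(y_i)`. -/

namespace Vale.Agent.P367.NI

open Complex MeasureTheory ProbabilityTheory Filter Topology ComplexConjugate

open Vale.Agent.P367.A (Bm)

open Vale.Agent.P367.A.LSys (Bmn)

/-- real sign -/
noncomputable def sgr (t : ℝ) : ℝ := if 0 ≤ t then 1 else -1

lemma sg_eq (t : ℝ) : sg t = ((sgr t : ℝ) : ℂ) := by
  unfold sg sgr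
  split_ifs <;> simp

lemma measurable_sgr : Measurable sgr :=
  Measurable.ite measurableSet_Ici measurable_const measurable_const

/-- gauge map of the variables -/
noncomputable def gth {n : ℕ} (z : Fin (n + 1) → ℝ) : ℝ × (Fin n → ℝ) :=
  (|z 0|, fun i => sgr (z 0) * z (Fin.succ i))

lemma measurable_gth {n : ℕ} : Measurable (gth (n := n)) := by
  unfold gth
  refine Measurable.prodMk ?_ ?_
  · exact continuous_abs.measurable.comp (measurable_pi_apply 0)
  · refine measurable_pi_lambda _ fun i => ?_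
    exact (measurable_sgr.comp (measurable_pi_apply 0)).mul (measurable_pi_apply _)

/-- law of the absolute value of the label -/
noncomputable def muA : Measure ℝ := (gaussianReal 0 1).map (fun t => |t|)

lemma mp_abs : MeasurePreserving (fun t : ℝ => |t|) (gaussianReal 0 1) muA :=
  ⟨continuous_abs.measurable, rfl⟩

instance : IsProbabilityMeasure muA :=
  Measure.isProbabilityMeasure_map continuous_abs.measurable.aemeasurable

lemma mp_sgr (a : ℝ) : MeasurePreserving (fun t : ℝ => sgr a * t) (gaussianReal 0 1)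
    (gaussianReal 0 1) := by
  refine ⟨measurable_const.mul measurable_id, ?_⟩
  have h := gaussianReal_map_const_mul (μ := 0) (v := 1) (sgr a)
  have h2 : NNReal.mk (sgr a ^ 2) (sq_nonneg _) * 1 = 1 := by
    have h3 : sgr a ^ 2 = 1 := by
      unfold sgr
      split_ifs <;> simp
    apply NNReal.coe_injective
    rw [mul_one]
    exact h3
  rw [h2, mul_zero] at h
  exact h

lemma mp_gth (n : ℕ) : MeasurePreserving (gth (n := n)) (gam (Fin (n + 1)))
    (muA.prod (Measure.pi fun _ => gaussianReal 0 1)) := by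
  have h1 := measurePreserving_piFinSuccAbove (fun _ : Fin (n + 1) => gaussianReal 0 1) 0
  have h2 : MeasurePreserving (fun p : ℝ × (Fin n → ℝ) => (|p.1|, fun i => sgr p.1 * p.2 i))
      ((gaussianReal 0 1).prod (Measure.pi fun _ : Fin n => gaussianReal 0 1))
      (muA.prod (Measure.pi fun _ => gaussianReal 0 1)) := by
    refine MeasurePreserving.skew_product (g := fun (a : ℝ) (z : Fin n → ℝ) => fun i => sgr a * z i) mp_abs ?_
      (Eventually.of_forall fun a => ?_)
    · refine measurable_pi_lambda _ fun i => ?_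
      exact (measurable_sgr.comp measurable_fst).mul ((measurable_pi_apply i).comp measurable_snd)
    · exact (measurePreserving_pi (fun _ : Fin n => gaussianReal 0 1)
        (fun _ : Fin n => gaussianReal 0 1) (fun i => mp_sgr a)).map_eq
  exact h2.comp h1

lemma Bmn.bm {n : ℕ} {f : ℝ × (Fin n → ℝ) → ℂ} (hf : Bmn f) :
    BM (fun z : Fin (n + 1) → ℝ => f (gth z)) :=
  ⟨hf.1.comp measurable_gth, hf.2.choose, fun _ => hf.2.choose_spec _⟩

section gf

variable {F K : Type} [NormedAddCommGroup F] [InnerProductSpace ℂ F]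
  [NormedAddCommGroup K] [InnerProductSpace ℂ K] (S : Weyl F K)

/-- label direction followed by the directions `y` -/
def wv {n : ℕ} (y : Fin n → K) : Fin (n + 1) → K := Fin.cons S.e0 y

lemma orthonormal_wv {n : ℕ} {y : Fin n → K} (hy : Orthonormal ℂ y)
    (h0 : ∀ i, inner ℂ S.e0 (y i) = 0) : Orthonormal ℂ (wv S y) := by
  rw [orthonormal_iff_ite] at hy ⊢
  intro i j
  refine Fin.cases ?_ (fun i => ?_) i
  · refine Fin.cases ?_ (fun j => ?_) j
    · rw [if_pos rfl]
      change inner ℂ S.e0 S.e0 = 1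
      rw [inner_self_eq_norm_sq_to_K, S.norm_e0]
      simp
    · rw [if_neg (Fin.succ_ne_zero j).symm]
      exact h0 j
  · refine Fin.cases ?_ (fun j => ?_) j
    · rw [if_neg (Fin.succ_ne_zero i)]
      change inner ℂ (y i) S.e0 = 0
      rw [← inner_conj_symm, h0, map_zero]
    · change inner ℂ (y i) (y j) = _
      rw [hy]
      simp [Fin.succ_inj]

lemma lc_wv {n : ℕ} (y : Fin n → K) (k : Fin (n + 1) → ℝ) :
    lc (wv S y) k = ((k 0 : ℝ) : ℂ) • S.e0 + lc y (fun i => k i.succ) := by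
  unfold lc wv
  rw [Fin.sum_univ_succ]
  rfl

variable [CompleteSpace F] (hS : S.Cyc) {n : ℕ} {y : Fin n → K} (hw : Orthonormal ℂ (wv S y))

/-- functions of the gauged fields -/
noncomputable def gf (f : ℝ × (Fin n → ℝ) → ℂ) : F →L[ℂ] F :=
  S.fc hS hw (fun z => f (gth z))

lemma so_eq (x : F) : so S hS x = S.fc hS hw (fun z => sg (z 0)) x := by
  unfold so lf
  have h := S.fc_sub' hS (orthonormal_e0 S) hw (fun _ : Fin 1 => (0 : Fin (n + 1)))
    (fun _ => rfl) (bm_of bm_sg) x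
  exact h.symm

lemma gf_lab {f : ℝ → ℂ} (hf : Bm f) (x : F) :
    gf S hS hw (fun z => f z.1) x = lf S hS (fun t => f |t|) x := by
  have hb : Bm (fun t => f |t|) :=
    ⟨hf.1.comp continuous_abs.measurable, hf.2.choose, fun _ => hf.2.choose_spec _⟩
  unfold gf lf
  exact S.fc_sub' hS (orthonormal_e0 S) hw (fun _ : Fin 1 => (0 : Fin (n + 1)))
    (fun _ => rfl) (bm_of hb) x

lemma gf_W (k : Fin n → ℝ) (x : F) :
    gf S hS hw (fun z => Complex.exp (Complex.I * ((∑ i, k i * z.2 i : ℝ) : ℂ))) x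
      = wg S hS (lc y k) x := by
  set k' : Fin (n + 1) → ℝ := Fin.cons 0 k with hk'
  have hl : lc (wv S y) k' = lc y k := by
    rw [lc_wv, hk']
    simp
  have hl2 : lc (wv S y) (-k') = -lc y k := by rw [lc_neg, hl]
  have e1 : (fun z : Fin (n + 1) → ℝ =>
      Complex.exp (Complex.I * ((∑ i, k i * (gth z).2 i : ℝ) : ℂ)))
      = fun z => (1 / 2 : ℂ) * (ek k' z + ek (-k') z)
        + (1 / 2 : ℂ) * (sg (z 0) * (ek k' z - ek (-k') z)) := by
    funext z
    have h1 : ek k' z = Complex.exp (Complex.I * ((∑ i, k i * z i.succ : ℝ) : ℂ)) := by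
      unfold ek
      rw [Fin.sum_univ_succ, hk']
      simp
    have h2 : ek (-k') z = Complex.exp (Complex.I * ((-(∑ i, k i * z i.succ) : ℝ) : ℂ)) := by
      unfold ek
      rw [Fin.sum_univ_succ, hk']
      simp
    rw [h1, h2]
    have h3 : (∑ i, k i * (gth z).2 i) = sgr (z 0) * ∑ i, k i * z i.succ := by
      rw [Finset.mul_sum]
      refine Finset.sum_congr rfl fun i _ => ?_
      simp only [gth]
      ring
    rw [h3]
    unfold sgr sg
    split_ifs
    · rw [one_mul]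
      ring
    · rw [neg_one_mul]
      ring
  have b1 : BM (ek k') := BM.ek k'
  have b2 : BM (ek (-k')) := BM.ek (-k')
  have bs : BM (fun z : Fin (n + 1) → ℝ => sg (z 0)) :=
    ⟨bm_sg.1.comp (measurable_pi_apply 0), bm_sg.2.choose, fun _ => bm_sg.2.choose_spec _⟩
  unfold gf
  rw [e1, S.fc_add hS hw ((b1.add b2).cmul _) ((bs.mul (b1.sub b2)).cmul _),
    S.fc_cmul hS hw _ (b1.add b2), S.fc_cmul hS hw _ (bs.mul (b1.sub b2)),
    S.fc_mul hS hw bs (b1.sub b2), S.fc_add hS hw b1 b2, S.fc_sub hS hw b1 b2, ← so_eq S hS hw]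
  have f1 : S.fc hS hw (fun z => ek k' z) x = S.W (lc y k) x := by
    rw [← hl]
    exact S.fc_ek hS hw k' x
  have f2 : S.fc hS hw (fun z => ek (-k') z) x = S.W (-lc y k) x := by
    rw [← hl2]
    exact S.fc_ek hS hw (-k') x
  rw [f1, f2, wg_apply]

lemma gf_add {f g : ℝ × (Fin n → ℝ) → ℂ} (hf : Bmn f) (hg : Bmn g) (x : F) :
    gf S hS hw (fun z => f z + g z) x = gf S hS hw f x + gf S hS hw g x :=
  S.fc_add hS hw (Bmn.bm hf) (Bmn.bm hg) x

lemma gf_mul {f g : ℝ × (Fin n → ℝ) → ℂ} (hf : Bmn f) (hg : Bmn g) (x : F) :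
    gf S hS hw (fun z => f z * g z) x = gf S hS hw f (gf S hS hw g x) :=
  S.fc_mul hS hw (Bmn.bm hf) (Bmn.bm hg) x

lemma gf_adj {f : ℝ × (Fin n → ℝ) → ℂ} (hf : Bmn f) (x x' : F) :
    inner ℂ (gf S hS hw f x) x' = inner ℂ x (gf S hS hw (fun z => conj (f z)) x') :=
  S.inner_fc_left hS hw (Bmn.bm hf) x x'

lemma gf_norm {f : ℝ × (Fin n → ℝ) → ℂ} (hf : Bmn f) {C : ℝ} (hC : ∀ z, ‖f z‖ ≤ C) (x : F) :
    ‖gf S hS hw f x‖ ≤ C * ‖x‖ :=
  S.norm_fc_le hS hw (Bmn.bm hf) (Eventually.of_forall fun _ => hC _) x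

lemma gf_lim {f : ℕ → ℝ × (Fin n → ℝ) → ℂ} {f0 : ℝ × (Fin n → ℝ) → ℂ} {C : ℝ}
    (hf : ∀ m, Bmn (f m)) (hf0 : Bmn f0) (hC : ∀ m z, ‖f m z‖ ≤ C)
    (h : ∀ᵐ z ∂(muA.prod (Measure.pi fun _ : Fin n => gaussianReal 0 1)),
      Tendsto (fun m => f m z) atTop (𝓝 (f0 z))) (x : F) :
    Tendsto (fun m => gf S hS hw (f m) x) atTop (𝓝 (gf S hS hw f0 x)) := by
  refine S.tendsto_fc hS hw (fun m => Bmn.bm (hf m)) (Bmn.bm hf0) (fun m z => hC m _) ?_ x
  exact (mp_gth n).quasiMeasurePreserving.ae h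

lemma gf_vac {f : ℝ × (Fin n → ℝ) → ℂ} (hf : Bmn f) :
    inner ℂ S.Om (gf S hS hw f S.Om)
      = ∫ z, f z ∂(muA.prod (Measure.pi fun _ : Fin n => gaussianReal 0 1)) := by
  unfold gf
  rw [S.vac_fc hS hw (Bmn.bm hf), ← (mp_gth n).map_eq,
    integral_map measurable_gth.aemeasurable hf.1.aestronglyMeasurable]

end gf

end Vale.Agent.P367.NI
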