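import Vale.Agent.P367.NI.FCg

/-! P367: functional calculus, part 5: lift of the gauged fields to the one-site space, and
operators commuting with them. -/

namespace Vale.Agent.P367.NI

open Complex MeasureTheory ProbabilityTheory Filter Topology ComplexConjugate

open Vale.Agent.P367.A (Bm)

open Vale.Agent.P367.A.LSys (Bmn)

variable {F K : Type} [NormedAddCommGroup F] [InnerProductSpace ℂ F]
  [NormedAddCommGroup K] [InnerProductSpace ℂ K]

/-- diagonal lift of an operator to the one-site space -/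
noncomputable def dlc (A : F →L[ℂ] F) : HH F →L[ℂ] HH F :=
  LinearMap.mkContinuous
    { toFun := fun x => WithLp.toLp 2 (A x.fst, A x.snd)
      map_add' := fun x y => by
        refine Weyl.HH_ext' ?_ ?_
        · exact map_add A _ _
        · exact map_add A _ _
      map_smul' := fun c x => by
        refine Weyl.HH_ext' ?_ ?_
        · exact map_smul A _ _
        · exact map_smul A _ _ } ‖A‖ (fun x => by
    refine (sq_le_sq₀ (norm_nonneg _) (mul_nonneg (norm_nonneg _) (norm_nonneg _))).1 ?_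
    rw [mul_pow, normsq_HH, normsq_HH x]
    have h1 := A.le_opNorm x.fst
    have h2 := A.le_opNorm x.snd
    have h3 := pow_le_pow_left₀ (norm_nonneg _) h1 2
    have h4 := pow_le_pow_left₀ (norm_nonneg _) h2 2
    rw [mul_pow] at h3 h4
    rw [mul_add]
    exact add_le_add h3 h4)

lemma dlc_fst (A : F →L[ℂ] F) (x : HH F) : (dlc A x).fst = A x.fst := rfl

lemma dlc_snd (A : F →L[ℂ] F) (x : HH F) : (dlc A x).snd = A x.snd := rfl

lemma norm_dlc_le {A : F →L[ℂ] F} {C : ℝ} (hC : ∀ x, ‖A x‖ ≤ C * ‖x‖) (x : HH F) (h0 : 0 ≤ C) :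
    ‖dlc A x‖ ≤ C * ‖x‖ := by
  refine (sq_le_sq₀ (norm_nonneg _) (mul_nonneg h0 (norm_nonneg _))).1 ?_
  rw [mul_pow, normsq_HH, normsq_HH x]
  have h3 := pow_le_pow_left₀ (norm_nonneg _) (hC x.fst) 2
  have h4 := pow_le_pow_left₀ (norm_nonneg _) (hC x.snd) 2
  rw [mul_pow] at h3 h4
  rw [mul_add]
  exact add_le_add h3 h4

lemma tendsto_dlc {A : ℕ → F →L[ℂ] F} {B : F →L[ℂ] F}
    (h : ∀ x, Tendsto (fun m => A m x) atTop (𝓝 (B x))) (x : HH F) :
    Tendsto (fun m => dlc (A m) x) atTop (𝓝 (dlc B x)) :=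
  tendsto_HH (h x.fst) (h x.snd)

section g

variable (S : Weyl F K) [CompleteSpace F] (hS : S.Cyc) {n : ℕ} {y : Fin n → K}
  (hw : Orthonormal ℂ (wv S y))

/-- the functional calculus of the gauged fields on the one-site space -/
noncomputable def gfH (f : ℝ × (Fin n → ℝ) → ℂ) : HH F →L[ℂ] HH F := dlc (gf S hS hw f)

lemma gfH_add {f g : ℝ × (Fin n → ℝ) → ℂ} (hf : Bmn f) (hg : Bmn g) :
    gfH S hS hw (fun z => f z + g z) = gfH S hS hw f + gfH S hS hw g := by
  ext1 x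
  refine Weyl.HH_ext' ?_ ?_
  · exact gf_add S hS hw hf hg _
  · exact gf_add S hS hw hf hg _

lemma gfH_mul {f g : ℝ × (Fin n → ℝ) → ℂ} (hf : Bmn f) (hg : Bmn g) :
    gfH S hS hw (fun z => f z * g z) = gfH S hS hw f * gfH S hS hw g := by
  ext1 x
  refine Weyl.HH_ext' ?_ ?_
  · exact gf_mul S hS hw hf hg _
  · exact gf_mul S hS hw hf hg _

lemma gfH_adj {f : ℝ × (Fin n → ℝ) → ℂ} (hf : Bmn f) (x x' : HH F) :
    inner ℂ (gfH S hS hw f x) x' = inner ℂ x (gfH S hS hw (fun z => conj (f z)) x') := by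
  rw [inner_HH, inner_HH]
  exact congrArg₂ (· + ·) (gf_adj S hS hw hf _ _) (gf_adj S hS hw hf _ _)

lemma gfH_norm {f : ℝ × (Fin n → ℝ) → ℂ} (hf : Bmn f) {C : ℝ} (hC : ∀ z, ‖f z‖ ≤ C) (x : HH F) :
    ‖gfH S hS hw f x‖ ≤ C * ‖x‖ :=
  norm_dlc_le (fun x => gf_norm S hS hw hf hC x) x ((norm_nonneg _).trans (hC (0, 0)))

lemma gfH_lim {f : ℕ → ℝ × (Fin n → ℝ) → ℂ} {f0 : ℝ × (Fin n → ℝ) → ℂ} {C : ℝ}
    (hf : ∀ m, Bmn (f m)) (hf0 : Bmn f0) (hC : ∀ m z, ‖f m z‖ ≤ C)
    (h : ∀ᵐ z ∂(muA.prod (Measure.pi fun _ : Fin n => gaussianReal 0 1)),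
      Tendsto (fun m => f m z) atTop (𝓝 (f0 z))) (x : HH F) :
    Tendsto (fun m => gfH S hS hw (f m) x) atTop (𝓝 (gfH S hS hw f0 x)) :=
  tendsto_dlc (fun x => gf_lim S hS hw hf hf0 hC h x) x

lemma gfH_vac {f : ℝ × (Fin n → ℝ) → ℂ} (hf : Bmn f) :
    inner ℂ S.OmH (gfH S hS hw f S.OmH)
      = ∫ z, f z ∂(muA.prod (Measure.pi fun _ : Fin n => gaussianReal 0 1)) := by
  rw [NI.inner_HH]
  show inner ℂ ((((Real.sqrt 2)⁻¹ : ℝ) : ℂ) • S.Om)
      (gf S hS hw f ((((Real.sqrt 2)⁻¹ : ℝ) : ℂ) • S.Om)) +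
    inner ℂ ((((Real.sqrt 2)⁻¹ : ℝ) : ℂ) • S.Om)
      (gf S hS hw f ((((Real.sqrt 2)⁻¹ : ℝ) : ℂ) • S.Om)) = _
  rw [map_smul, inner_smul_left, inner_smul_right, Complex.conj_ofReal, gf_vac S hS hw hf,
    ← mul_assoc, A.sqrt_two_inv_sq]
  ring

/-- gauge map with values in the index set of the fields -/
noncomputable def gk (z : Fin (n + 1) → ℝ) : Fin (n + 1) → ℝ :=
  Fin.cons |z 0| (fun i => sgr (z 0) * z (Fin.succ i))

omit [NormedAddCommGroup F] in
lemma measurable_gk : Measurable (gk (n := n)) := by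
  refine measurable_pi_lambda _ fun i => ?_
  refine Fin.cases ?_ (fun i => ?_) i
  · exact continuous_abs.measurable.comp (measurable_pi_apply 0)
  · exact (measurable_sgr.comp (measurable_pi_apply 0)).mul (measurable_pi_apply _)

/-- pairing density on the one-site space -/
noncomputable def kerH (x x' : HH F) (z : Fin (n + 1) → ℝ) : ℂ :=
  S.ker hS hw x.fst x'.fst z + S.ker hS hw x.snd x'.snd z

lemma integrable_kerH (x x' : HH F) : Integrable (kerH S hS hw x x') (gam (Fin (n + 1))) :=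
  (S.integrable_ker hS hw _ _).add (S.integrable_ker hS hw _ _)

lemma inner_gfH {f : ℝ × (Fin n → ℝ) → ℂ} (hf : Bmn f) (x x' : HH F) :
    inner ℂ x (gfH S hS hw f x')
      = ∫ z, f (gth z) * kerH S hS hw x x' z ∂(gam (Fin (n + 1))) := by
  have hi : ∀ u v : F, Integrable (fun z => f (gth z) * S.ker hS hw u v z) (gam (Fin (n + 1))) :=
    fun u v => integrable_mul_bdd (S.integrable_ker hS hw u v)
      (Bmn.bm hf).1.aestronglyMeasurable (Eventually.of_forall fun z => hf.2.choose_spec _)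
  rw [inner_HH]
  have h1 : inner ℂ x.fst (gfH S hS hw f x').fst
      = ∫ z, f (gth z) * S.ker hS hw x.fst x'.fst z ∂(gam (Fin (n + 1))) :=
    S.inner_fc_right hS hw (Bmn.bm hf) _ _
  have h2 : inner ℂ x.snd (gfH S hS hw f x').snd
      = ∫ z, f (gth z) * S.ker hS hw x.snd x'.snd z ∂(gam (Fin (n + 1))) :=
    S.inner_fc_right hS hw (Bmn.bm hf) _ _
  rw [h1, h2, ← integral_add (hi _ _) (hi _ _)]
  refine integral_congr_ae (Eventually.of_forall fun z => ?_)
  simp only [kerH]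
  ring

/-- exponential functions of the label and of the fields -/
noncomputable def ekp (k : Fin (n + 1) → ℝ) (z : ℝ × (Fin n → ℝ)) : ℂ :=
  Complex.exp (Complex.I * ((k 0 * z.1 : ℝ) : ℂ))
    * Complex.exp (Complex.I * ((∑ i : Fin n, k i.succ * z.2 i : ℝ) : ℂ))

omit [NormedAddCommGroup F] in
lemma ek_gk (k z : Fin (n + 1) → ℝ) : ek k (gk z) = ekp k (gth z) := by
  unfold ek ekp
  rw [← Complex.exp_add, Fin.sum_univ_succ, ← mul_add, ← Complex.ofReal_add]
  rfl

omit [NormedAddCommGroup F] in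
lemma norm_exp_Iof (r : ℝ) : ‖Complex.exp (Complex.I * ((r : ℝ) : ℂ))‖ = 1 := by
  rw [mul_comm, Complex.norm_exp_ofReal_mul_I]

omit [NormedAddCommGroup F] in
lemma bm_e (a : ℝ) : Bm fun t => Complex.exp (Complex.I * ((a * t : ℝ) : ℂ)) :=
  ⟨by fun_prop, 1, fun t => (norm_exp_Iof _).le⟩

lemma bmn_e1 (a : ℝ) :
    Bmn fun z : ℝ × (Fin n → ℝ) => Complex.exp (Complex.I * ((a * z.1 : ℝ) : ℂ)) :=
  ⟨by fun_prop, 1, fun t => (norm_exp_Iof _).le⟩

lemma bmn_e2 (k : Fin n → ℝ) :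
    Bmn fun z : ℝ × (Fin n → ℝ) => Complex.exp (Complex.I * ((∑ i, k i * z.2 i : ℝ) : ℂ)) :=
  ⟨by fun_prop, 1, fun t => (norm_exp_Iof _).le⟩

lemma bmn_ekp (k : Fin (n + 1) → ℝ) : Bmn (ekp k) := by
  refine ⟨(bmn_e1 (k 0)).1.mul (bmn_e2 (fun i => k i.succ)).1, 1, fun z => ?_⟩
  unfold ekp
  rw [norm_mul, mul_comm Complex.I, mul_comm Complex.I, Complex.norm_exp_ofReal_mul_I,
    Complex.norm_exp_ofReal_mul_I, one_mul]

/-- an operator commuting with the label functions and the gauged Weyl operators of the fields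
commutes with the functional calculus -/
theorem gfH_comm (B : HH F →L[ℂ] HH F)
    (hl : ∀ g, Bm g → ∀ x, gfH S hS hw (fun z => g z.1) (B x) = B (gfH S hS hw (fun z => g z.1) x))
    (hW : ∀ (k : Fin n → ℝ) x,
      gfH S hS hw (fun z => Complex.exp (Complex.I * ((∑ i, k i * z.2 i : ℝ) : ℂ))) (B x)
        = B (gfH S hS hw (fun z => Complex.exp (Complex.I * ((∑ i, k i * z.2 i : ℝ) : ℂ))) x))
    {f : ℝ × (Fin n → ℝ) → ℂ} (hf : Bmn f) :
    gfH S hS hw f * B = B * gfH S hS hw f := by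
  ext1 x
  apply ext_inner_left ℂ
  intro v
  change inner ℂ v (gfH S hS hw f (B x)) = inner ℂ v (B (gfH S hS hw f x))
  rw [← ContinuousLinearMap.adjoint_inner_left B, inner_gfH S hS hw hf, inner_gfH S hS hw hf]
  obtain ⟨C, hC⟩ := hf.2
  set f' : (Fin (n + 1) → ℝ) → ℂ := fun z => f (z 0, fun i => z i.succ) with hf'
  have hm : Measurable f' := by
    refine hf.1.comp (Measurable.prodMk (measurable_pi_apply 0) ?_)
    exact measurable_pi_lambda _ fun i => measurable_pi_apply _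
  have h := uniq2 (X := gk) (Y := gk) (integrable_kerH S hS hw v (B x))
    (integrable_kerH S hS hw (ContinuousLinearMap.adjoint B v) x) measurable_gk measurable_gk
    (fun k => ?_) hm (C := C) (fun z => hC _)
  · exact h
  · simp only [ek_gk]
    rw [← inner_gfH S hS hw (bmn_ekp k), ← inner_gfH S hS hw (bmn_ekp k),
      ContinuousLinearMap.adjoint_inner_left]
    have e : ∀ x, gfH S hS hw (ekp k) x
        = gfH S hS hw (fun z => Complex.exp (Complex.I * ((k 0 * z.1 : ℝ) : ℂ)))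
          (gfH S hS hw (fun z => Complex.exp (Complex.I * ((∑ i : Fin n, k i.succ * z.2 i : ℝ) : ℂ)))
            x) := by
      intro x
      have h := gfH_mul S hS hw (bmn_e1 (n := n) (k 0)) (bmn_e2 (fun i : Fin n => k i.succ))
      exact DFunLike.congr_fun h x
    rw [e, e, hW (fun i => k i.succ)]
    congr 1
    exact hl _ (bm_e (k 0)) _

end g

end Vale.Agent.P367.NI
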