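import Vale.Agent.P367.NI.FC

/-! P367: functional calculus of commuting fields, part 2: translation by Weyl operators,
subfamilies, unitary functions and the matrix version on the one-site space. -/

namespace Vale.Agent.P367.NI

open Complex MeasureTheory ProbabilityTheory Filter Topology ComplexConjugate

variable {F K : Type} [NormedAddCommGroup F] [InnerProductSpace ℂ F]
  [NormedAddCommGroup K] [InnerProductSpace ℂ K]

namespace Weyl

variable (S : Weyl F K) {I : Type} [Fintype I] [CompleteSpace F]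

omit [CompleteSpace F] in
lemma inner_W_left' (v : K) (x y : F) : inner ℂ (S.W v x) y = inner ℂ x (S.W (-v) y) := by
  have h := (S.W v).inner_map_map x (S.W (-v) y)
  have h2 : S.W v (S.W (-v) y) = y := by
    have h3 := S.W_neg_W (-v) y
    rwa [neg_neg] at h3
  rwa [h2] at h

section a

variable {w : I → K} (hS : S.Cyc) (hw : Orthonormal ℂ w)

/-- a Weyl operator conjugates functions of the fields into their translates -/
theorem fc_shift (v : K) {f : (I → ℝ) → ℂ} (hf : BM f) (x : F) :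
    S.W (-v) (S.fc hS hw f (S.W v x))
      = S.fc hS hw (fun z => f (fun i => z i + 2 * (inner ℂ v (w i) : ℂ).im)) x := by
  have hm : Measurable fun z : I → ℝ => fun i => z i + 2 * (inner ℂ v (w i) : ℂ).im := by
    fun_prop
  obtain ⟨C, hC⟩ := hf.2
  apply ext_inner_left ℂ
  intro y
  rw [← S.inner_W_left' v, S.inner_fc_right hS hw hf,
    S.inner_fc_right hS hw (hf.comp hm)]
  refine uniq2 (S.integrable_ker hS hw _ _) (S.integrable_ker hS hw _ _) measurable_id hm
    (fun k => ?_) hf.1 hC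
  have h1 : ∫ z, ek k (id z) * S.ker hS hw (S.W v y) (S.W v x) z ∂(gam I)
      = inner ℂ y (S.W (-v) (S.W (lc w k) (S.W v x))) := by
    simp only [id]
    rw [← S.inner_fc_right hS hw (BM.ek k), fc_ek, S.inner_W_left' v]
  rw [h1]
  have h2 : S.W (-v) (S.W (lc w k) (S.W v x))
      = Complex.exp (2 * Complex.I * ((inner ℂ v (lc w k) : ℂ).im : ℂ)) • S.W (lc w k) x := by
    rw [S.W_mul (lc w k) v, map_smul, S.W_mul, smul_smul, ← Complex.exp_add]
    have e1 : -v + (lc w k + v) = lc w k := by abel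
    rw [e1]
    congr 2
    rw [inner_neg_left, inner_add_right, Complex.neg_im, Complex.add_im]
    have e2 : (inner ℂ v v : ℂ).im = 0 := by
      rw [inner_self_eq_norm_sq_to_K]
      simp [← Complex.ofReal_pow]
    have e3 : (inner ℂ (lc w k) v : ℂ).im = -(inner ℂ v (lc w k) : ℂ).im := by
      rw [← inner_conj_symm, Complex.conj_im]
    rw [e2, e3]
    push_cast
    ring
  rw [h2, inner_smul_right, ← S.fc_ek hS hw, S.inner_fc_right hS hw (BM.ek k),
    ← integral_const_mul]
  refine integral_congr_ae (Eventually.of_forall fun z => ?_)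
  simp only
  rw [← mul_assoc]
  congr 1
  unfold ek
  rw [← Complex.exp_add]
  congr 1
  have e4 : (inner ℂ v (lc w k) : ℂ).im = ∑ i, k i * (inner ℂ v (w i) : ℂ).im := by
    unfold lc
    rw [inner_sum, Complex.im_sum]
    refine Finset.sum_congr rfl fun i _ => ?_
    rw [inner_smul_right, Complex.im_ofReal_mul]
  rw [e4]
  simp only [mul_add, Finset.sum_add_distrib]
  push_cast
  rw [mul_add, add_comm]
  congr 1
  rw [Finset.mul_sum, Finset.mul_sum]
  refine Finset.sum_congr rfl fun i _ => ?_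
  ring


/-- functions of a subfamily -/
theorem fc_sub' {J : Type} [Fintype J] {w' : J → K} (hw' : Orthonormal ℂ w') (s : I → J)
    (hs : ∀ i, w' (s i) = w i) {f : (I → ℝ) → ℂ} (hf : BM f) (x : F) :
    S.fc hS hw' (fun z => f (fun i => z (s i))) x = S.fc hS hw f x := by
  classical
  have hm : Measurable fun z : J → ℝ => fun i => z (s i) := by fun_prop
  obtain ⟨C, hC⟩ := hf.2
  apply ext_inner_left ℂ
  intro y
  rw [S.inner_fc_right hS hw' (hf.comp hm), S.inner_fc_right hS hw hf]
  refine uniq2 (S.integrable_ker hS hw' _ _) (S.integrable_ker hS hw _ _) hm measurable_id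
    (fun k => ?_) hf.1 hC
  have h1 : ∀ z : J → ℝ, ek k (fun i => z (s i)) = ek (fun j => ∑ i, if s i = j then k i else 0) z := by
    intro z
    unfold ek
    congr 3
    simp only [Finset.sum_mul]
    rw [Finset.sum_comm]
    refine Finset.sum_congr rfl fun i _ => ?_
    rw [Finset.sum_eq_single (s i)]
    · rw [if_pos rfl]
    · intro j _ hj
      rw [if_neg (Ne.symm hj), zero_mul]
    · simp
  simp_rw [h1]
  rw [← S.inner_fc_right hS hw' (BM.ek _), fc_ek]
  simp only [id]
  rw [← S.inner_fc_right hS hw (BM.ek k), fc_ek]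
  congr 3
  unfold lc
  simp only [Complex.ofReal_sum, Finset.sum_smul]
  rw [Finset.sum_comm]
  refine Finset.sum_congr rfl fun i _ => ?_
  rw [Finset.sum_eq_single (s i)]
  · rw [if_pos rfl, hs]
  · intro j _ hj
    rw [if_neg (Ne.symm hj)]
    simp
  · simp

/-- unitary operator of a function of modulus one -/
noncomputable def fcU {f : (I → ℝ) → ℂ} (hf : BM f) (h1 : ∀ z, ‖f z‖ = 1) : F ≃ₗᵢ[ℂ] F where
  toFun := S.fc hS hw f
  invFun := S.fc hS hw (fun z => conj (f z))
  map_add' := map_add _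
  map_smul' := map_smul _
  left_inv x := by
    rw [← S.fc_mul hS hw hf.conj hf]
    have h : (fun z => conj (f z) * f z) = fun _ => (1 : ℂ) := by
      funext z
      rw [← Complex.normSq_eq_conj_mul_self, Complex.normSq_eq_norm_sq, h1]
      simp
    rw [h, fc_one]
  right_inv x := by
    rw [← S.fc_mul hS hw hf hf.conj]
    have h : (fun z => f z * conj (f z)) = fun _ => (1 : ℂ) := by
      funext z
      rw [Complex.mul_conj, Complex.normSq_eq_norm_sq, h1]
      simp
    rw [h, fc_one]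
  norm_map' x := by
    change ‖S.fc hS hw f x‖ = ‖x‖
    have h : inner ℂ (S.fc hS hw f x) (S.fc hS hw f x) = inner ℂ x x := by
      rw [S.inner_fc_left hS hw hf, ← S.fc_mul hS hw hf.conj hf]
      have h : (fun z => conj (f z) * f z) = fun _ => (1 : ℂ) := by
        funext z
        rw [← Complex.normSq_eq_conj_mul_self, Complex.normSq_eq_norm_sq, h1]
        simp
      rw [h, fc_one]
    rw [inner_self_eq_norm_sq_to_K, inner_self_eq_norm_sq_to_K] at h
    have h2 : ‖S.fc hS hw f x‖ ^ 2 = ‖x‖ ^ 2 := by exact_mod_cast h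
    exact (sq_eq_sq₀ (norm_nonneg _) (norm_nonneg _)).1 h2

@[simp] lemma fcU_apply {f : (I → ℝ) → ℂ} (hf : BM f) (h1 : ∀ z, ‖f z‖ = 1) (x : F) :
    S.fcU hS hw hf h1 x = S.fc hS hw f x := rfl

lemma fcU_symm_apply {f : (I → ℝ) → ℂ} (hf : BM f) (h1 : ∀ z, ‖f z‖ = 1) (x : F) :
    (S.fcU hS hw hf h1).symm x = S.fc hS hw (fun z => conj (f z)) x := rfl

end a

end Weyl

section mat

variable {I : Type} [Fintype I]

/-- bounded measurable matrices -/
def MB (u : (I → ℝ) → Matrix (Fin 2) (Fin 2) ℂ) : Prop := ∀ i j, BM fun z => u z i j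

/-- measurable unitary matrices -/
structure UM (u : (I → ℝ) → Matrix (Fin 2) (Fin 2) ℂ) : Prop where
  meas : ∀ i j, Measurable fun z => u z i j
  uni : ∀ z, u z ∈ Matrix.unitaryGroup (Fin 2) ℂ

omit [Fintype I] in
lemma UM.le {u : (I → ℝ) → Matrix (Fin 2) (Fin 2) ℂ} (hu : UM u) (i j : Fin 2) (z : I → ℝ) :
    ‖u z i j‖ ≤ 1 := entry_norm_bound_of_unitary (hu.uni z) i j

omit [Fintype I] in
lemma UM.mb {u : (I → ℝ) → Matrix (Fin 2) (Fin 2) ℂ} (hu : UM u) : MB u :=
  fun i j => ⟨hu.meas i j, 1, hu.le i j⟩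

omit [Fintype I] in
lemma MB.star {u : (I → ℝ) → Matrix (Fin 2) (Fin 2) ℂ} (hu : MB u) : MB fun z => star (u z) :=
  fun i j => by simpa [Matrix.star_apply] using (hu j i).conj

omit [Fintype I] in
lemma MB.mul {u v : (I → ℝ) → Matrix (Fin 2) (Fin 2) ℂ} (hu : MB u) (hv : MB v) :
    MB fun z => u z * v z := fun i j => by
  simp only [Matrix.mul_apply, Fin.sum_univ_two]
  exact ((hu i 0).mul (hv 0 j)).add ((hu i 1).mul (hv 1 j))

omit [Fintype I] in
lemma MB.const (m : Matrix (Fin 2) (Fin 2) ℂ) : MB fun _ : I → ℝ => m := fun i j => BM.const _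

omit [Fintype I] in
lemma UM.star {u : (I → ℝ) → Matrix (Fin 2) (Fin 2) ℂ} (hu : UM u) : UM fun z => star (u z) where
  meas i j := (hu.mb.star i j).1
  uni z := Unitary.star_mem (hu.uni z)

omit [Fintype I] in
lemma UM.mul {u v : (I → ℝ) → Matrix (Fin 2) (Fin 2) ℂ} (hu : UM u) (hv : UM v) :
    UM fun z => u z * v z where
  meas i j := (hu.mb.mul hv.mb i j).1
  uni z := mul_mem (hu.uni z) (hv.uni z)

omit [Fintype I] in
lemma UM.one : UM fun _ : I → ℝ => (1 : Matrix (Fin 2) (Fin 2) ℂ) where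
  meas i j := measurable_const
  uni _ := one_mem _

end mat

namespace Weyl

variable (S : Weyl F K) {I : Type} [Fintype I] [CompleteSpace F]
  {w : I → K} (hS : S.Cyc) (hw : Orthonormal ℂ w)

/-- matrix valued functions of the fields acting on the one-site space -/
noncomputable def fcH (u : (I → ℝ) → Matrix (Fin 2) (Fin 2) ℂ) : HH F →ₗ[ℂ] HH F where
  toFun x := WithLp.toLp 2
    (S.fc hS hw (fun z => u z 0 0) x.fst + S.fc hS hw (fun z => u z 0 1) x.snd,
     S.fc hS hw (fun z => u z 1 0) x.fst + S.fc hS hw (fun z => u z 1 1) x.snd)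
  map_add' x y := by
    apply (WithLp.equiv 2 (F × F)).injective
    refine Prod.ext ?_ ?_
    · simp only [WithLp.equiv_apply, WithLp.add_fst, WithLp.add_snd, map_add, WithLp.ofLp_add,
        Prod.fst_add]
      abel
    · simp only [WithLp.equiv_apply, WithLp.add_fst, WithLp.add_snd, map_add, WithLp.ofLp_add,
        Prod.snd_add]
      abel
  map_smul' c x := by
    apply (WithLp.equiv 2 (F × F)).injective
    refine Prod.ext ?_ ?_
    · simp only [WithLp.equiv_apply, WithLp.smul_fst, WithLp.smul_snd, map_smul, RingHom.id_apply,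
        WithLp.ofLp_smul, Prod.smul_fst, smul_add]
    · simp only [WithLp.equiv_apply, WithLp.smul_fst, WithLp.smul_snd, map_smul, RingHom.id_apply,
        WithLp.ofLp_smul, Prod.smul_snd, smul_add]

lemma fcH_fst (u : (I → ℝ) → Matrix (Fin 2) (Fin 2) ℂ) (x : HH F) : (S.fcH hS hw u x).fst
    = S.fc hS hw (fun z => u z 0 0) x.fst + S.fc hS hw (fun z => u z 0 1) x.snd := rfl

lemma fcH_snd (u : (I → ℝ) → Matrix (Fin 2) (Fin 2) ℂ) (x : HH F) : (S.fcH hS hw u x).snd
    = S.fc hS hw (fun z => u z 1 0) x.fst + S.fc hS hw (fun z => u z 1 1) x.snd := rfl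

omit [CompleteSpace F] in
lemma HH_ext' {x y : HH F} (h1 : x.fst = y.fst) (h2 : x.snd = y.snd) : x = y := by
  apply (WithLp.equiv 2 (F × F)).injective
  exact Prod.ext h1 h2

lemma fcH_mul {u v : (I → ℝ) → Matrix (Fin 2) (Fin 2) ℂ} (hu : MB u) (hv : MB v) (x : HH F) :
    S.fcH hS hw (fun z => u z * v z) x = S.fcH hS hw u (S.fcH hS hw v x) := by
  have key : ∀ i j, ∀ y : F, S.fc hS hw (fun z => (u z * v z) i j) y
      = S.fc hS hw (fun z => u z i 0) (S.fc hS hw (fun z => v z 0 j) y)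
        + S.fc hS hw (fun z => u z i 1) (S.fc hS hw (fun z => v z 1 j) y) := by
    intro i j y
    simp only [Matrix.mul_apply, Fin.sum_univ_two]
    rw [S.fc_add hS hw ((hu i 0).mul (hv 0 j)) ((hu i 1).mul (hv 1 j)),
      S.fc_mul hS hw (hu i 0) (hv 0 j), S.fc_mul hS hw (hu i 1) (hv 1 j)]
  refine HH_ext' ?_ ?_
  · rw [fcH_fst, fcH_fst, key, key, fcH_fst, fcH_snd, map_add, map_add]
    abel
  · rw [fcH_snd, fcH_snd, key, key, fcH_fst, fcH_snd, map_add, map_add]
    abel

lemma fcH_one (x : HH F) : S.fcH hS hw (fun _ => 1) x = x := by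
  refine HH_ext' ?_ ?_
  · rw [fcH_fst]
    simp only [Matrix.one_apply_eq, Matrix.one_apply_ne (show (0 : Fin 2) ≠ 1 by decide)]
    rw [fc_one, fc_const, zero_smul, add_zero]
  · rw [fcH_snd]
    simp only [Matrix.one_apply_eq, Matrix.one_apply_ne (show (1 : Fin 2) ≠ 0 by decide)]
    rw [fc_one, fc_const, zero_smul, zero_add]

lemma inner_fcH_left {u : (I → ℝ) → Matrix (Fin 2) (Fin 2) ℂ} (hu : MB u) (x y : HH F) :
    inner ℂ (S.fcH hS hw u x) y = inner ℂ x (S.fcH hS hw (fun z => star (u z)) y) := by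
  have hst : ∀ i j, (fun z => (star (u z)) i j) = fun z => conj (u z j i) := by
    intro i j
    funext z
    rw [Matrix.star_apply]
    rfl
  rw [inner_HH, inner_HH, fcH_fst, fcH_snd, fcH_fst, fcH_snd]
  simp only [hst]
  rw [inner_add_left, inner_add_left, inner_add_right, inner_add_right,
    S.inner_fc_left hS hw (hu 0 0), S.inner_fc_left hS hw (hu 0 1),
    S.inner_fc_left hS hw (hu 1 0), S.inner_fc_left hS hw (hu 1 1)]
  ring

/-- **unitary matrix functions of the fields** -/
noncomputable def fcM {u : (I → ℝ) → Matrix (Fin 2) (Fin 2) ℂ} (hu : UM u) :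
    HH F ≃ₗᵢ[ℂ] HH F where
  toFun := S.fcH hS hw u
  invFun := S.fcH hS hw (fun z => star (u z))
  map_add' := map_add _
  map_smul' := map_smul _
  left_inv x := by
    rw [← S.fcH_mul hS hw hu.mb.star hu.mb]
    have h : (fun z => star (u z) * u z) = fun _ => 1 := by
      funext z
      exact (Unitary.mem_iff.1 (hu.uni z)).1
    rw [h, fcH_one]
  right_inv x := by
    rw [← S.fcH_mul hS hw hu.mb hu.mb.star]
    have h : (fun z => u z * star (u z)) = fun _ => 1 := by
      funext z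
      exact (Unitary.mem_iff.1 (hu.uni z)).2
    rw [h, fcH_one]
  norm_map' x := by
    change ‖S.fcH hS hw u x‖ = ‖x‖
    have h : inner ℂ (S.fcH hS hw u x) (S.fcH hS hw u x) = inner ℂ x x := by
      rw [S.inner_fcH_left hS hw hu.mb, ← S.fcH_mul hS hw hu.mb.star hu.mb]
      have h : (fun z => star (u z) * u z) = fun _ => 1 := by
        funext z
        exact (Unitary.mem_iff.1 (hu.uni z)).1
      rw [h, fcH_one]
    rw [inner_self_eq_norm_sq_to_K, inner_self_eq_norm_sq_to_K] at h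
    have h2 : ‖S.fcH hS hw u x‖ ^ 2 = ‖x‖ ^ 2 := by exact_mod_cast h
    exact (sq_eq_sq₀ (norm_nonneg _) (norm_nonneg _)).1 h2

lemma fcM_apply {u : (I → ℝ) → Matrix (Fin 2) (Fin 2) ℂ} (hu : UM u) (x : HH F) :
    S.fcM hS hw hu x = S.fcH hS hw u x := rfl

lemma fcM_symm_apply {u : (I → ℝ) → Matrix (Fin 2) (Fin 2) ℂ} (hu : UM u) (x : HH F) :
    (S.fcM hS hw hu).symm x = S.fcH hS hw (fun z => star (u z)) x := rfl

lemma fcM_mul {u v : (I → ℝ) → Matrix (Fin 2) (Fin 2) ℂ} (hu : UM u) (hv : UM v) (x : HH F) :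
    S.fcM hS hw (hu.mul hv) x = S.fcM hS hw hu (S.fcM hS hw hv x) :=
  S.fcH_mul hS hw hu.mb hv.mb x

/-- **a.e. convergence of the matrices gives strong convergence of the operators** -/
theorem tendsto_fcM {u : ℕ → (I → ℝ) → Matrix (Fin 2) (Fin 2) ℂ}
    {v : (I → ℝ) → Matrix (Fin 2) (Fin 2) ℂ} (hu : ∀ n, UM (u n)) (hv : UM v)
    (h : ∀ᵐ z ∂(gam I), ∀ i j, Tendsto (fun n => u n z i j) atTop (𝓝 (v z i j))) (x : HH F) :
    Tendsto (fun n => S.fcM hS hw (hu n) x) atTop (𝓝 (S.fcM hS hw hv x)) := by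
  have key : ∀ i j, ∀ y : F, Tendsto (fun n => S.fc hS hw (fun z => u n z i j) y) atTop
      (𝓝 (S.fc hS hw (fun z => v z i j) y)) := by
    intro i j y
    refine S.tendsto_fc hS hw (fun n => (hu n).mb i j) (hv.mb i j) (C := 1)
      (fun n z => (hu n).le i j z) ?_ y
    filter_upwards [h] with z hz using hz i j
  refine tendsto_HH ?_ ?_
  · exact (key 0 0 x.fst).add (key 0 1 x.snd)
  · exact (key 1 0 x.fst).add (key 1 1 x.snd)

/-- matrix of `exp(-i b X)` -/
noncomputable def mX (b : ℝ) : Matrix (Fin 2) (Fin 2) ℂ :=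
  !![(Real.cos b : ℂ), -(Complex.I * (Real.sin b : ℂ)); -(Complex.I * (Real.sin b : ℂ)),
    (Real.cos b : ℂ)]

lemma fcH_mX (b : ℝ) (x : HH F) : S.fcH hS hw (fun _ => mX b) x = xr b x := by
  refine HH_ext' ?_ ?_
  · rw [fcH_fst]
    simp only [mX, Matrix.of_apply, Matrix.cons_val', Matrix.cons_val_zero, Matrix.cons_val_one,
      Matrix.cons_val_fin_one]
    rw [fc_const, fc_const]
    change _ = (Real.cos b : ℂ) • x.fst - (Complex.I * (Real.sin b : ℂ)) • x.snd
    rw [neg_smul, sub_eq_add_neg]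
  · rw [fcH_snd]
    simp only [mX, Matrix.of_apply, Matrix.cons_val', Matrix.cons_val_zero, Matrix.cons_val_one,
      Matrix.cons_val_fin_one]
    rw [fc_const, fc_const]
    change _ = -((Complex.I * (Real.sin b : ℂ)) • x.fst) + (Real.cos b : ℂ) • x.snd
    rw [neg_smul]

/-- matrix of `exp(-i Z k.z)` -/
noncomputable def mZ (k z : I → ℝ) : Matrix (Fin 2) (Fin 2) ℂ := !![ek (-k) z, 0; 0, ek k z]

lemma fcH_mZ (k : I → ℝ) (x : HH F) : S.fcH hS hw (mZ k) x = S.zr (lc w k) x := by
  refine HH_ext' ?_ ?_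
  · rw [fcH_fst]
    simp only [mZ, Matrix.of_apply, Matrix.cons_val', Matrix.cons_val_zero, Matrix.cons_val_one,
      Matrix.cons_val_fin_one]
    rw [fc_const, zero_smul, add_zero]
    have h : (fun z => ek (-k) z) = ek (-k) := rfl
    rw [h, fc_ek, lc_neg]
    rfl
  · rw [fcH_snd]
    simp only [mZ, Matrix.of_apply, Matrix.cons_val', Matrix.cons_val_zero, Matrix.cons_val_one,
      Matrix.cons_val_fin_one]
    rw [fc_const, zero_smul, zero_add]
    have h : (fun z => ek k z) = ek k := rfl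
    rw [h, fc_ek]
    rfl

end Weyl

end Vale.Agent.P367.NI
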