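import Vale.Agent.P367.NI.FCm

/-! P367: functional calculus, part 3: the vectors `f(phi(w)) Om`. -/

namespace Vale.Agent.P367.NI

open Complex MeasureTheory ProbabilityTheory Filter Topology ComplexConjugate

variable {F K : Type} [NormedAddCommGroup F] [InnerProductSpace ℂ F]
  [NormedAddCommGroup K] [InnerProductSpace ℂ K]

namespace Weyl

variable (S : Weyl F K) {I : Type} [Fintype I] [CompleteSpace F]
  {w : I → K} (hS : S.Cyc) (hw : Orthonormal ℂ w)

/-- inner product with the Weyl vectors of the fields -/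
theorem inner_W_fc_Om (k : I → ℝ) {f : (I → ℝ) → ℂ} (hf : BM f) :
    inner ℂ (S.W (lc w k) S.Om) (S.fc hS hw f S.Om) = ∫ z, ek (-k) z * f z ∂(gam I) := by
  rw [← S.fc_ek hS hw, S.inner_fc_Om hS hw (BM.ek k) hf]
  simp only [conj_ek]

/-- `f(phi(w)) Om` lies in the closed span of the Weyl vectors of the fields -/
theorem fc_Om_mem {f : (I → ℝ) → ℂ} (hf : BM f) : S.fc hS hw f S.Om ∈
    (Submodule.span ℂ (Set.range fun k : I → ℝ => S.W (lc w k) S.Om)).topologicalClosure := by
  set M : Submodule ℂ F := Submodule.span ℂ (Set.range fun k : I → ℝ => S.W (lc w k) S.Om) with hM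
  have : CompleteSpace M.topologicalClosure :=
    (Submodule.isClosed_topologicalClosure M).isComplete.completeSpace_coe
  rw [← Submodule.orthogonal_orthogonal_eq_closure, Submodule.mem_orthogonal]
  intro r hr
  rw [S.inner_fc_right hS hw hf]
  obtain ⟨C, hC⟩ := hf.2
  have h := uniq (S.integrable_ker hS hw r S.Om) (integrable_zero (I → ℝ) ℂ (gam I))
    (fun k => ?_) hf.1 hC
  · rw [h]
    simp
  · rw [← S.inner_fc_right hS hw (BM.ek k), fc_ek]
    have h1 : S.W (lc w k) S.Om ∈ M := Submodule.subset_span ⟨k, rfl⟩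
    have h2 := (Submodule.mem_orthogonal M r).1 hr _ h1
    rw [← inner_conj_symm, h2]
    simp

end Weyl

end Vale.Agent.P367.NI
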