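import Vale.Agent.P367.NI.Defs

/-! P367: Fock space by exponential vectors. -/

namespace Vale.Agent.P367.NI

open Complex UniformSpace ComplexConjugate
open scoped ComplexOrder Matrix

section Fock

variable {K : Type} [NormedAddCommGroup K] [InnerProductSpace ℂ K]

lemma gram_pos : (Matrix.of fun a b : K => (inner ℂ a b : ℂ)).PosSemidef := by
  refine ⟨?_, fun x => ?_⟩
  · ext a b
    simp [Matrix.conjTranspose_apply]
  · have h : (x.sum fun i xi => x.sum fun j xj => star xi
        * (Matrix.of fun a b : K => (inner ℂ a b : ℂ)) i j * xj)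
        = inner ℂ (x.sum fun i xi => xi • i) (x.sum fun i xi => xi • i) := by
      rw [Finsupp.sum_inner]
      refine Finsupp.sum_congr fun i _ => ?_
      rw [Finsupp.inner_sum]
      refine Finsupp.sum_congr fun j _ => ?_
      simp only [Matrix.of_apply, RCLike.star_def, inner_smul_left, inner_smul_right]
      ring
    rw [h, inner_self_eq_norm_sq_to_K]
    have : (0 : ℝ) ≤ ‖x.sum fun i xi => xi • i‖ ^ 2 := by positivity
    have h2 := Complex.zero_le_real.2 this
    simp

lemma gramPow_pos (n : ℕ) : (Matrix.of fun a b : K => (inner ℂ a b : ℂ) ^ n).PosSemidef := by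
  induction n with
  | zero =>
    refine ⟨?_, fun x => ?_⟩
    · ext a b
      simp [Matrix.conjTranspose_apply]
    · have h : (x.sum fun i xi => x.sum fun j xj => star xi
          * (Matrix.of fun a b : K => (inner ℂ a b : ℂ) ^ 0) i j * xj)
          = star (x.sum fun _ xi => xi) * (x.sum fun _ xi => xi) := by
        rw [star_finsuppSum, Finsupp.sum_mul]
        refine Finsupp.sum_congr fun i _ => ?_
        rw [Finsupp.mul_sum]
        refine Finsupp.sum_congr fun j _ => ?_
        simp
      rw [h]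
      exact star_mul_self_nonneg _
  | succ n ih =>
    have h := ih.hadamard (gram_pos (K := K))
    convert! h using 1

lemma exp_pos (x : K →₀ ℂ) :
    0 ≤ RCLike.re (x.sum fun a z => x.sum fun b w => conj z * w * Complex.exp (inner ℂ a b)) := by
  have h1 : HasSum (fun n : ℕ => x.sum fun a z => x.sum fun b w => conj z * w *
      ((n.factorial : ℂ)⁻¹ * (inner ℂ a b : ℂ) ^ n))
      (x.sum fun a z => x.sum fun b w => conj z * w * Complex.exp (inner ℂ a b)) := by
    unfold Finsupp.sum
    refine hasSum_sum fun a _ => hasSum_sum fun b _ => HasSum.mul_left _ ?_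
    rw [Complex.exp_eq_exp_ℂ]
    have := NormedSpace.exp_series_hasSum_exp' (𝕂 := ℂ) (inner ℂ a b : ℂ)
    simpa [smul_eq_mul] using this
  have h2 := h1.mapL (RCLike.reCLM (K := ℂ))
  refine h2.nonneg fun n => ?_
  have h3 := (gramPow_pos (K := K) n).2 x
  have h4 : (x.sum fun a z => x.sum fun b w => conj z * w *
      ((n.factorial : ℂ)⁻¹ * (inner ℂ a b : ℂ) ^ n))
      = ((n.factorial : ℝ)⁻¹ : ℝ) * (x.sum fun i xi => x.sum fun j xj => star xi
        * (Matrix.of fun a b : K => (inner ℂ a b : ℂ) ^ n) i j * xj) := by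
    rw [Finsupp.mul_sum]
    refine Finsupp.sum_congr fun i _ => ?_
    rw [Finsupp.mul_sum]
    refine Finsupp.sum_congr fun j _ => ?_
    simp only [Matrix.of_apply, RCLike.star_def]
    push_cast
    ring
  simp only [RCLike.reCLM_apply]
  rw [h4]
  have h5 := (RCLike.nonneg_iff.1 h3).1
  rw [show (((n.factorial : ℝ)⁻¹ : ℝ) : ℂ) = (((n.factorial : ℝ)⁻¹ : ℝ) : ℂ) from rfl]
  rw [RCLike.re_to_complex, Complex.re_ofReal_mul]
  have : 0 ≤ ((n.factorial : ℝ)⁻¹ : ℝ) := by positivity
  exact mul_nonneg this h5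

/-- sesquilinear form of the exponential kernel -/
noncomputable def ip (f g : K →₀ ℂ) : ℂ :=
  f.sum fun a z => g.sum fun b w => conj z * w * Complex.exp (inner ℂ a b)

lemma ip_conj (f g : K →₀ ℂ) : conj (ip g f) = ip f g := by
  unfold ip
  rw [map_finsuppSum]
  simp_rw [map_finsuppSum]
  rw [Finsupp.sum_comm]
  refine Finsupp.sum_congr fun i _ => Finsupp.sum_congr fun j _ => ?_
  rw [map_mul, map_mul, Complex.conj_conj, ← Complex.exp_conj, inner_conj_symm]
  ring

lemma ip_add (f g h : K →₀ ℂ) : ip (f + g) h = ip f h + ip g h := by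
  unfold ip
  rw [Finsupp.sum_add_index']
  · intro a
    simp [Finsupp.sum]
  · intro a b₁ b₂
    rw [← Finsupp.sum_add]
    refine Finsupp.sum_congr fun j _ => ?_
    rw [map_add]
    ring

lemma ip_smul (f g : K →₀ ℂ) (r : ℂ) : ip (r • f) g = conj r * ip f g := by
  unfold ip
  rw [Finsupp.sum_smul_index]
  · rw [Finsupp.mul_sum]
    refine Finsupp.sum_congr fun i _ => ?_
    rw [Finsupp.mul_sum]
    refine Finsupp.sum_congr fun j _ => ?_
    rw [map_mul]
    ring
  · intro i
    simp [Finsupp.sum]

lemma ip_single (a b : K) (z w : ℂ) : ip (Finsupp.single a z) (Finsupp.single b w)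
    = conj z * w * Complex.exp (inner ℂ a b) := by
  unfold ip
  rw [Finsupp.sum_single_index, Finsupp.sum_single_index]
  · simp
  · simp [Finsupp.sum]

variable (K) in
/-- finitely supported functions, the span of the exponential vectors -/
def EV : Type := K →₀ ℂ

namespace EV

noncomputable instance : AddCommGroup (EV K) := inferInstanceAs (AddCommGroup (K →₀ ℂ))
noncomputable instance : Module ℂ (EV K) := inferInstanceAs (Module ℂ (K →₀ ℂ))

noncomputable instance core : PreInnerProductSpace.Core ℂ (EV K) where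
  inner f g := ip f g
  conj_inner_symm f g := ip_conj f g
  add_left f g h := ip_add f g h
  smul_left f g r := ip_smul f g r
  re_inner_nonneg f := exp_pos f

noncomputable instance : SeminormedAddCommGroup (EV K) :=
  InnerProductSpace.Core.toSeminormedAddCommGroup (𝕜 := ℂ)

noncomputable instance : InnerProductSpace ℂ (EV K) := .ofCore _

/-- exponential vector times a scalar -/
noncomputable def e (a : K) (z : ℂ) : EV K := Finsupp.single a z

lemma inner_e (a b : K) (z w : ℂ) :
    inner ℂ (e a z) (e b w) = conj z * w * Complex.exp (inner ℂ a b) := by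
  exact ip_single a b z w

omit [NormedAddCommGroup K] [InnerProductSpace ℂ K] in
lemma induction {p : EV K → Prop} (f : EV K) (h0 : p 0) (hadd : ∀ f g, p f → p g → p (f + g))
    (he : ∀ a z, p (e a z)) : p f :=
  Finsupp.induction_linear f h0 hadd he

/-- multiplier -/
noncomputable def mu (c a : K) : ℂ :=
  Complex.exp (-((‖c‖ ^ 2 / 2 : ℝ) : ℂ) - inner ℂ c a)

/-- Weyl operator on the span of the exponential vectors -/
noncomputable def W0 (c : K) : EV K →ₗ[ℂ] EV K :=
  Finsupp.lsum ℂ (fun a => (mu c a) • (Finsupp.lsingle (c + a) : ℂ →ₗ[ℂ] (K →₀ ℂ)))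

lemma W0_e (c a : K) (z : ℂ) : W0 c (e a z) = e (c + a) (mu c a * z) := by
  change Finsupp.lsum ℂ (fun a => (mu c a) • (Finsupp.lsingle (c + a) : ℂ →ₗ[ℂ] (K →₀ ℂ)))
    (Finsupp.single a z) = Finsupp.single (c + a) (mu c a * z)
  rw [Finsupp.lsum_single]
  simp

lemma inner_W0 (c : K) (f g : EV K) : inner ℂ (W0 c f) (W0 c g) = (inner ℂ f g : ℂ) := by
  induction f using EV.induction with
  | h0 => simp
  | hadd f₁ f₂ h₁ h₂ => rw [map_add, inner_add_left, inner_add_left, h₁, h₂]
  | he a z =>
    induction g using EV.induction with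
    | h0 => simp
    | hadd g₁ g₂ h₁ h₂ => rw [map_add, inner_add_right, inner_add_right, h₁, h₂]
    | he b w =>
      rw [W0_e, W0_e, inner_e, inner_e, map_mul]
      unfold mu
      rw [← Complex.exp_conj]
      have h : conj (-((‖c‖ ^ 2 / 2 : ℝ) : ℂ) - inner ℂ c a)
          + (-((‖c‖ ^ 2 / 2 : ℝ) : ℂ) - inner ℂ c b) + inner ℂ (c + a) (c + b)
          = (inner ℂ a b : ℂ) := by
        rw [map_sub, map_neg, Complex.conj_ofReal, inner_conj_symm, inner_add_left,
          inner_add_right, inner_add_right, inner_self_eq_norm_sq_to_K]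
        push_cast
        simp only [Complex.coe_algebraMap]
        ring
      calc _ = conj z * w * Complex.exp (conj (-((‖c‖ ^ 2 / 2 : ℝ) : ℂ) - inner ℂ c a)
          + (-((‖c‖ ^ 2 / 2 : ℝ) : ℂ) - inner ℂ c b) + inner ℂ (c + a) (c + b)) := by
            rw [Complex.exp_add, Complex.exp_add]; ring
        _ = _ := by rw [h]

lemma W0_neg (c : K) (f : EV K) : W0 (-c) (W0 c f) = f := by
  induction f using EV.induction with
  | h0 => simp
  | hadd f g hf hg => rw [map_add, map_add, hf, hg]
  | he a z =>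
    rw [W0_e, W0_e, neg_add_cancel_left]
    unfold mu
    rw [← mul_assoc, ← Complex.exp_add]
    have h : -((‖-c‖ ^ 2 / 2 : ℝ) : ℂ) - inner ℂ (-c) (c + a)
        + (-((‖c‖ ^ 2 / 2 : ℝ) : ℂ) - inner ℂ c a) = 0 := by
      rw [norm_neg, inner_neg_left, inner_add_right, inner_self_eq_norm_sq_to_K]
      push_cast
      simp only [Complex.coe_algebraMap]
      ring
    rw [h, Complex.exp_zero, one_mul]

lemma W0_mul (a b : K) (f : EV K) : W0 a (W0 b f)
    = Complex.exp (-(Complex.I * ((inner ℂ a b).im : ℂ))) • W0 (a + b) f := by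
  induction f using EV.induction with
  | h0 => simp
  | hadd f g hf hg => rw [map_add, map_add, map_add, hf, hg, smul_add]
  | he c z =>
    rw [W0_e, W0_e, W0_e, ← add_assoc]
    have h1 : Complex.exp (-(Complex.I * ((inner ℂ a b).im : ℂ))) • e (a + b + c) (mu (a + b) c * z)
        = e (a + b + c) (Complex.exp (-(Complex.I * ((inner ℂ a b).im : ℂ))) * (mu (a + b) c * z)) := by
      change Complex.exp (-(Complex.I * ((inner ℂ a b).im : ℂ))) • (Finsupp.single (a + b + c)
        (mu (a + b) c * z) : K →₀ ℂ) = _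
      rw [Finsupp.smul_single]
      rfl
    rw [h1]
    congr 1
    unfold mu
    rw [← mul_assoc, ← mul_assoc, ← Complex.exp_add, ← Complex.exp_add]
    congr 2
    have h2 : ((‖a + b‖ ^ 2 / 2 : ℝ) : ℂ) = ((‖a‖ ^ 2 / 2 : ℝ) : ℂ) + ((‖b‖ ^ 2 / 2 : ℝ) : ℂ)
        + ((inner ℂ a b).re : ℂ) := by
      have := @norm_add_sq ℂ K _ _ _ a b
      rw [RCLike.re_to_complex] at this
      rw [this]
      push_cast
      ring
    have h3 : (inner ℂ a b : ℂ) = ((inner ℂ a b).re : ℂ) + Complex.I * ((inner ℂ a b).im : ℂ) := by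
      rw [mul_comm Complex.I]
      exact (Complex.re_add_im _).symm
    rw [h2, inner_add_left, inner_add_right]
    linear_combination -h3

/-- Weyl operator as a linear isometry equivalence -/
noncomputable def W1 (c : K) : EV K ≃ₗᵢ[ℂ] EV K where
  toLinearEquiv := LinearEquiv.ofLinearMap (W0 c) (W0 (-c))
    (by
      ext1 f
      have := W0_neg (-c) f
      rwa [neg_neg] at this)
    (by
      ext1 f
      exact W0_neg c f)
  norm_map' f := by
    change ‖W0 c f‖ = ‖f‖
    rw [@norm_eq_sqrt_re_inner ℂ, inner_W0, ← @norm_eq_sqrt_re_inner ℂ]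

end EV

end Fock

end Vale.Agent.P367.NI
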