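import Vale.Agent.P367.Lim.LT3

namespace Vale.Agent.P367.NI

open Finset ComplexConjugate MeasureTheory ProbabilityTheory Filter Topology
open Vale.Agent.P367.Gap Vale.Agent.P367.Lim

lemma integrable_lin {ι : Type*} [Fintype ι] (d : ι → ℝ) :
    Integrable (fun J : ι → ℝ => ∑ e, d e * J e) (Measure.pi fun _ => gaussianReal 0 1) := by
  refine integrable_finsetSum _ fun e _ => Integrable.const_mul ?_ _
  have h : Integrable (fun x : ℝ => x) (gaussianReal 0 1) := by
    have := memLp_id_gaussianReal (μ := 0) (v := 1) 1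
    exact memLp_one_iff_integrable.1 this
  exact integrable_comp_eval (μ := fun _ : ι => gaussianReal 0 1) (i := e) h

/-- Gaussian integration by parts against an exponential -/
lemma gauss_ibp {ι : Type*} [Fintype ι] (c d : ι → ℝ) :
    ∫ J : ι → ℝ, ((∑ e, d e * J e : ℝ) : ℂ) * Complex.exp (-(Complex.I * ((∑ e, c e * J e : ℝ) : ℂ)))
      ∂(Measure.pi fun _ => gaussianReal 0 1)
      = -(Complex.I * ((∑ e, d e * c e : ℝ) : ℂ)) * Complex.exp (-((1 / 2 * ∑ e, c e ^ 2 : ℝ) : ℂ)) := by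
  set ν : Measure (ι → ℝ) := Measure.pi fun _ => gaussianReal 0 1 with hν
  let F : ℝ → (ι → ℝ) → ℂ := fun t J =>
    Complex.exp (-(Complex.I * ((∑ e, (c e + t * d e) * J e : ℝ) : ℂ)))
  let F' : ℝ → (ι → ℝ) → ℂ := fun t J =>
    -(Complex.I * ((∑ e, d e * J e : ℝ) : ℂ)) * F t J
  have hF : ∀ t, Integrable (F t) ν := fun t => integrable_exp_lin _
  have hnorm : ∀ t J, ‖F t J‖ = 1 := fun t J => norm_exp_neg_I _
  have hderiv : ∀ t J, HasDerivAt (fun t => F t J) (F' t J) t := by
    intro t J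
    have h1 : HasDerivAt (fun t : ℝ => -(Complex.I * ((∑ e, (c e + t * d e) * J e : ℝ) : ℂ)))
        (-(Complex.I * ((∑ e, d e * J e : ℝ) : ℂ))) t := by
      have h2 : HasDerivAt (fun t : ℝ => ∑ e, (c e + t * d e) * J e) (∑ e, d e * J e) t := by
        refine HasDerivAt.fun_sum fun e _ => ?_
        have := ((hasDerivAt_id t).mul_const (d e)).const_add (c e)
        simpa using this.mul_const (J e)
      exact (h2.ofReal_comp.const_mul Complex.I).neg
    have h3 := h1.cexp
    simp only [F', F]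
    rw [mul_comm]
    exact h3
  have hmain := (hasDerivAt_integral_of_dominated_loc_of_deriv_le (μ := ν) (F := F) (F' := F')
    (x₀ := 0) (s := Set.univ) (bound := fun J => ‖(∑ e, d e * J e : ℝ)‖) Filter.univ_mem
    (Filter.Eventually.of_forall fun t => (hF t).aestronglyMeasurable) (hF 0)
    (by
      have hc : Continuous (F' 0) := by
        simp only [F', F]
        fun_prop
      exact hc.aestronglyMeasurable)
    (Filter.Eventually.of_forall fun J t _ => by
      simp only [F']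
      rw [norm_mul, hnorm, mul_one, norm_neg, norm_mul, Complex.norm_I, one_mul,
        Complex.norm_real])
    (integrable_lin d).norm
    (Filter.Eventually.of_forall fun J t _ => hderiv t J)).2
  have hval : ∀ t, ∫ J, F t J ∂ν = Complex.exp (-((1 / 2 * ∑ e, (c e + t * d e) ^ 2 : ℝ) : ℂ)) :=
    fun t => gauss_char _
  have hd2 : HasDerivAt (fun t : ℝ => Complex.exp (-((1 / 2 * ∑ e, (c e + t * d e) ^ 2 : ℝ) : ℂ)))
      (-((∑ e, d e * c e : ℝ) : ℂ) * Complex.exp (-((1 / 2 * ∑ e, c e ^ 2 : ℝ) : ℂ))) 0 := by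
    have h2 : HasDerivAt (fun t : ℝ => 1 / 2 * ∑ e, (c e + t * d e) ^ 2) (∑ e, d e * c e) 0 := by
      have h3 : HasDerivAt (fun t : ℝ => ∑ e, (c e + t * d e) ^ 2) (∑ e, 2 * (d e * c e)) 0 := by
        refine HasDerivAt.fun_sum fun e _ => ?_
        have h4 := (((hasDerivAt_id (0 : ℝ)).mul_const (d e)).const_add (c e)).pow 2
        refine h4.congr_deriv ?_
        simp
        ring
      refine (h3.const_mul (1 / 2)).congr_deriv ?_
      rw [← mul_sum]
      ring
    have h5 := (h2.ofReal_comp.neg).cexp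
    refine h5.congr_deriv ?_
    have h10 : ∑ e, (c e + 0 * d e) ^ 2 = ∑ e, c e ^ 2 := by simp
    rw [mul_comm]
    congr 1
    rw [Pi.neg_apply, h10]
  have h6 : HasDerivAt (fun t : ℝ => ∫ J, F t J ∂ν)
      (-((∑ e, d e * c e : ℝ) : ℂ) * Complex.exp (-((1 / 2 * ∑ e, c e ^ 2 : ℝ) : ℂ))) 0 := by
    refine hd2.congr_of_eventuallyEq (Filter.Eventually.of_forall fun t => hval t)
  have h7 := hmain.unique h6
  have h8 : ∫ J, F' 0 J ∂ν = -Complex.I * ∫ J : ι → ℝ, ((∑ e, d e * J e : ℝ) : ℂ) *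
      Complex.exp (-(Complex.I * ((∑ e, c e * J e : ℝ) : ℂ))) ∂ν := by
    rw [← integral_const_mul]
    congr 1
    funext J
    simp only [F', F, zero_mul, add_zero]
    ring
  rw [h8] at h7
  have h9 : (-Complex.I) * Complex.I = 1 := by rw [neg_mul, Complex.I_mul_I, neg_neg]
  calc _ = Complex.I * (-Complex.I * ∫ J : ι → ℝ, ((∑ e, d e * J e : ℝ) : ℂ) *
      Complex.exp (-(Complex.I * ((∑ e, c e * J e : ℝ) : ℂ))) ∂ν) := by
        rw [← mul_assoc, mul_comm Complex.I (-Complex.I), h9, one_mul]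
    _ = _ := by rw [h7]; ring

end Vale.Agent.P367.NI
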