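import Vale.Agent.P367.NI.Defs
import Vale.Agent.P367.NI.En

namespace Vale.Agent.P367.NI

open Finset ComplexConjugate Filter Topology
open Vale.Agent.P367.Gap Vale.Agent.P367.Lim

variable {F K : Type} [NormedAddCommGroup F] [InnerProductSpace ℂ F]
  [NormedAddCommGroup K] [InnerProductSpace ℂ K]

/-- component of a one-site vector -/
def cmp (b : Bool) (x : HH F) : F := if b then x.snd else x.fst

lemma inner_cmp (x y : HH F) : inner ℂ x y = ∑ b : Bool, inner ℂ (cmp b x) (cmp b y) := by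
  rw [inner_HH, Fintype.sum_bool]
  simp only [cmp, if_true, Bool.false_eq_true, if_false]
  rw [add_comm]

lemma cmp_zop (b : Bool) (x : HH F) : cmp b (zop F x) = ((spin b : ℝ) : ℂ) • cmp b x := by
  cases b <;> simp [cmp, spin]

lemma cmp_xr (β : ℝ) (b : Bool) (x : HH F) :
    cmp b (xr β x) = ∑ z : Bool, mix β b z • cmp z x := by
  rw [Fintype.sum_bool]
  cases b
  · have h : cmp false (xr β x)
        = (Real.cos β : ℂ) • x.fst - (Complex.I * (Real.sin β : ℂ)) • x.snd := rfl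
    rw [h]
    simp only [cmp, mix, if_true, Bool.false_eq_true, if_false, neg_smul]
    abel
  · have h : cmp true (xr β x)
        = -((Complex.I * (Real.sin β : ℂ)) • x.fst) + (Real.cos β : ℂ) • x.snd := rfl
    rw [h]
    simp only [cmp, mix, if_true, Bool.true_eq_false, if_false, neg_smul, Bool.false_eq_true]
    abel

namespace Weyl

variable (S : Weyl F K)

lemma cmp_zr (v : K) (b : Bool) (x : HH F) :
    cmp b (S.zr v x) = S.W (-(((spin b : ℝ) : ℂ) • v)) (cmp b x) := by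
  cases b <;> simp [cmp, spin, zr]

lemma W_zer (x : F) : S.W 0 x = x := by
  have h := S.W_mul 0 0 x
  simp only [inner_zero_left, Complex.zero_im, Complex.ofReal_zero, mul_zero, neg_zero,
    Complex.exp_zero, one_smul, add_zero] at h
  exact (S.W 0).injective h

lemma W_neg_mul (a : K) (x : F) : S.W (-a) (S.W a x) = x := by
  have h := S.W_mul (-a) a x
  have h2 : (inner ℂ (-a) a : ℂ).im = 0 := by
    rw [inner_neg_left, Complex.neg_im]
    have := inner_self_im (𝕜 := ℂ) a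
    simpa using this
  rw [h, h2]
  simp [S.W_zer]

lemma norm_Om_sq : inner ℂ S.Om S.Om = 1 := by
  have h := S.vac 0
  rw [S.W_zer] at h
  rw [h]
  simp

lemma norm_OmH : ‖S.OmH‖ = 1 := by
  have h0 : ‖S.Om‖ ^ 2 = 1 := by
    have h := S.norm_Om_sq
    rw [inner_self_eq_norm_sq_to_K] at h
    have h1 : (((‖S.Om‖ ^ 2 : ℝ)) : ℂ) = ((1 : ℝ) : ℂ) := by
      rw [Complex.ofReal_pow, Complex.ofReal_one]
      exact h
    exact Complex.ofReal_injective h1
  have h : ‖S.OmH‖ ^ 2 = 1 := by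
    rw [normsq_HH]
    have e1 : S.OmH.fst = (((Real.sqrt 2)⁻¹ : ℝ) : ℂ) • S.Om := rfl
    have e2 : S.OmH.snd = (((Real.sqrt 2)⁻¹ : ℝ) : ℂ) • S.Om := rfl
    rw [e1, e2, norm_smul, Complex.norm_real, Real.norm_eq_abs, mul_pow, sq_abs, h0, inv_pow,
      Real.sq_sqrt (by norm_num)]
    norm_num
  have h2 : ‖S.OmH‖ ^ 2 = 1 ^ 2 := by rw [h]; norm_num
  exact (sq_eq_sq₀ (norm_nonneg _) zero_le_one).1 h2

lemma norm_xv (V : St F) : ‖S.xv V‖ = 1 := by
  unfold xv
  rw [LinearIsometryEquiv.norm_map, LinearIsometryEquiv.norm_map, LinearIsometryEquiv.norm_map,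
    S.norm_OmH]

/-- states of the plain word -/
noncomputable def Vp (γ β : ℕ → ℝ) (p : ℕ) : St F := S.ev (plain γ β p)

/-- field vectors of the plain word -/
noncomputable def vk (γ β : ℕ → ℝ) (p : ℕ) : K := S.iota (S.xv (S.Vp γ β p))

lemma Vp_zero (γ β : ℕ → ℝ) (x : HH F) : S.Vp γ β 0 x = x := rfl

lemma Vp_succ (γ β : ℕ → ℝ) (p : ℕ) (x : HH F) : S.Vp γ β (p + 1) x
    = xr (β p) (S.zr (((γ p : ℝ) : ℂ) • S.vk γ β p) (S.Vp γ β p x)) := rfl

/-- path vectors -/
noncomputable def Wp (γ β : ℕ → ℝ) : (p : ℕ) → Pth p → F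
  | 0, _ => S.Om
  | p + 1, a => S.W (-(((spin (a (Fin.last p).castSucc) : ℝ) : ℂ) •
      (((γ p : ℝ) : ℂ) • S.vk γ β p))) (Wp γ β p (Fin.init a))

lemma snocE_sum {M : Type*} [AddCommMonoid M] (p : ℕ) (f : Pth (p + 1) → M) :
    ∑ a : Pth (p + 1), f a = ∑ c : Bool, ∑ a : Pth p, f (Fin.snoc (α := fun _ => Bool) a c) := by
  rw [← (Fin.snocEquiv (fun _ : Fin (p + 1 + 1) => Bool)).sum_comp, Fintype.sum_prod_type]
  rfl

/-- path expansion with an insertion factor -/
lemma path_exp (γ β : ℕ → ℝ) (k : ℕ) (x : HH F) (f : (p : ℕ) → Pth p → ℂ)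
    (hf : ∀ p, k ≤ p → ∀ (a : Pth (p + 1)), f (p + 1) a = f p (Fin.init a))
    (h0 : ∀ b, cmp b (S.Vp γ β k x) = ∑ a : Pth k, (if a (Fin.last k) = b then (1 : ℂ) else 0) •
      (kap β k a * f k a) • S.Wp γ β k a) (p : ℕ) (hp : k ≤ p) (b : Bool) :
    cmp b (S.Vp γ β p x) = ∑ a : Pth p, (if a (Fin.last p) = b then (1 : ℂ) else 0) •
      (kap β p a * f p a) • S.Wp γ β p a := by
  induction p, hp using Nat.le_induction generalizing b with
  | base => exact h0 b
  | succ p hp ih =>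
    rw [S.Vp_succ, cmp_xr, snocE_sum]
    have h1 : ∀ c : Bool, ∑ a : Pth p,
        (if (Fin.snoc (α := fun _ => Bool) a c : Pth (p + 1)) (Fin.last (p + 1)) = b
          then (1 : ℂ) else 0) •
        (kap β (p + 1) (Fin.snoc (α := fun _ => Bool) a c) *
          f (p + 1) (Fin.snoc (α := fun _ => Bool) a c)) •
          S.Wp γ β (p + 1) (Fin.snoc (α := fun _ => Bool) a c)
        = (if c = b then (1 : ℂ) else 0) • ∑ a : Pth p, (mix (β p) c (a (Fin.last p)) *
          (kap β p a * f p a)) •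
          S.W (-(((spin (a (Fin.last p)) : ℝ) : ℂ) •
      (((γ p : ℝ) : ℂ) • S.vk γ β p))) (S.Wp γ β p a) := by
      intro c
      rw [smul_sum]
      refine sum_congr rfl fun a _ => ?_
      simp only [Fin.snoc_last, hf p hp, kap, Wp, Fin.init_snoc, Fin.snoc_castSucc]
      congr 2
      ring
    simp_rw [h1]
    symm
    refine Eq.trans (sum_eq_single b ?_ ?_) ?_
    · intro c _ hc
      rw [if_neg hc, zero_smul]
    · intro h; exact absurd (mem_univ _) h
    · symm
      rw [if_pos rfl, one_smul]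
      simp_rw [S.cmp_zr, ih]
      have h2 : ∀ z : Bool, mix (β p) b z • S.W (-(((spin z : ℝ) : ℂ) •
          (((γ p : ℝ) : ℂ) • S.vk γ β p))) (∑ a : Pth p,
            (if a (Fin.last p) = z then (1 : ℂ) else 0) • (kap β p a * f p a) • S.Wp γ β p a)
          = ∑ a : Pth p, (if a (Fin.last p) = z then (1 : ℂ) else 0) •
            ((mix (β p) b (a (Fin.last p)) * (kap β p a * f p a)) •
          S.W (-(((spin (a (Fin.last p)) : ℝ) : ℂ) •
      (((γ p : ℝ) : ℂ) • S.vk γ β p))) (S.Wp γ β p a)) := by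
        intro z
        rw [map_sum, smul_sum]
        refine sum_congr rfl fun a _ => ?_
        by_cases h : a (Fin.last p) = z
        · rw [if_pos h, one_smul, one_smul, h, map_smul, smul_smul]
        · rw [if_neg h, zero_smul, zero_smul, map_zero, smul_zero]
      simp_rw [h2]
      rw [sum_comm]
      refine sum_congr rfl fun a _ => ?_
      rw [← sum_smul]
      simp

lemma sum_pth_zero {M : Type*} [AddCommMonoid M] (f : Pth 0 → M) :
    ∑ a : Pth 0, f a = ∑ c : Bool, f (fun _ => c) := by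
  refine Fintype.sum_equiv (Equiv.funUnique (Fin 1) Bool) _ _ fun a => ?_
  congr 1
  funext i
  have hi : i = (0 : Fin 1) := Subsingleton.elim (α := Fin 1) _ _
  rw [hi]
  rfl

lemma path_OmH (γ β : ℕ → ℝ) (p : ℕ) (b : Bool) :
    cmp b (S.Vp γ β p S.OmH) = ∑ a : Pth p, (if a (Fin.last p) = b then (1 : ℂ) else 0) •
      (kap β p a) • S.Wp γ β p a := by
  have h := S.path_exp γ β 0 S.OmH (fun _ _ => 1) (fun _ _ _ => rfl) (fun b => by
    rw [sum_pth_zero, sum_eq_single b]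
    · rw [if_pos rfl, one_smul, mul_one, S.Vp_zero]
      cases b <;> rfl
    · intro c _ hc
      rw [if_neg hc, zero_smul]
    · intro h; exact absurd (mem_univ _) h) p (Nat.zero_le p) b
  rw [h]
  refine sum_congr rfl fun a _ => ?_
  rw [mul_one]

/-- the insertion factor at time `k` -/
noncomputable def insf (k p : ℕ) (a : Pth p) : ℂ :=
  if h : k < p + 1 then ((spin (a ⟨k, h⟩) : ℝ) : ℂ) else 0

lemma path_xv (γ β : ℕ → ℝ) (p : ℕ) (k : Fin (p + 1)) (b : Bool) :
    cmp b (S.Vp γ β p (S.xv (S.Vp γ β k))) = ∑ a : Pth p,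
      (if a (Fin.last p) = b then (1 : ℂ) else 0) •
      (kap β p a * ((spin (a k) : ℝ) : ℂ)) • S.Wp γ β p a := by
  have h := S.path_exp γ β k (S.xv (S.Vp γ β k)) (insf k) (fun q hq a => by
    unfold insf
    rw [dif_pos (by omega), dif_pos (by omega)]
    rfl) (fun b => by
    have h1 : S.Vp γ β k (S.xv (S.Vp γ β k)) = zop F (S.Vp γ β k S.OmH) := by
      unfold xv
      rw [LinearIsometryEquiv.apply_symm_apply]
    rw [h1, cmp_zop, S.path_OmH, smul_sum]
    refine sum_congr rfl fun a _ => ?_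
    by_cases h : a (Fin.last k) = b
    · rw [if_pos h, one_smul, one_smul, smul_smul]
      congr 1
      unfold insf
      rw [dif_pos (Nat.lt_succ_self _), mul_comm, ← h]
      rfl
    · rw [if_neg h, zero_smul, zero_smul, smul_zero]) p (Nat.lt_succ_iff.1 k.2) b
  rw [h]
  refine sum_congr rfl fun a _ => ?_
  unfold insf
  rw [dif_pos k.2]

/-- inner product of the two path vectors of a contour path -/
noncomputable def ipx (γ β : ℕ → ℝ) (p : ℕ) (x : CP p) : ℂ :=
  inner ℂ (S.Wp γ β p x.2) (S.Wp γ β p x.1)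

lemma inner_xv (γ β : ℕ → ℝ) (p : ℕ) (k : Fin (p + 1)) :
    inner ℂ (S.xv (S.Vp γ β p)) (S.xv (S.Vp γ β k))
      = ∑ x : CP p, wgt β p x * S.ipx γ β p x * ((spin (x.1 k) * lst x : ℝ) : ℂ) := by
  have h1 : inner ℂ (S.xv (S.Vp γ β p)) (S.xv (S.Vp γ β k))
      = inner ℂ (zop F (S.Vp γ β p S.OmH)) (S.Vp γ β p (S.xv (S.Vp γ β k))) := by
    rw [← LinearIsometryEquiv.inner_map_map (S.Vp γ β p)]
    congr 1
    unfold xv
    rw [LinearIsometryEquiv.apply_symm_apply]
  rw [h1, inner_cmp]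
  simp_rw [cmp_zop, S.path_OmH, S.path_xv]
  have h2 : ∀ b : Bool, inner ℂ (((spin b : ℝ) : ℂ) • ∑ a : Pth p,
      (if a (Fin.last p) = b then (1 : ℂ) else 0) • (kap β p a) • S.Wp γ β p a)
      (∑ a : Pth p, (if a (Fin.last p) = b then (1 : ℂ) else 0) •
      (kap β p a * ((spin (a k) : ℝ) : ℂ)) • S.Wp γ β p a)
      = ∑ a : Pth p, ∑ a' : Pth p, (if a (Fin.last p) = b then (1 : ℂ) else 0) *
        ((if a' (Fin.last p) = b then (1 : ℂ) else 0) * (((spin b : ℝ) : ℂ) *
          (conj (kap β p a') * (kap β p a * ((spin (a k) : ℝ) : ℂ)) *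
            inner ℂ (S.Wp γ β p a') (S.Wp γ β p a)))) := by
    intro b
    rw [inner_smul_left, Complex.conj_ofReal, inner_sum, mul_sum]
    refine sum_congr rfl fun a _ => ?_
    rw [sum_inner, mul_sum]
    refine sum_congr rfl fun a' _ => ?_
    simp only [inner_smul_left, inner_smul_right]
    have e1 : conj (if a' (Fin.last p) = b then (1 : ℂ) else 0)
        = (if a' (Fin.last p) = b then (1 : ℂ) else 0) := by split_ifs <;> simp
    rw [e1]
    ring
  simp_rw [h2]
  rw [sum_comm, Fintype.sum_prod_type]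
  refine sum_congr rfl fun a _ => ?_
  rw [sum_comm]
  refine sum_congr rfl fun a' _ => ?_
  rw [sum_eq_single (a (Fin.last p))]
  · unfold wgt ipx lst
    simp only [if_true]
    by_cases h : a (Fin.last p) = a' (Fin.last p)
    · rw [if_pos h, if_pos h.symm]
      push_cast
      ring
    · rw [if_neg h, if_neg (fun h' => h h'.symm)]
      ring
  · intro b _ hb
    rw [if_neg (fun h => hb h.symm)]
    ring
  · intro h; exact absurd (mem_univ _) h

/-- the accumulated phase vector of a path -/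
noncomputable def Ak (γ β : ℕ → ℝ) (p : ℕ) (a : Pth p) : K :=
  ∑ k : Fin p, ((γ k * spin (a k.castSucc) : ℝ) : ℂ) • S.vk γ β k

lemma Wp_form (γ β : ℕ → ℝ) (p : ℕ) (a : Pth p) :
    ∃ θ : ℂ, S.Wp γ β p a = θ • S.W (-(S.Ak γ β p a)) S.Om := by
  induction p with
  | zero =>
    refine ⟨1, ?_⟩
    simp [Wp, Ak, S.W_zer]
  | succ p ih =>
    obtain ⟨θ, hθ⟩ := ih (Fin.init a)
    refine ⟨θ * Complex.exp (-(Complex.I * ((inner ℂ (-(((spin (a (Fin.last p).castSucc) : ℝ) : ℂ) •
      (((γ p : ℝ) : ℂ) • S.vk γ β p))) (-(S.Ak γ β p (Fin.init a)))).im : ℂ))), ?_⟩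
    have h1 : -(S.Ak γ β (p + 1) a) = -(((spin (a (Fin.last p).castSucc) : ℝ) : ℂ) •
      (((γ p : ℝ) : ℂ) • S.vk γ β p)) + -(S.Ak γ β p (Fin.init a)) := by
      unfold Ak
      rw [Fin.sum_univ_castSucc, neg_add, add_comm]
      congr 2
      rw [smul_smul]
      congr 1
      push_cast
      rw [mul_comm]
    rw [h1, Wp, hθ, map_smul, S.W_mul, smul_smul]

lemma ip_W (A B u : K) : inner ℂ (S.W (-B) S.Om) (S.W u (S.W (-A) S.Om))
    = Complex.exp (-(Complex.I * ((inner ℂ u (-A)).im : ℂ))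
      - Complex.I * ((inner ℂ B (u + -A)).im : ℂ) - ((‖B + (u + -A)‖ ^ 2 / 2 : ℝ) : ℂ)) := by
  have h1 : ∀ y, inner ℂ (S.W (-B) S.Om) y = inner ℂ S.Om (S.W B y) := by
    intro y
    rw [← LinearIsometryEquiv.inner_map_map (S.W B)]
    congr 1
    have := S.W_neg_mul (-B) S.Om
    rwa [neg_neg] at this
  rw [h1, S.W_mul u (-A), map_smul, S.W_mul B (u + -A), inner_smul_right, inner_smul_right, S.vac,
    ← Complex.exp_add, ← Complex.exp_add]
  congr 1
  ring

lemma shift (A B v : K) (hv : ‖v‖ = 1) (c : ℝ) (θ η : ℂ) :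
    inner ℂ (η • S.W (-B) S.Om) (S.W ((c : ℂ) • v) (θ • S.W (-A) S.Om))
      = inner ℂ (η • S.W (-B) S.Om) (θ • S.W (-A) S.Om) *
        Complex.exp (c * inner ℂ v A - c * conj (inner ℂ v B) - ((c ^ 2 / 2 : ℝ) : ℂ)) := by
  have h0 := S.ip_W A B 0
  rw [S.W_zer] at h0
  rw [map_smul, inner_smul_left, inner_smul_right, inner_smul_left, inner_smul_right, S.ip_W, h0]
  have hn : ‖B + ((c : ℂ) • v + -A)‖ ^ 2 = ‖B + (0 + -A)‖ ^ 2
      + (2 * (c * (inner ℂ v B).re) - 2 * (c * (inner ℂ v A).re)) + c ^ 2 := by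
    have e1 : B + ((c : ℂ) • v + -A) = (B + (0 + -A)) + (c : ℂ) • v := by abel
    rw [e1, @norm_add_sq ℂ, norm_smul, hv, Complex.norm_real, Real.norm_eq_abs, mul_one, sq_abs]
    have e2 : (inner ℂ (B + (0 + -A)) ((c : ℂ) • v) : ℂ)
        = c * (conj (inner ℂ v B) - conj (inner ℂ v A)) := by
      rw [inner_smul_right, zero_add, inner_add_left, inner_neg_left, inner_conj_symm,
        inner_conj_symm]
      ring
    rw [e2]
    simp only [RCLike.re_to_complex, Complex.mul_re, Complex.sub_re, Complex.sub_im,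
      Complex.ofReal_re, Complex.ofReal_im, Complex.conj_re, Complex.conj_im]
    ring
  have hi1 : (inner ℂ ((c : ℂ) • v) (-A)).im = -(c * (inner ℂ v A).im) := by
    rw [inner_smul_left, inner_neg_right, Complex.conj_ofReal]
    simp only [Complex.mul_im, Complex.neg_im, Complex.neg_re, Complex.ofReal_re,
      Complex.ofReal_im]
    ring
  have hi2 : (inner ℂ B ((c : ℂ) • v + -A)).im = -(c * (inner ℂ v B).im)
      + (inner ℂ B (0 + -A)).im := by
    rw [zero_add, inner_add_right, inner_smul_right, Complex.add_im, ← inner_conj_symm B v]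
    simp only [Complex.mul_im, Complex.conj_im, Complex.conj_re, Complex.ofReal_re,
      Complex.ofReal_im]
    ring
  have hz : ∀ z : ℂ, z = (z.re : ℂ) + (z.im : ℂ) * Complex.I := fun z => (Complex.re_add_im z).symm
  rw [hn, hi1, hi2]
  have hc : conj (inner ℂ v B) = ((inner ℂ v B).re : ℂ) - ((inner ℂ v B).im : ℂ) * Complex.I := by
    conv_lhs => rw [hz (inner ℂ v B)]
    rw [map_add, map_mul, Complex.conj_I, Complex.conj_ofReal, Complex.conj_ofReal]
    ring
  have key : -(Complex.I * ((-(c * (inner ℂ v A).im) : ℝ) : ℂ))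
      - Complex.I * ((-(c * (inner ℂ v B).im) + (inner ℂ B (0 + -A)).im : ℝ) : ℂ)
      - (((‖B + (0 + -A)‖ ^ 2 + (2 * (c * (inner ℂ v B).re) - 2 * (c * (inner ℂ v A).re))
        + c ^ 2) / 2 : ℝ) : ℂ)
      = (-(Complex.I * ((inner ℂ (0 : K) (-A)).im : ℂ))
      - Complex.I * ((inner ℂ B (0 + -A)).im : ℂ) - ((‖B + (0 + -A)‖ ^ 2 / 2 : ℝ) : ℂ))
      + (c * inner ℂ v A - c * conj (inner ℂ v B) - ((c ^ 2 / 2 : ℝ) : ℂ)) := by
    rw [hc]
    conv_rhs => rw [hz (inner ℂ v A)]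
    rw [inner_zero_left, Complex.zero_im]
    push_cast
    ring
  rw [key, Complex.exp_add]
  ring

end Weyl

end Vale.Agent.P367.NI
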