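import Vale.Agent.P367.NI.Exist
import Vale.Agent.P367.NI.Pert

/-! P367: strong topology on the states of the one-site model, continuity of all words. -/

namespace Vale.Agent.P367.NI

open Complex Filter Topology

section general

variable {E : Type} [NormedAddCommGroup E] [InnerProductSpace ℂ E] {α : Type*} {l : Filter α}

lemma strong_apply {A : α → E ≃ₗᵢ[ℂ] E} {A0 : E ≃ₗᵢ[ℂ] E}
    (hA : ∀ x, Tendsto (fun i => A i x) l (𝓝 (A0 x))) {u : α → E} {u0 : E}
    (hu : Tendsto u l (𝓝 u0)) : Tendsto (fun i => A i (u i)) l (𝓝 (A0 u0)) := by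
  have h1 : Tendsto (fun i => A i (u i - u0)) l (𝓝 0) := by
    rw [tendsto_zero_iff_norm_tendsto_zero]
    have h2 : Tendsto (fun i => ‖u i - u0‖) l (𝓝 0) := tendsto_iff_norm_sub_tendsto_zero.1 hu
    refine h2.congr fun i => ?_
    rw [LinearIsometryEquiv.norm_map]
  have h3 := h1.add (hA u0)
  rw [zero_add] at h3
  refine h3.congr fun i => ?_
  rw [map_sub, sub_add_cancel]

lemma strong_symm {A : α → E ≃ₗᵢ[ℂ] E} {A0 : E ≃ₗᵢ[ℂ] E}
    (hA : ∀ x, Tendsto (fun i => A i x) l (𝓝 (A0 x))) (x : E) :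
    Tendsto (fun i => (A i).symm x) l (𝓝 (A0.symm x)) := by
  rw [tendsto_iff_norm_sub_tendsto_zero]
  have h1 := tendsto_iff_norm_sub_tendsto_zero.1 (hA (A0.symm x))
  refine h1.congr fun i => ?_
  have h2 : ‖(A i).symm x - A0.symm x‖ = ‖A i ((A i).symm x - A0.symm x)‖ := by
    rw [LinearIsometryEquiv.norm_map]
  rw [h2, map_sub, LinearIsometryEquiv.apply_symm_apply, LinearIsometryEquiv.apply_symm_apply,
    norm_sub_rev]

lemma strong_of_dense {A : α → E ≃ₗᵢ[ℂ] E} {A0 : E ≃ₗᵢ[ℂ] E} {s : Set E}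
    (hs : (Submodule.span ℂ s).topologicalClosure = ⊤)
    (hA : ∀ x ∈ s, Tendsto (fun i => A i x) l (𝓝 (A0 x))) (x : E) :
    Tendsto (fun i => A i x) l (𝓝 (A0 x)) := by
  have h1 : ∀ y ∈ Submodule.span ℂ s, Tendsto (fun i => A i y) l (𝓝 (A0 y)) := by
    intro y hy
    induction hy using Submodule.span_induction with
    | mem x hx => exact hA x hx
    | zero => simpa using tendsto_const_nhds
    | add x y _ _ hx hy => simpa using hx.add hy
    | smul c x _ hx => simpa using hx.const_smul c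
  rw [Metric.tendsto_nhds]
  intro ε hε
  have hx : x ∈ closure ((Submodule.span ℂ s : Submodule ℂ E) : Set E) := by
    have : x ∈ (Submodule.span ℂ s).topologicalClosure := by rw [hs]; trivial
    exact this
  obtain ⟨y, hy, hxy⟩ := Metric.mem_closure_iff.1 hx (ε / 3) (by positivity)
  have h2 := Metric.tendsto_nhds.1 (h1 y hy) (ε / 3) (by positivity)
  filter_upwards [h2] with i hi
  have e1 : dist (A i x) (A i y) = dist x y := (A i).dist_map x y
  have e2 : dist (A0 x) (A0 y) = dist x y := A0.dist_map x y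
  calc dist (A i x) (A0 x) ≤ dist (A i x) (A i y) + dist (A i y) (A0 y) + dist (A0 y) (A0 x) :=
        dist_triangle4 _ _ _ _
    _ < ε / 3 + ε / 3 + ε / 3 := by
        rw [e1, dist_comm (A0 y) (A0 x), e2]
        gcongr
    _ = ε := by ring

end general

variable {F K : Type} [NormedAddCommGroup F] [InnerProductSpace ℂ F]
  [NormedAddCommGroup K] [InnerProductSpace ℂ K]

/-- strong operator topology -/
noncomputable instance sot : TopologicalSpace (HH F ≃ₗᵢ[ℂ] HH F) :=
  TopologicalSpace.induced (fun (V : HH F ≃ₗᵢ[ℂ] HH F) (x : HH F) => V x) inferInstance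

lemma tendsto_sot {α : Type*} {l : Filter α} {V : α → St F} {V0 : St F} :
    Tendsto V l (𝓝 V0) ↔ ∀ x, Tendsto (fun i => V i x) l (𝓝 (V0 x)) := by
  rw [nhds_induced, tendsto_comap_iff, tendsto_pi_nhds]
  rfl

lemma continuous_eval (x : HH F) : Continuous fun V : St F => V x :=
  continuous_iff_continuousAt.2 fun V0 => (tendsto_sot.1 (tendsto_id (x := 𝓝 V0))) x

lemma tendsto_HH {α : Type*} {l : Filter α} {u : α → HH F} {u0 : HH F}
    (h1 : Tendsto (fun i => (u i).fst) l (𝓝 u0.fst)) (h2 : Tendsto (fun i => (u i).snd) l (𝓝 u0.snd)) :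
    Tendsto u l (𝓝 u0) := by
  have h3 := (WithLp.prod_continuous_toLp 2 F F).tendsto (u0.fst, u0.snd)
  exact h3.comp (h1.prodMk_nhds h2)

lemma tendsto_fst {α : Type*} {l : Filter α} {u : α → HH F} {u0 : HH F}
    (h : Tendsto u l (𝓝 u0)) : Tendsto (fun i => (u i).fst) l (𝓝 u0.fst) := by
  have h3 := (continuous_fst.comp (WithLp.prod_continuous_ofLp 2 F F)).tendsto u0
  exact h3.comp h

lemma tendsto_snd {α : Type*} {l : Filter α} {u : α → HH F} {u0 : HH F}
    (h : Tendsto u l (𝓝 u0)) : Tendsto (fun i => (u i).snd) l (𝓝 u0.snd) := by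
  have h3 := (continuous_snd.comp (WithLp.prod_continuous_ofLp 2 F F)).tendsto u0
  exact h3.comp h

lemma dg_strong {α : Type*} {l : Filter α} {A B : α → F ≃ₗᵢ[ℂ] F} {A0 B0 : F ≃ₗᵢ[ℂ] F}
    (hA : ∀ x, Tendsto (fun i => A i x) l (𝓝 (A0 x)))
    (hB : ∀ x, Tendsto (fun i => B i x) l (𝓝 (B0 x))) (x : HH F) :
    Tendsto (fun i => dg (A i) (B i) x) l (𝓝 (dg A0 B0 x)) :=
  tendsto_HH (hA x.fst) (hB x.snd)

/-- composition of strongly convergent states -/
lemma tendsto_trans {α : Type*} {l : Filter α} {V A : α → St F} {V0 A0 : St F}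
    (hV : Tendsto V l (𝓝 V0)) (hA : Tendsto A l (𝓝 A0)) :
    Tendsto (fun i => (V i).trans (A i)) l (𝓝 (V0.trans A0)) := by
  rw [tendsto_sot]
  intro x
  exact strong_apply (tendsto_sot.1 hA) ((tendsto_sot.1 hV) x)

lemma tendsto_symm {α : Type*} {l : Filter α} {V : α → St F} {V0 : St F}
    (hV : Tendsto V l (𝓝 V0)) : Tendsto (fun i => (V i).symm) l (𝓝 V0.symm) :=
  tendsto_sot.2 fun x => strong_symm (tendsto_sot.1 hV) x

namespace Weyl

variable (S : Weyl F K)

/-- the vacuum is cyclic -/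
def Cyc : Prop := (Submodule.span ℂ (Set.range fun a => S.W a S.Om)).topologicalClosure = ⊤

lemma norm_Om : ‖S.Om‖ = 1 := by
  have h := S.vac 0
  rw [S.W_zero, inner_self_eq_norm_sq_to_K] at h
  have h2 : ‖S.Om‖ ^ 2 = 1 := by
    have h3 := congrArg Complex.re h
    simpa [← Complex.ofReal_pow] using h3
  nlinarith [norm_nonneg S.Om]

lemma inner_W_W (a b : K) : inner ℂ (S.W a S.Om) (S.W b S.Om)
    = Complex.exp (Complex.I * ((inner ℂ a b).im : ℂ) - ((‖b - a‖ ^ 2 / 2 : ℝ) : ℂ)) := by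
  rw [S.inner_W, ← Complex.exp_add, ← sub_eq_add_neg]

lemma tendsto_WOm {α : Type*} {l : Filter α} {a : α → K} {a0 : K} (ha : Tendsto a l (𝓝 a0)) :
    Tendsto (fun i => S.W (a i) S.Om) l (𝓝 (S.W a0 S.Om)) := by
  rw [tendsto_iff_norm_sub_tendsto_zero]
  have h : ∀ c : K, ‖S.W c S.Om - S.W a0 S.Om‖ = Real.sqrt (2 - 2 * (Complex.exp (Complex.I *
      ((inner ℂ c a0).im : ℂ) - ((‖a0 - c‖ ^ 2 / 2 : ℝ) : ℂ))).re) := by
    intro c
    have h1 := @norm_sub_sq ℂ F _ _ _ (S.W c S.Om) (S.W a0 S.Om)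
    rw [S.inner_W_W, LinearIsometryEquiv.norm_map, LinearIsometryEquiv.norm_map, S.norm_Om,
      RCLike.re_to_complex] at h1
    rw [← Real.sqrt_sq (norm_nonneg (S.W c S.Om - S.W a0 S.Om)), h1]
    congr 1
    ring
  simp_rw [h]
  have hc : Continuous fun c : K => Real.sqrt (2 - 2 * (Complex.exp (Complex.I *
      ((inner ℂ c a0).im : ℂ) - ((‖a0 - c‖ ^ 2 / 2 : ℝ) : ℂ))).re) := by
    have h1 : Continuous fun c : K => (inner ℂ c a0 : ℂ) := continuous_id.inner continuous_const
    have h2 : Continuous fun c : K => ((inner ℂ c a0).im : ℂ) :=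
      Complex.continuous_ofReal.comp (Complex.continuous_im.comp h1)
    have h3 : Continuous fun c : K => ((‖a0 - c‖ ^ 2 / 2 : ℝ) : ℂ) := by fun_prop
    have h4 : Continuous fun c : K => (Complex.exp (Complex.I *
      ((inner ℂ c a0).im : ℂ) - ((‖a0 - c‖ ^ 2 / 2 : ℝ) : ℂ))).re := by fun_prop
    fun_prop
  have h2 := (hc.tendsto a0).comp ha
  have h3 : Real.sqrt (2 - 2 * (Complex.exp (Complex.I *
      ((inner ℂ a0 a0).im : ℂ) - ((‖a0 - a0‖ ^ 2 / 2 : ℝ) : ℂ))).re) = 0 := by
    have h4 : (inner ℂ a0 a0 : ℂ).im = 0 := by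
      rw [inner_self_eq_norm_sq_to_K]
      simp [← Complex.ofReal_pow]
    rw [h4]
    simp
  rw [h3] at h2
  exact h2

/-- strong continuity of the Weyl operators -/
lemma tendsto_W (hS : S.Cyc) {α : Type*} {l : Filter α} {a : α → K} {a0 : K}
    (ha : Tendsto a l (𝓝 a0)) (f : F) :
    Tendsto (fun i => S.W (a i) f) l (𝓝 (S.W a0 f)) := by
  refine strong_of_dense (A := fun i => S.W (a i)) hS ?_ f
  rintro _ ⟨b, rfl⟩
  simp only [S.W_mul]
  have h1 : Tendsto (fun i => Complex.exp (-(Complex.I * ((inner ℂ (a i) b).im : ℂ)))) l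
      (𝓝 (Complex.exp (-(Complex.I * ((inner ℂ a0 b).im : ℂ))))) := by
    have hc : Continuous fun c : K => Complex.exp (-(Complex.I * ((inner ℂ c b).im : ℂ))) := by
      have h1 : Continuous fun c : K => (inner ℂ c b : ℂ) := continuous_id.inner continuous_const
      have h2 : Continuous fun c : K => ((inner ℂ c b).im : ℂ) :=
        Complex.continuous_ofReal.comp (Complex.continuous_im.comp h1)
      fun_prop
    exact (hc.tendsto a0).comp ha
  exact h1.smul (S.tendsto_WOm (ha.add_const b))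

lemma tendsto_zr (hS : S.Cyc) {α : Type*} {l : Filter α} {a : α → K} {a0 : K}
    (ha : Tendsto a l (𝓝 a0)) : Tendsto (fun i => S.zr (a i)) l (𝓝 (S.zr a0)) := by
  rw [tendsto_sot]
  exact fun x => dg_strong (S.tendsto_W hS ha.neg) (S.tendsto_W hS ha) x

lemma tendsto_xv {α : Type*} {l : Filter α} {V : α → St F} {V0 : St F}
    (hV : Tendsto V l (𝓝 V0)) : Tendsto (fun i => S.xv (V i)) l (𝓝 (S.xv V0)) := by
  have h1 : Tendsto (fun i => zop F (V i S.OmH)) l (𝓝 (zop F (V0 S.OmH))) :=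
    ((zop F).continuous.tendsto _).comp ((tendsto_sot.1 hV) S.OmH)
  exact strong_apply (strong_symm (tendsto_sot.1 hV)) h1

lemma tendsto_step (hS : S.Cyc) {α : Type*} {l : Filter α} {V : α → St F} {V0 : St F}
    (g : Gate) (hV : Tendsto V l (𝓝 V0)) : Tendsto (fun i => S.step g (V i)) l (𝓝 (S.step g V0)) := by
  cases g with
  | B b => exact tendsto_trans hV tendsto_const_nhds
  | C g =>
    refine tendsto_trans hV (S.tendsto_zr hS ?_)
    exact ((S.iota.continuous.tendsto _).comp (S.tendsto_xv hV)).const_smul (g : ℂ)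
  | G k => exact tendsto_trans hV tendsto_const_nhds

/-- a word acting on an arbitrary state -/
noncomputable def run : List Gate → St F → St F
  | [], V => V
  | g :: w, V => S.step g (run w V)

@[simp] lemma run_nil (V : St F) : S.run [] V = V := rfl
@[simp] lemma run_cons (g : Gate) (w : List Gate) (V : St F) :
    S.run (g :: w) V = S.step g (S.run w V) := rfl

lemma run_append (w u : List Gate) (V : St F) : S.run (w ++ u) V = S.run w (S.run u V) := by
  induction w with
  | nil => rfl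
  | cons g w ih => rw [List.cons_append, run_cons, run_cons, ih]

lemma ev_eq_run (w : List Gate) : S.ev w = S.run w (LinearIsometryEquiv.refl ℂ (HH F)) := by
  induction w with
  | nil => rfl
  | cons g w ih =>
    rw [run_cons, ← ih]
    rfl

lemma ev_append (w u : List Gate) : S.ev (w ++ u) = S.run w (S.ev u) := by
  rw [ev_eq_run, run_append, ← ev_eq_run]

lemma continuous_run (hS : S.Cyc) (w : List Gate) : Continuous (S.run w) := by
  induction w with
  | nil => exact continuous_id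
  | cons g w ih =>
    rw [continuous_iff_continuousAt]
    intro V0
    exact S.tendsto_step hS g (ih.tendsto V0)

/-- reachable states and their strong limits -/
def Cl : Set (St F) := closure (Set.range S.ev)

lemma ev_mem_Cl (w : List Gate) : S.ev w ∈ S.Cl := subset_closure ⟨w, rfl⟩

lemma run_mem_Cl (hS : S.Cyc) (w : List Gate) {V : St F} (hV : V ∈ S.Cl) : S.run w V ∈ S.Cl := by
  refine map_mem_closure (S.continuous_run hS w) hV ?_
  rintro _ ⟨u, rfl⟩
  exact ⟨w ++ u, S.ev_append w u⟩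

lemma isClosed_Cl : IsClosed S.Cl := isClosed_closure

lemma mem_Cl_of_tendsto {α : Type*} {l : Filter α} [l.NeBot] {V : α → St F} {V0 : St F}
    (h : Tendsto V l (𝓝 V0)) (hV : ∀ i, V i ∈ S.Cl) : V0 ∈ S.Cl :=
  S.isClosed_Cl.mem_of_tendsto h (Eventually.of_forall hV)

/-- a (possibly limiting) gate: a map of states which keeps closed invariant sets -/
lemma limit_gate_mem_Cl (hS : S.Cyc) {α : Type*} {l : Filter α} [l.NeBot] (w : α → List Gate)
    {V V' : St F} (hV : V ∈ S.Cl) (h : Tendsto (fun i => S.run (w i) V) l (𝓝 V')) : V' ∈ S.Cl :=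
  S.mem_Cl_of_tendsto h fun i => S.run_mem_Cl hS (w i) hV

end Weyl

/-- the cyclic Weyl system exists -/
theorem exists_weyl_cyc : ∃ S : Weyl FN L2N, S.Cyc := by
  obtain ⟨T, hT⟩ := exists_iota (HH FN)
  refine ⟨{
    W := WF
    Om := ef 0
    W_mul := WF_mul
    vac := WF_vac
    iota := T
    e0 := unitv 0
    norm_e0 := by
      have h := inner_unitv 0 0
      rw [if_pos rfl, inner_self_eq_norm_sq_to_K] at h
      have h2 : ‖unitv 0‖ ^ 2 = 1 := by
        have h3 := congrArg Complex.re h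
        simpa [← Complex.ofReal_pow] using h3
      nlinarith [norm_nonneg (unitv 0)]
    e0_perp := hT }, ?_⟩
  unfold Weyl.Cyc
  rw [eq_top_iff]
  intro x _
  have h3 := UniformSpace.Completion.denseRange_coe (α := EV L2N) x
  refine closure_mono ?_ h3
  rintro _ ⟨y, rfl⟩
  have h4 : Submodule.span ℂ (Set.range (ef : L2N → FN))
      ≤ Submodule.span ℂ (Set.range fun a => WF a (ef 0)) := by
    rw [Submodule.span_le]
    rintro _ ⟨a, rfl⟩
    have h5 : WF a (ef 0) = (EV.mu a 0 : ℂ) • ef a := by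
      have h1 : ∀ (c : L2N) (y : EV L2N), WF c (y : Fk L2N) = ((EV.W0 c y : EV L2N) : Fk L2N) :=
        fun c y => extI_coe _ _
      unfold ef
      rw [h1, EV.W0_e, add_zero, mul_one, ← UniformSpace.Completion.coe_smul]
      congr 1
      change (Finsupp.single a (EV.mu a 0) : L2N →₀ ℂ) = EV.mu a 0 • (Finsupp.single a 1 : L2N →₀ ℂ)
      rw [Finsupp.smul_single, smul_eq_mul, mul_one]
    have h6 : EV.mu a (0 : L2N) ≠ 0 := Complex.exp_ne_zero _
    have h7 : ef a = (EV.mu a (0 : L2N))⁻¹ • WF a (ef 0) := by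
      rw [h5, smul_smul, inv_mul_cancel₀ h6, one_smul]
    rw [h7]
    exact Submodule.smul_mem _ _ (Submodule.subset_span ⟨a, rfl⟩)
  exact h4 (coe_mem_span y)

end Vale.Agent.P367.NI
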