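import Vale.Agent.P367.NI.EnJ
import Vale.Agent.P367.Cl.EBd

/-! P367, block B, final value: the energy of `x = |+> (x) m(zeta) Om + |-> (x) …`. -/

namespace Vale.Agent.P367.NI

open Filter Topology ComplexConjugate MeasureTheory ProbabilityTheory
open Vale.Agent.P367.Cl (γN Scheme sval)

variable {F K : Type} [NormedAddCommGroup F] [InnerProductSpace ℂ F]
  [NormedAddCommGroup K] [InnerProductSpace ℂ K]

/-- `|+> (x) y` -/
noncomputable def plus (y : F) : HH F :=
  WithLp.toLp 2 ((((Real.sqrt 2)⁻¹ : ℝ) : ℂ) • y, (((Real.sqrt 2)⁻¹ : ℝ) : ℂ) • y)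

/-- the component of `|+>` -/
noncomputable def pcomp (x : HH F) : F := (((Real.sqrt 2)⁻¹ : ℝ) : ℂ) • (x.fst + x.snd)

/-- real linear combinations -/
noncomputable def lcw {I : Type} [Fintype I] (w : I → K) (k : I → ℝ) : K :=
  ∑ i, ((k i : ℝ) : ℂ) • w i

lemma inner_plus (x : HH F) (y : F) : inner ℂ x (plus y) = inner ℂ (pcomp x) y := by
  rw [inner_HH]
  unfold pcomp
  change inner ℂ x.fst ((((Real.sqrt 2)⁻¹ : ℝ) : ℂ) • y) +
    inner ℂ x.snd ((((Real.sqrt 2)⁻¹ : ℝ) : ℂ) • y) = _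
  rw [inner_smul_right, inner_smul_right, inner_smul_left, Complex.conj_ofReal, inner_add_left]
  ring

namespace Weyl

variable (S : Weyl F K) [CompleteSpace F]

lemma inner_Phi_eq (u : K) (x : HH F) : inner ℂ (S.Phi u) x =
    Complex.I * inner ℂ (S.Jc u) (pcomp x) := by
  rw [S.Phi_apply, inner_smul_left, map_neg, Complex.conj_I, neg_neg]
  congr 1
  change inner ℂ (plus (S.Jc u)) x = _
  rw [← inner_conj_symm, inner_plus, inner_conj_symm]

lemma Jc_sum {I : Type} (s : Finset I) (a : I → K) :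
    S.Jc (∑ i ∈ s, a i) = ∑ i ∈ s, S.Jc (a i) := by
  classical
  induction s using Finset.induction_on with
  | empty =>
    rw [Finset.sum_empty, Finset.sum_empty, ← norm_eq_zero, S.norm_Jc, norm_zero]
  | insert i s hi ih => rw [Finset.sum_insert hi, Finset.sum_insert hi, S.Jc_add, ih]

/-- the vector is orthogonal to the one-particle vectors orthogonal to the fields -/
lemma inner_Jc_perp {I : Type} [Fintype I] {w : I → K} {u : K} (hu : ∀ i, inner ℂ u (w i) = 0)
    {y : F} (hy : y ∈ closure ((Submodule.span ℂ (Set.range fun k : I → ℝ =>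
      S.W (lcw w k) S.Om) : Submodule ℂ F) : Set F)) : inner ℂ (S.Jc u) y = 0 := by
  have hc : IsClosed {y : F | inner ℂ (S.Jc u) y = 0} :=
    isClosed_eq (continuous_const.inner continuous_id) continuous_const
  refine closure_minimal ?_ hc hy
  intro z hz
  refine Submodule.span_induction ?_ ?_ ?_ ?_ hz
  · rintro _ ⟨k, rfl⟩
    change inner ℂ (S.Jc u) (S.W (lcw w k) S.Om) = 0
    rw [S.inner_Jc_W]
    have : inner ℂ u (lcw w k) = 0 := by
      unfold lcw
      rw [inner_sum]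
      refine Finset.sum_eq_zero fun i _ => ?_
      rw [inner_smul_right, hu, mul_zero]
    rw [this, zero_mul]
  · exact inner_zero_right _
  · intro a b _ _ ha hb
    change inner ℂ _ _ = 0 at ha hb
    change inner ℂ _ _ = 0
    rw [inner_add_right, ha, hb, add_zero]
  · intro c a _ ha
    change inner ℂ _ _ = 0 at ha
    change inner ℂ _ _ = 0
    rw [inner_smul_right, ha, mul_zero]

lemma lcw_single {I : Type} [Fintype I] [DecidableEq I] (w : I → K) (j : I) (t : ℝ) :
    lcw w (Pi.single j t) = ((t : ℝ) : ℂ) • w j := by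
  unfold lcw
  rw [Finset.sum_eq_single j]
  · rw [Pi.single_eq_same]
  · intro i _ hi
    rw [Pi.single_eq_of_ne hi, Complex.ofReal_zero, zero_smul]
  · intro h
    exact absurd (Finset.mem_univ _) h

lemma lcw_zero {I : Type} [Fintype I] (w : I → K) : lcw w 0 = 0 := by
  unfold lcw
  simp

variable {n : ℕ} {m : (Fin (n + 1) → ℝ) → ℝ} {w : Fin (n + 1) → K} {y : F}

lemma inner_Jc_w (hm : Continuous m) (hm1 : ∀ z, |m z| ≤ 1)
    (h2 : ∀ k, inner ℂ (S.W (lcw w k) S.Om) y =
      ∫ z, Complex.exp (-(Complex.I * ((∑ i, k i * z i : ℝ) : ℂ))) * (m z : ℂ) ∂(γN (n + 1)))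
    (j : Fin (n + 1)) : inner ℂ (S.Jc (w j)) y =
      -(Complex.I * ((∫ z, z j * m z ∂(γN (n + 1)) : ℝ) : ℂ)) := by
  have hmi : Integrable (fun z : Fin (n + 1) → ℝ => ((m z : ℝ) : ℂ)) (γN (n + 1)) := by
    refine Integrable.of_bound (C := 1) (Complex.continuous_ofReal.comp hm).aestronglyMeasurable
      (Filter.Eventually.of_forall fun z => ?_)
    rw [Complex.norm_real]
    exact hm1 z
  have hzi : Integrable (fun z : Fin (n + 1) → ℝ => z j) (γN (n + 1)) := by
    have h1 : Integrable (id : ℝ → ℝ) (gaussianReal 0 1) :=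
      (memLp_id_gaussianReal 1).integrable le_rfl
    exact (measurePreserving_eval (μ := fun _ : Fin (n + 1) => gaussianReal 0 1) j).integrable_comp
      h1.1 |>.2 h1
  have h1 : Tendsto (fun k : ℕ => (inner ℂ ((((tau k)⁻¹ : ℝ) : ℂ) •
      (S.W (((tau k : ℝ) : ℂ) • w j) S.Om - S.Om)) y : ℂ)) atTop (𝓝 (inner ℂ (S.Jc (w j)) y)) :=
    (S.tendsto_W_quot (w j)).inner tendsto_const_nhds
  refine tendsto_nhds_unique h1 ?_
  have e : ∀ k : ℕ, (inner ℂ ((((tau k)⁻¹ : ℝ) : ℂ) •
      (S.W (((tau k : ℝ) : ℂ) • w j) S.Om - S.Om)) y : ℂ) =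
      ∫ z, (((tau k)⁻¹ : ℝ) : ℂ) * (Complex.exp (((tau k : ℝ) : ℂ) * (-(Complex.I * (z j : ℂ)))) - 1)
        * ((m z : ℝ) : ℂ) ∂(γN (n + 1)) := by
    intro k
    have h3 := h2 0
    rw [lcw_zero, S.W_zero] at h3
    have h4 := h2 (Pi.single j (tau k))
    rw [lcw_single] at h4
    rw [inner_smul_left, inner_sub_left, h3, h4, Complex.conj_ofReal, ← integral_sub,
      ← integral_const_mul]
    · refine integral_congr_ae (Filter.Eventually.of_forall fun z => ?_)
      have h5 : ∑ i, (Pi.single j (tau k) : Fin (n + 1) → ℝ) i * z i = tau k * z j := by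
        rw [Finset.sum_eq_single j]
        · rw [Pi.single_eq_same]
        · intro i _ hi
          rw [Pi.single_eq_of_ne hi, zero_mul]
        · intro h
          exact absurd (Finset.mem_univ _) h
      have h6 : ∑ i, (0 : Fin (n + 1) → ℝ) i * z i = 0 := by simp
      change (((tau k)⁻¹ : ℝ) : ℂ) * (Complex.exp (-(Complex.I *
        ((∑ i, (Pi.single j (tau k) : Fin (n + 1) → ℝ) i * z i : ℝ) : ℂ))) * (m z : ℂ) -
        Complex.exp (-(Complex.I * ((∑ i, (0 : Fin (n + 1) → ℝ) i * z i : ℝ) : ℂ))) * (m z : ℂ)) = _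
      rw [h5, h6]
      have h7 : -(Complex.I * ((tau k * z j : ℝ) : ℂ)) =
          ((tau k : ℝ) : ℂ) * (-(Complex.I * (z j : ℂ))) := by push_cast; ring
      rw [h7, Complex.ofReal_zero, mul_zero, neg_zero, Complex.exp_zero]
      ring
    · refine hmi.bdd_mul (c := 1) ?_ (Filter.Eventually.of_forall fun z => ?_)
      · exact (by fun_prop : Continuous fun z : Fin (n + 1) → ℝ => Complex.exp (-(Complex.I *
          ((∑ i, (Pi.single j (tau k) : Fin (n + 1) → ℝ) i * z i : ℝ) : ℂ)))).aestronglyMeasurable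
      · rw [Complex.norm_exp]
        simp
    · refine hmi.bdd_mul (c := 1) ?_ (Filter.Eventually.of_forall fun z => ?_)
      · exact (by fun_prop : Continuous fun z : Fin (n + 1) → ℝ => Complex.exp (-(Complex.I *
          ((∑ i, (0 : Fin (n + 1) → ℝ) i * z i : ℝ) : ℂ)))).aestronglyMeasurable
      · rw [Complex.norm_exp]
        simp
  simp_rw [e]
  have h8 : -(Complex.I * ((∫ z, z j * m z ∂(γN (n + 1)) : ℝ) : ℂ)) =
      ∫ z, (-(Complex.I * (z j : ℂ))) * ((m z : ℝ) : ℂ) ∂(γN (n + 1)) := by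
    rw [← integral_complex_ofReal, ← integral_const_mul, ← integral_neg]
    refine integral_congr_ae (Filter.Eventually.of_forall fun z => ?_)
    push_cast
    ring
  rw [h8]
  refine tendsto_integral_of_dominated_convergence (fun z => |z j|) ?_ hzi.abs ?_ ?_
  · intro k
    refine Continuous.aestronglyMeasurable ?_
    fun_prop
  · intro k
    refine Filter.Eventually.of_forall fun z => ?_
    rw [norm_mul, norm_mul, Complex.norm_real, Complex.norm_real, Real.norm_eq_abs,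
      Real.norm_eq_abs, abs_of_pos (inv_pos.2 (tau_pos k))]
    have h9 : ‖Complex.exp (((tau k : ℝ) : ℂ) * (-(Complex.I * (z j : ℂ)))) - 1‖ ≤
        tau k * |z j| := by
      have h10 : ((tau k : ℝ) : ℂ) * (-(Complex.I * (z j : ℂ))) =
          Complex.I * ((-(tau k * z j) : ℝ) : ℂ) := by push_cast; ring
      rw [h10]
      refine (Real.norm_exp_I_mul_ofReal_sub_one_le (x := -(tau k * z j))).trans ?_
      rw [norm_neg, Real.norm_eq_abs, abs_mul, abs_of_pos (tau_pos k)]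
    calc (tau k)⁻¹ * _ * |m z| ≤ (tau k)⁻¹ * (tau k * |z j|) * 1 := by
          have := tau_pos k
          have := hm1 z
          gcongr
      _ = |z j| := by
          have := (tau_pos k).ne'
          field_simp
  · refine Filter.Eventually.of_forall fun z => ?_
    exact ((tendsto_ek (-(Complex.I * (z j : ℂ)))).comp tendsto_tau_ne).mul_const _

/-- **Final value.** -/
theorem ef_value (hm : Continuous m) (hm1 : ∀ z, |m z| ≤ 1) (hw : Orthonormal ℂ w)
    (h0 : w 0 = S.e0) {Y : Fin n → F} (hY : ∀ k : Fin n, w k.succ = S.iota (plus (Y k)))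
    {q : Fin n → ℝ} (hq : ∀ k, inner ℂ y (Y k) = ((q k : ℝ) : ℂ))
    (h1 : y ∈ closure ((Submodule.span ℂ (Set.range fun k : Fin (n + 1) → ℝ =>
      S.W (lcw w k) S.Om) : Submodule ℂ F) : Set F))
    (h2 : ∀ k, inner ℂ (S.W (lcw w k) S.Om) y =
      ∫ z, Complex.exp (-(Complex.I * ((∑ i, k i * z i : ℝ) : ℂ))) * (m z : ℂ) ∂(γN (n + 1)))
    {x : HH F} (hx : pcomp x = y) :
    S.Ef x = ∑ k : Fin n, q k * ∫ z, z k.succ * m z ∂(γN (n + 1)) := by
  obtain ⟨u, hu⟩ : ∃ u : K, u = S.iota x := ⟨_, rfl⟩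
  obtain ⟨v, hv⟩ : ∃ v : K, v = u - ∑ j, inner ℂ (w j) u • w j := ⟨_, rfl⟩
  have hperp : ∀ i, inner ℂ v (w i) = 0 := by
    intro i
    rw [hv, inner_sub_left, sum_inner]
    have h3 : ∑ j, inner ℂ (inner ℂ (w j) u • w j) (w i) = (inner ℂ u (w i) : ℂ) := by
      rw [Finset.sum_eq_single i]
      · rw [inner_smul_left, inner_conj_symm, inner_self_eq_norm_sq_to_K, hw.1 i]
        simp
      · intro j _ hj
        rw [inner_smul_left, hw.2 hj, mul_zero]
      · intro h
        exact absurd (Finset.mem_univ _) h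
    rw [h3, sub_self]
  have hJ : inner ℂ (S.Jc u) y = ∑ j, (inner ℂ u (w j) : ℂ) *
      -(Complex.I * ((∫ z, z j * m z ∂(γN (n + 1)) : ℝ) : ℂ)) := by
    have e : u = v + ∑ j, inner ℂ (w j) u • w j := by rw [hv]; abel
    conv_lhs => rw [e]
    rw [S.Jc_add, S.Jc_sum, inner_add_left, S.inner_Jc_perp hperp h1, zero_add, sum_inner]
    refine Finset.sum_congr rfl fun j _ => ?_
    rw [S.Jc_smul, inner_smul_left, inner_conj_symm, S.inner_Jc_w hm hm1 h2 j]
  have hE : inner ℂ (S.Phi u) x = ∑ j, (inner ℂ u (w j) : ℂ) *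
      ((∫ z, z j * m z ∂(γN (n + 1)) : ℝ) : ℂ) := by
    rw [S.inner_Phi_eq, hx, hJ, Finset.mul_sum]
    refine Finset.sum_congr rfl fun j _ => ?_
    linear_combination (-(inner ℂ u (w j) : ℂ) *
      ((∫ z, z j * m z ∂(γN (n + 1)) : ℝ) : ℂ)) * Complex.I_mul_I
  unfold Ef
  rw [← hu, hE, Fin.sum_univ_succ]
  have e0 : inner ℂ u (w 0) = (0 : ℂ) := by
    rw [hu, h0, ← inner_conj_symm, S.e0_perp, map_zero]
  have ek : ∀ k : Fin n, inner ℂ u (w k.succ) = ((q k : ℝ) : ℂ) := by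
    intro k
    rw [hu, hY, LinearIsometry.inner_map_map, inner_plus, hx, hq]
  simp_rw [ek, e0]
  rw [zero_mul, zero_add, Complex.re_sum]
  refine Finset.sum_congr rfl fun k _ => ?_
  rw [← Complex.ofReal_mul, Complex.ofReal_re]

/-- the value of a scheme -/
theorem ef_scheme {ψ : Fin n → (Fin (n + 1) → ℝ) → ℝ} (hS : Scheme n ψ m)
    (hw : Orthonormal ℂ w) (h0 : w 0 = S.e0) {Y : Fin n → F}
    (hY : ∀ k : Fin n, w k.succ = S.iota (plus (Y k)))
    (hq : ∀ k, inner ℂ y (Y k) = ((∫ z, ψ k z * m z ∂(γN (n + 1)) : ℝ) : ℂ))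
    (h1 : y ∈ closure ((Submodule.span ℂ (Set.range fun k : Fin (n + 1) → ℝ =>
      S.W (lcw w k) S.Om) : Submodule ℂ F) : Set F))
    (h2 : ∀ k, inner ℂ (S.W (lcw w k) S.Om) y =
      ∫ z, Complex.exp (-(Complex.I * ((∑ i, k i * z i : ℝ) : ℂ))) * (m z : ℂ) ∂(γN (n + 1)))
    {x : HH F} (hx : pcomp x = y) : S.Ef x = sval n ψ m :=
  S.ef_value hS.mcont hS.mbd hw h0 hY hq h1 h2 hx

end Weyl

end Vale.Agent.P367.NI
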